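import Vale.Agent.P287Q.H1.PrincC

/-!
# Embedded resolution: the first centre which meets the regular part contains it
-/

open Filter Topology Set Function Asymptotics

noncomputable section

namespace Vale.Agent.P287Q.H1

open Mf

variable {n : ℕ}

namespace Mf

/-- `γ` respects the charts -/
def Hol (X : Mf n) (γ : OpenPartialHomeomorph X.M X.M) : Prop :=
  ∀ p ∈ γ.source, ∀ φ, X.Co (γ p) φ → X.Co p (φ ∘ γ)

/-- `γ'` covers `γ` -/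
def Cov {X X' : Mf n} (π : X'.M → X.M) (γ' : OpenPartialHomeomorph X'.M X'.M)
    (γ : OpenPartialHomeomorph X.M X.M) : Prop :=
  ∀ b ∈ γ'.source, π b ∈ γ.source ∧ π (γ' b) = γ (π b)

/-- all local isomorphisms which cover an element of `X.Γ` belong to `X'.Γ` -/
def Full {X X' : Mf n} (π : X'.M → X.M) : Prop :=
  ∀ γ', X'.Hol γ' → X'.Hol γ'.symm → (∃ γ ∈ X.Γ, Cov π γ' γ) → γ' ∈ X'.Γ

/-- `U` is a connected open part of the zero set on which `X.Γ` is locally transitive -/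
structure Rg (X : Mf n) {κ : Type} (f : X.M → κ → X.M → ℂ) (U : Set X.M) : Prop where
  conn : IsConnected U
  sub : U ⊆ zs f
  opn : ∀ p ∈ U, ∀ᶠ z in 𝓝 p, z ∈ zs f → z ∈ U
  hom : ∀ p ∈ U, ∀ᶠ q in 𝓝 p, q ∈ U → ∃ γ ∈ X.Γ, p ∈ γ.source ∧ γ p = q

variable {X X' : Mf n} {π : X'.M → X.M} {C : Set X.M}

theorem Cov.symm {γ' : OpenPartialHomeomorph X'.M X'.M} {γ : OpenPartialHomeomorph X.M X.M}
    (h : Cov π γ' γ) : Cov π γ'.symm γ.symm := by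
  intro b hb
  obtain ⟨h1, h2⟩ := h (γ'.symm b) (γ'.map_target hb)
  rw [γ'.right_inv hb] at h2
  rw [h2, γ.left_inv h1]
  exact ⟨γ.map_source h1, rfl⟩

theorem Cov.hol (hB : IsBl π C) {γ' : OpenPartialHomeomorph X'.M X'.M}
    {γ : OpenPartialHomeomorph X.M X.M} (h : Cov π γ' γ) (hγ : γ ∈ X.Γ)
    (hs : ∀ b ∈ γ'.source, π b ∉ C ∧ π (γ' b) ∉ C) : X'.Hol γ' := by
  intro b hb φ' hφ'
  obtain ⟨φ, hφ⟩ := X.exi (π (γ' b))
  obtain ⟨θ, h1, h2⟩ := X'.tr _ _ _ (hB.off _ (hs b hb).2 φ hφ) hφ'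
  have h3 : X'.Co b ((φ ∘ γ) ∘ π) :=
    hB.off b (hs b hb).1 _ (X.hol γ hγ _ (h b hb).1 φ ((h b hb).2 ▸ hφ))
  refine X'.sat b _ _ θ h3 (by simpa [← (h b hb).2] using h1) ?_
  filter_upwards [(prn_tendsto hb).eventually h2, γ'.open_source.mem_nhds hb] with z k1 k2
  simp only [comp_apply] at k1 ⊢
  rw [k1, (h z k2).2]

theorem IsBl.exists_oph [Nonempty X'.M] (hB : IsBl π C) (hC : IsClosed C)
    (hb : BijOn π (π ⁻¹' Cᶜ) Cᶜ) : ∃ e : OpenPartialHomeomorph X'.M X.M,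
      ⇑e = π ∧ e.source = π ⁻¹' Cᶜ ∧ e.target = Cᶜ := by
  have ho : IsOpen (π ⁻¹' Cᶜ) := hC.isOpen_compl.preimage hB.cont
  refine ⟨OpenPartialHomeomorph.ofContinuousOpenRestrict (hb.toPartialEquiv π _ _)
    hB.cont.continuousOn (isOpenMap_iff_nhds_le.2 fun b s hs => ?_) ho, rfl, rfl, rfl⟩
  have h1 : ∀ᶠ z in 𝓝 b.1, π z ∈ s :=
    (ho.isOpenEmbedding_subtypeVal.map_nhds_eq b).ge (show π ⁻¹' s ∈ map _ _ from hs)
  exact hB.map_prn (b := b.1) b.2 (Q := fun w => w ∈ s) h1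

theorem Rg.sub_of_meet {κ : Type} {f : X.M → κ → X.M → ℂ} {U : Set X.M} (h : X.Rg f U)
    (hC : IsClosed C) (hI : X.Inv C) (hd : ¬ Disjoint C U) : U ⊆ C := by
  obtain ⟨p, hp, hp'⟩ := not_disjoint_iff.1 hd
  have k : ∀ z ∈ U, z ∈ C → ∀ᶠ q in 𝓝 z, q ∈ U → q ∈ C := fun z h1 h2 => by
    filter_upwards [h.hom z h1] with q hq h3
    obtain ⟨γ, a1, a2, rfl⟩ := hq h3
    exact hI γ a1 z a2 h2
  intro q hq
  by_contra hq'
  obtain ⟨z, h1, h2, h3⟩ := h.conn.2 {z | ∀ᶠ q in 𝓝 z, q ∈ U → q ∈ C} Cᶜ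
    isOpen_setOfPred_eventually_nhds hC.isOpen_compl (fun z hz => (em (z ∈ C)).imp (k z hz) id)
    ⟨p, hp', k p hp' hp⟩ ⟨q, hq, hq'⟩
  exact h3 (h2.self_of_nhds h1)

theorem WT.zs_sub {κ : Type} {f : X.M → κ → X.M → ℂ} {f' : X'.M → κ → X'.M → ℂ}
    (h : WT π C f f') : zs f' ⊆ π ⁻¹' zs f := fun b hb i => by
  obtain ⟨e, -, k⟩ := h b
  rw [k.self_of_nhds i, hb i, mul_zero]

theorem WT.zs_off {κ : Type} {f : X.M → κ → X.M → ℂ} {f' : X'.M → κ → X'.M → ℂ}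
    (h : WT π C f f') {b : X'.M} (hb : π b ∉ C) (h0 : π b ∈ zs f) : b ∈ zs f' := fun i => by
  obtain ⟨e, he, k⟩ := h b
  have a1 := k.self_of_nhds i
  rw [h0 i] at a1
  exact (mul_eq_zero.1 a1.symm).resolve_left fun a2 => hb (he.zero.self_of_nhds.2 a2)

theorem Rg.up {κ : Type} {f : X.M → κ → X.M → ℂ} {f' : X'.M → κ → X'.M → ℂ} {U : Set X.M}
    (h : X.Rg f U) (hB : IsBl π C) (hC : IsClosed C) (hb : BijOn π (π ⁻¹' Cᶜ) Cᶜ) (hF : Full π)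
    (hd : Disjoint C U) (hw : WT π C f f') : X'.Rg f' (π ⁻¹' U) := by
  have hU : U ⊆ Cᶜ := hd.symm.subset_compl_right
  obtain ⟨p, hp⟩ := h.conn.1
  obtain ⟨b₀, -, rfl⟩ := hb.surjOn (hU hp)
  have ht : ∀ b, Tendsto π (𝓝 b) (𝓝 (π b)) := fun b => hB.cont.continuousAt
  refine ⟨⟨⟨b₀, hp⟩, PrC.pre_conn hB hC hb h.conn.2 hU⟩, fun b k => hw.zs_off (hU k) (h.sub k),
    fun b k => ((ht b).eventually (h.opn _ k)).mono fun z k1 k2 => k1 (hw.zs_sub k2),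
    fun b k => ?_⟩
  have : Nonempty X'.M := ⟨b⟩
  obtain ⟨e, e1, e2, e3⟩ := hB.exists_oph hC hb
  filter_upwards [(ht b).eventually (h.hom _ k)] with q hq k1
  obtain ⟨γ, a1, a2, a3⟩ := hq k1
  have hc : Cov π (e.trans (γ.trans e.symm)) γ := by
    intro z hz
    simp only [OpenPartialHomeomorph.trans_source, OpenPartialHomeomorph.symm_source, mem_inter_iff,
      mem_preimage, e1] at hz
    refine ⟨hz.2.1, ?_⟩
    have := e.right_inv hz.2.2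
    simpa [e1] using this
  have hs : ∀ z ∈ (e.trans (γ.trans e.symm)).source,
      π z ∉ C ∧ π ((e.trans (γ.trans e.symm)) z) ∉ C := by
    intro z hz
    rw [(hc z hz).2]
    simp only [OpenPartialHomeomorph.trans_source, OpenPartialHomeomorph.symm_source, mem_inter_iff,
      mem_preimage, e1, e2, e3] at hz
    exact ⟨hz.1, hz.2.2⟩
  have hbs : b ∈ (e.trans (γ.trans e.symm)).source := by
    simp only [OpenPartialHomeomorph.trans_source, OpenPartialHomeomorph.symm_source, mem_inter_iff,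
      mem_preimage, e1, e2, e3]
    exact ⟨hU k, a2, a3 ▸ hU k1⟩
  refine ⟨_, hF _ (hc.hol hB a1 hs) (hc.symm.hol hB (X.symm γ a1) fun z hz => ?_) ⟨γ, a1, hc⟩,
    hbs, hb.injOn (hs b hbs).2 (hU k1) ((hc b hbs).2.trans a3)⟩
  have := hs _ ((e.trans (γ.trans e.symm)).map_target hz)
  rw [(e.trans (γ.trans e.symm)).right_inv hz] at this
  exact this.symm

end Mf

/-- embedded resolution: in some state a smooth centre inside the zero set contains `U` -/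
def StEmb : Prop := ∀ (n : ℕ) (κ : Type) [Fintype κ]
  (P : ∀ X : Mf n, (X.M → κ → X.M → ℂ) → Set X.M → Prop),
    (∀ (X : Mf n) (f : X.M → κ → X.M → ℂ) (U C : Set X.M) (c : ℕ), P X f U → X.Coh f → X.Rg f U →
      X.Ctr C c → C ⊆ zs f → Disjoint C U → ∃ (X' : Mf n) (π : X'.M → X.M), IsBl π C ∧
        BijOn π (π ⁻¹' Cᶜ) Cᶜ ∧ Full π ∧ ∀ f', WT π C f f' → X'.Coh f' → P X' f' (π ⁻¹' U)) →
      ∀ (X : Mf n) (f : X.M → κ → X.M → ℂ) (U : Set X.M), P X f U → X.Coh f → X.Rg f U →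
        ∃ (X' : Mf n) (f' : X'.M → κ → X'.M → ℂ) (U' C : Set X'.M) (c : ℕ), P X' f' U' ∧
          X'.Coh f' ∧ X'.Rg f' U' ∧ X'.Ctr C c ∧ C ⊆ zs f' ∧ U' ⊆ C

/-- **Embedded resolution.** -/
theorem emb : StEmb := by
  intro n κ _ P hP X f U h1 h2 h3
  by_contra hc
  obtain ⟨X', f', ⟨U', -, k⟩, -, h4⟩ := princ n κ (fun X f => ∃ U, P X f U ∧ X.Rg f U) (by
    rintro X f C c ⟨U, a1, a2⟩ a3 a4 a5
    have hd : Disjoint C U := by
      by_contra hd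
      exact hc ⟨X, f, U, C, c, a1, a3, a2, a4, a5, a2.sub_of_meet a4.closed a4.inv hd⟩
    obtain ⟨X', π, b1, b2, b3, b4⟩ := hP X f U C c a1 a3 a2 a4 a5 hd
    exact ⟨X', π, b1, fun f' hw hf => ⟨_, b4 f' hw hf, a2.up b1 a4.closed b2 b3 hd hw⟩⟩)
    X f ⟨U, h1, h3⟩ h2
  obtain ⟨p, hp⟩ := k.conn.1
  exact (h4 ▸ k.sub) hp

end Vale.Agent.P287Q.H1
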