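import Vale.Agent.P287Q.H1.Adapt0

/-!
# P287, resolution: coordinates which are adapted to a centre and to a presentation
-/

open Filter Topology Set Function

noncomputable section

namespace Vale.Agent.P287Q.H1

theorem fderiv_left {E : Type*} [NormedAddCommGroup E] [NormedSpace ℂ E] {Φ Ψ : E → E} {a : E}
    (h : DifferentiableAt ℂ Φ a) (h' : DifferentiableAt ℂ Ψ (Φ a)) (e : ∀ᶠ z in 𝓝 a, Ψ (Φ z) = z)
    (v : E) : fderiv ℂ Ψ (Φ a) (fderiv ℂ Φ a v) = v :=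
  congrArg (fun L : E →L[ℂ] E => L v) ((h'.hasFDerivAt.comp a h.hasFDerivAt).unique
    ((hasFDerivAt_id a).congr_of_eventuallyEq e))

variable {ι : Type*} [Fintype ι] [DecidableEq ι]

omit [Fintype ι] [DecidableEq ι] in
theorem fderiv_crd {E : Type*} [NormedAddCommGroup E] [NormedSpace ℂ E] {Φ : E → ι → ℂ} {a : E}
    (h : DifferentiableAt ℂ Φ a) (v : E) (i : ι) :
    fderiv ℂ (fun z => Φ z i) a v = fderiv ℂ Φ a v i := by
  rw [fderiv_apply h i]
  rfl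

/-- the differential of a function which vanishes on a coordinate hyperplane -/
theorem fderiv_hyp {f : (ι → ℂ) → ℂ} {a : ι → ℂ} (hf : DifferentiableAt ℂ f a) {i : ι}
    (ha : a i = 0) (h : ∀ᶠ z in 𝓝 a, z i = 0 → f z = 0) (v : ι → ℂ) :
    fderiv ℂ f a v = v i * fderiv ℂ f a (Pi.single i 1) := by
  conv_lhs => rw [pi_eq_sum_univ' v, map_sum]
  rw [Finset.sum_eq_single i (fun j _ hj => ?_) (by simp), map_smul, smul_eq_mul]
  rw [map_smul, fderiv_single hf, smul_zero]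
  have t : Tendsto (fun t : ℂ => a + t • (Pi.single j 1 : ι → ℂ)) (𝓝 0) (𝓝 a) :=
    Continuous.tendsto' (by fun_prop) _ _ (by simp)
  filter_upwards [t.eventually h] with t ht
  refine ht ?_
  rw [Pi.add_apply, ha, Pi.smul_apply, Pi.single_eq_of_ne hj.symm, smul_zero, add_zero]

/-- **ADAPT**: the centre is `{θ_A = 0}`; the coordinates in `K₁` vanish on it, those in `K₂` are
associated to coordinates of `θ` outside `A`; `P` kills the coordinates in `T`. -/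
theorem adapt1 {θ P : (ι → ℂ) → ι → ℂ} {q : ι → ℂ} (hθ : AnalyticAt ℂ θ q)
    (hθ' : Injective (fderiv ℂ θ q)) (T K₁ K₂ A : Set ι) (s : ι → ι)
    (hP : ∀ z, ∀ l ∈ T, P z l = 0) (hP' : ∀ z l, l ∉ T → P z l = z l) (hT : T ⊆ K₁)
    (hK : Disjoint K₁ K₂) (hA : ∀ l ∈ A, θ q l = 0)
    (h1 : ∀ᶠ z in 𝓝 q, (∀ l ∈ A, θ z l = 0) → ∀ l ∈ K₁, z l = 0) (hs : InjOn s K₂)
    (h2 : ∀ l ∈ K₂, s l ∉ A ∧ θ q (s l) = 0 ∧ ∀ᶠ z in 𝓝 q, θ z (s l) = 0 → z l = 0) :
    ∃ (Θ : (ι → ℂ) → ι → ℂ) (τ : Equiv.Perm ι), AnalyticAt ℂ Θ q ∧ Bijective (fderiv ℂ Θ q) ∧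
      (∀ z, ∀ l ∈ K₁ ∪ K₂, Θ z l = z l) ∧ (∀ z l, l ∉ T → Θ (P z) l = Θ z l) ∧
      (∀ l ∈ K₁, τ l ∈ A) ∧ (∀ l ∈ K₂, τ l ∉ A) ∧
      ∀ᶠ z in 𝓝 q, ((∀ l, τ l ∈ A → Θ z l = 0) ↔ ∀ l ∈ A, θ z l = 0) := by
  classical
  obtain ⟨η, n1, n2, n3⟩ := ift hθ hθ'
  have n4 : Tendsto η (𝓝 (θ q)) (𝓝 q) := by
    have := n1.continuousAt.tendsto
    rwa [n2.self_of_nhds] at this
  have n5 : ∀ l, AnalyticAt ℂ (fun u => η u l) (θ q) := analyticAt_pi_iff.1 n1
  have n6 : ∀ w l, fderiv ℂ (fun u => η u l) (θ q) (fderiv ℂ θ q w) = w l := fun w l => by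
    rw [fderiv_crd n1.differentiableAt, fderiv_left hθ.differentiableAt n1.differentiableAt n2]
  have n7 : ∀ w, ∀ l ∈ K₂, w l = 0 → fderiv ℂ θ q w (s l) = 0 := fun w l hl hw => by
    have a1 := fderiv_hyp (n5 l).differentiableAt (h2 l hl).2.1 (by
      filter_upwards [n4.eventually (h2 l hl).2.2, n3] with u u1 u2 u3
      exact u1 (by rw [u2, u3]))
    have a2 := n6 w l
    have a3 := n6 (Pi.single l 1) l
    rw [a1, hw] at a2
    rw [a1, Pi.single_eq_same] at a3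
    exact (mul_eq_zero.1 a2).resolve_right fun e => by simp [e] at a3
  obtain ⟨e, Φ, Ψ, e1, e2, e3, e4, e5, -, e7, e8, e9⟩ := adapt0 (fun (l : K₁) u => η u l) (θ q) A
    (s '' K₂) (fun l => n5 l) hA (by
      filter_upwards [n4.eventually h1, n3] with u u1 u2 u3 l
      exact u1 (by rwa [u2]) l l.2) fun c => by
      refine ⟨fderiv ℂ θ q fun l => if h : l ∈ K₁ then c ⟨l, h⟩ else 0, ?_, fun l => ?_⟩
      · rintro _ ⟨l, hl, rfl⟩
        exact n7 _ l hl (dif_neg (disjoint_right.1 hK hl))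
      · rw [n6]
        exact dif_pos l.2
  obtain ⟨τ, hτ⟩ := Equiv.Perm.exists_extending_pair (f := fun l : ↥(K₁ ∪ K₂) => l.1)
    (g := fun l => if h : l.1 ∈ K₁ then e ⟨l, h⟩ else s l) Subtype.val_injective fun l l' h => by
      by_cases a : l.1 ∈ K₁ <;> by_cases b : l'.1 ∈ K₁ <;>
        simp only [a, b, dif_pos, dif_neg, not_false_eq_true] at h
      · exact Subtype.ext (congrArg Subtype.val (e1 h) :)
      · exact absurd (h ▸ (e2 _).1) (h2 _ (l'.2.resolve_left b)).1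
      · exact absurd (h ▸ (e2 _).1) (h2 _ (l.2.resolve_left a)).1
      · exact Subtype.ext (hs (l.2.resolve_left a) (l'.2.resolve_left b) h)
  have t1 : ∀ l : K₁, τ l = e l := fun l => (hτ ⟨l, .inl l.2⟩).trans (dif_pos l.2)
  have t2 : ∀ l ∈ K₂, τ l = s l := fun l hl =>
    (hτ ⟨l, .inr hl⟩).trans (dif_neg (disjoint_right.1 hK hl))
  have t3 : ∀ l, τ l ∈ range e → l ∈ K₁ := fun l ⟨k, hk⟩ => τ.injective ((t1 k).trans hk) ▸ k.2
  let Pl : (ι → ℂ) →L[ℂ] ι → ℂ :=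
    ContinuousLinearMap.pi fun l => if l ∈ T then 0 else ContinuousLinearMap.proj l
  have p1 : P = Pl := funext fun z => funext fun l => by
    by_cases h : l ∈ T
    · simp [Pl, h, hP z l h]
    · simp [Pl, h, hP' z l h]
  have p2 : ∀ z : ι → ℂ, (∀ l ∈ K₁, z l = 0) → P z = z := fun z hz => funext fun l => by
    by_cases h : l ∈ T
    · rw [hP z l h, hz l (hT h)]
    · exact hP' z l h
  have p3 : P q = q := p2 q (h1.self_of_nhds hA)
  have p4 : HasFDerivAt (fun z => θ (P z)) ((fderiv ℂ θ q).comp Pl) q :=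
    HasFDerivAt.comp q (g := θ) (p3.symm ▸ hθ.differentiableAt.hasFDerivAt) (p1 ▸ Pl.hasFDerivAt)
  have p5 : AnalyticAt ℂ (fun z => θ (P z)) q :=
    AnalyticAt.comp (g := θ) (p3.symm ▸ hθ) (p1 ▸ Pl.analyticAt q)
  let Θ : (ι → ℂ) → ι → ℂ := fun z l => if l ∈ K₁ ∪ K₂ then z l else θ (P z) (τ l)
  have b1 : ∀ z, ∀ l ∈ K₁ ∪ K₂, Θ z l = z l := fun z l hl => if_pos hl
  have b2 : ∀ z l, l ∉ K₁ ∪ K₂ → Θ z l = θ (P z) (τ l) := fun z l hl => if_neg hl
  have b3 : AnalyticAt ℂ Θ q := AnalyticAt.pi fun l => by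
    by_cases h : l ∈ K₁ ∪ K₂
    · exact (funext fun z => b1 z l h : (fun z => Θ z l) = fun z => z l).symm ▸
        (ContinuousLinearMap.proj (R := ℂ) (φ := fun _ : ι => ℂ) l).analyticAt q
    · exact (funext fun z => b2 z l h : (fun z => Θ z l) = fun z => θ (P z) (τ l)).symm ▸
        analyticAt_pi_iff.1 p5 (τ l)
  have b4 : Injective (fderiv ℂ Θ q) := (injective_iff_map_eq_zero _).2 fun v hv => by
    have c1 : ∀ l ∈ K₁ ∪ K₂, v l = 0 := fun l hl => by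
      have a := fderiv_crd b3.differentiableAt v l
      rw [hv, funext fun z => b1 z l hl, (hasFDerivAt_apply l q).fderiv] at a
      exact a
    have c2 : ∀ i, i ∉ range e → fderiv ℂ θ q v i = 0 := fun i hi => by
      obtain ⟨l, rfl⟩ := τ.surjective i
      by_cases h : l ∈ K₁ ∪ K₂
      · have h' := h.resolve_left fun h' => hi ⟨⟨l, h'⟩, (t1 ⟨l, h'⟩).symm⟩
        rw [t2 l h']
        exact n7 v l h' (c1 l h)
      · have a := fderiv_crd b3.differentiableAt v l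
        rw [hv, funext fun z => b2 z l h, fderiv_crd p4.differentiableAt, p4.fderiv,
          ContinuousLinearMap.comp_apply, ← p1, p2 v fun l hl => c1 l (.inl hl)] at a
        exact a
    have c3 : fderiv ℂ Φ (θ q) (fderiv ℂ θ q v) = 0 := funext fun i => by
      rw [← fderiv_crd e3.differentiableAt]
      by_cases hi : i ∈ range e
      · obtain ⟨k, rfl⟩ := hi
        rw [funext fun z => e7 z k, n6]
        exact c1 k (.inl k.2)
      · rw [funext fun z => e8 z i hi, (hasFDerivAt_apply i _).fderiv]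
        exact c2 i hi
    have c4 := fderiv_left e3.differentiableAt e4.differentiableAt e5 (fderiv ℂ θ q v)
    rw [c3, map_zero] at c4
    exact hθ' (c4.symm.trans (map_zero _).symm)
  refine ⟨Θ, τ, b3, ⟨b4, (LinearMap.injective_iff_surjective
    (f := (fderiv ℂ Θ q : (ι → ℂ) →ₗ[ℂ] ι → ℂ))).1 b4⟩, b1, fun z l hl => ?_,
    fun l hl => (t1 ⟨l, hl⟩).symm ▸ (e2 _).1, fun l hl => (t2 l hl).symm ▸ (h2 l hl).1, ?_⟩
  · by_cases h : l ∈ K₁ ∪ K₂
    · rw [b1 _ l h, b1 _ l h, hP' z l hl]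
    · rw [b2 _ l h, b2 _ l h]
      refine congrArg (fun w => θ w (τ l)) (funext fun j => ?_)
      by_cases hj : j ∈ T
      · rw [hP _ j hj, hP _ j hj]
      · rw [hP' _ j hj]
  filter_upwards [h1, n2, hθ.continuousAt.eventually e9] with z z1 z2 z3
  refine ⟨fun h => z3.1 fun i hi => ?_, fun h l hl => ?_⟩
  · have c1 : ∀ l ∈ K₁, z l = 0 := fun l hl =>
      (b1 z l (.inl hl)).symm.trans (h l ((t1 ⟨l, hl⟩).symm ▸ (e2 _).1))
    by_cases h' : i ∈ range e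
    · obtain ⟨k, rfl⟩ := h'
      rw [e7, z2, c1 k k.2]
    · obtain ⟨l, rfl⟩ := τ.surjective i
      rw [e8 _ _ h', ← p2 z c1, ← b2 z l, h l hi]
      rintro (hl | hl)
      · exact h' ⟨⟨l, hl⟩, (t1 ⟨l, hl⟩).symm⟩
      · exact (h2 l hl).1 (t2 l hl ▸ hi)
  · by_cases h' : l ∈ K₁ ∪ K₂
    · rw [b1 z l h']
      exact z1 h l (h'.resolve_right fun hl' => (h2 l hl').1 (t2 l hl' ▸ hl))
    · rw [b2 z l h', p2 z (z1 h), h _ hl]

end Vale.Agent.P287Q.H1
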