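import Vale.Agent.P287Q.H1.Defs
import Vale.Agent.P287Q.H1.Adapt1

/-!
# P287, resolution: presentations in charts which are adapted to the centre
-/

open Filter Topology Set Function Asymptotics

noncomputable section

namespace Vale.Agent.P287Q.H1

open Mf

variable {n : ℕ} {X : Mf n} {E : Dv X} {k D : ℕ} {a : ℕ → ℕ} {f : X.M → ℝ} {p : X.M}
  {φ : X.M → W n}

theorem ad_map (h : X.Co p φ) : map φ (𝓝 p) = 𝓝 (φ p) := by
  obtain ⟨e, e1, e2⟩ := X.hom p φ h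
  rw [map_congr e2, e.map_nhds_eq e1, e2.self_of_nhds]

theorem ad_ev (h : X.Co p φ) {R : W n → Prop} : (∀ᶠ w in 𝓝 (φ p), R w) ↔ ∀ᶠ z in 𝓝 p, R (φ z) := by
  rw [← ad_map h, eventually_map]

theorem ad_rt (D : ℕ) {x : ℝ} (hx : 0 ≤ x) : 0 ≤ rt D x := Real.rpow_nonneg hx _

theorem ad_nm {κ : Type} [Fintype κ] (g : κ → W n → ℂ) (z : W n) : 0 ≤ nm g z :=
  Finset.sum_nonneg fun _ _ => norm_nonneg _

/-- a factor with a positive limit does not change the size -/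
theorem theta_unit {α : Type*} {F : Filter α} {x t c : α → ℝ} {c₀ : ℝ} (hx : ∀ z, 0 ≤ x z)
    (ht : ∀ z, 0 ≤ t z) (hc : Tendsto c F (𝓝 c₀)) (h0 : 0 < c₀) :
    (fun z => x z + c z * t z) =Θ[F] fun z => x z + t z := by
  have h1 : ∀ᶠ z in F, c₀ / 2 < c z := hc.eventually (lt_mem_nhds (half_lt_self h0))
  have h2 : ∀ᶠ z in F, c z < c₀ + 1 := hc.eventually (gt_mem_nhds (lt_add_one _))
  refine ⟨IsBigO.of_bound (c₀ + 1) ?_, IsBigO.of_bound (2 / c₀ + 1) ?_⟩
  · filter_upwards [h1, h2] with z z1 z2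
    have a1 := hx z
    have a2 := ht z
    have a3 : 0 < c z := by linarith
    rw [Real.norm_of_nonneg (by positivity), Real.norm_of_nonneg (by positivity)]
    nlinarith
  · filter_upwards [h1] with z z1
    have a1 := hx z
    have a2 := ht z
    have a3 : 0 < c z := by linarith
    have a4 : 1 ≤ 2 / c₀ * c z := by
      rw [div_mul_eq_mul_div, le_div_iff₀ h0]
      linarith
    have a5 : 0 < 2 / c₀ := by positivity
    rw [Real.norm_of_nonneg (by positivity), Real.norm_of_nonneg (by positivity)]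
    nlinarith [mul_nonneg a3.le a2, mul_nonneg a5.le a1, mul_le_mul_of_nonneg_right a4 a2]

theorem ord1_zero (h : X.Ord1 f p) : f p = 0 := by
  obtain ⟨φ, -, h⟩ := h
  obtain ⟨C, hC⟩ := h.bound
  simpa using hC.self_of_nhds

/-- the first coordinates of a presentation vanish on the support -/
theorem x_zero {O : Obj X} {k₀ D₀ : ℕ} (hO : Lev E k₀ D₀ O) (hp : p ∈ O.S) {E' : Dv X}
    {P : Pres n k (φ p)} (hP : IsPres E' k D a (O.N p) p φ P) :
    ∀ᶠ z in 𝓝 p, z ∈ O.S → pr k (φ z) = φ z := by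
  obtain ⟨C, hC⟩ := hP.2.2.bound
  filter_upwards [hO.supp p hp, hC] with z z1 z2 hz
  rw [ord1_zero (z1.1 hz), norm_zero, mul_zero, norm_le_zero_iff] at z2
  have h1 := ad_rt D (mul_nonneg (norm_nonneg (mon (ex a P.nu) (φ z))) (ad_nm P.g (φ z)))
  have h2 : ‖φ z - pr k (φ z)‖ + _ = 0 := z2
  exact (sub_eq_zero.1 (norm_le_zero_iff.1 (by linarith))).symm

/-- **ADAPT** -/
theorem adapt {P : Pres n k (φ p)} (hP : IsPres E k D a f p φ P) {c : ℕ} {J : Finset ℕ}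
    {C : Set X.M} (hC : Snc E c J C p) (hp : p ∈ C)
    (hx : ∀ᶠ z in 𝓝 p, z ∈ C → pr k (φ z) = φ z) (hJ : C ⊆ E.cap J) :
    ∃ (Θ : W n → W n) (A : Finset (Fin n)) (g : P.κ → W n → ℂ) (P' : Pres n k ((Θ ∘ φ) p)),
      IsCo Θ (φ p) ∧ IsPres E k D a f p (Θ ∘ φ) P' ∧ A.card = c ∧
      (∀ᶠ z in 𝓝 p, z ∈ C ↔ (Θ ∘ φ) z ∈ Zs A) ∧ (∀ l : Fin n, l.val < k → l ∈ A) ∧
      (∀ l j, P'.nu l = some j → (l ∈ A ↔ j ∈ J)) ∧ (∀ j ∈ J, ∃ l, P'.nu l = some j) ∧
      (∀ l, P'.nu l = if φ p l = 0 then P.nu l else none) ∧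
      (∀ z l, l.val < k ∨ P'.nu l ≠ none → Θ z l = z l) ∧ (∀ z, pr k (Θ z) = Θ (pr k z)) ∧
      nm P'.g = nm g ∧ (∀ i, AnalyticAt ℂ (g i) (Θ (φ p))) ∧ (∀ i, Ind k (g i)) ∧
      ∀ᶠ w in 𝓝 (φ p), ∀ i, g i (Θ w) = P.g i w := by
  classical
  obtain ⟨ψ, A, nu', c1, c2, c3, c4, c5, c6⟩ := hC
  obtain ⟨⟨h1, h2⟩, h3⟩ := hP
  obtain ⟨θ, t1, t2⟩ := X.tr p φ ψ h1 c1
  have t3 : ψ p = θ (φ p) := t2.self_of_nhds
  have k1 : ∀ j ∈ J, ∃ l, P.nu l = some j ∧ φ p l = 0 := fun j hj =>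
    (h2.self_of_nhds j).1 (hJ hp j hj)
  have k2 : ∀ l, ∃ i, ∀ j ∉ J, P.nu l = some j → φ p l = 0 → nu' i = some j ∧ ψ p i = 0 := fun l => by
    by_cases h : ∃ j ∉ J, P.nu l = some j ∧ φ p l = 0
    · obtain ⟨j, a1, a2, a3⟩ := h
      obtain ⟨i, hi⟩ := (c6.self_of_nhds j a1).1 ((h2.self_of_nhds j).2 ⟨l, a2, a3⟩)
      exact ⟨i, fun j' _ b _ => Option.some_injective _ (a2.symm.trans b) ▸ hi⟩
    · exact ⟨l, fun j a1 a2 a3 => (h ⟨j, a1, a2, a3⟩).elim⟩
  choose s hs using k2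
  obtain ⟨Θ, τ, b1, b2, b3, b4, b5, b6, b7⟩ := adapt1 (P := pr k) t1.1 t1.2.1
    {l | l.val < k} {l | l.val < k ∨ ∃ j ∈ J, P.nu l = some j}
    {l | ∃ j ∉ J, P.nu l = some j ∧ φ p l = 0} A s (fun z l hl => if_pos hl)
    (fun z l hl => if_neg hl) (fun l hl => .inl hl)
    (disjoint_left.2 fun l hl ⟨j, a1, a2, _⟩ => by
      rcases hl with hl | ⟨j', a4, a5⟩
      · simp [P.free l hl] at a2
      · exact a1 (Option.some_injective _ (a5.symm.trans a2) ▸ a4))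
    (fun l hl => t3 ▸ c3.self_of_nhds.1 hp l hl)
    ((ad_ev h1).2 (by
      filter_upwards [c3, t2, hx, h2] with z z1 z2 z3 z4 hz l hl
      have hz' : z ∈ C := z1.2 (z2 ▸ hz)
      rcases hl with hl | ⟨j, a1, a2⟩
      · rw [← z3 hz']
        exact if_pos hl
      · obtain ⟨l', a3, a4⟩ := (z4 j).1 (hJ hz' j a1)
        exact P.inj _ _ _ a3 a2 ▸ a4))
    (fun l ⟨j, a1, a2, a3⟩ l' ⟨j', a4, a5, a6⟩ e => by
      have a7 := (hs l j a1 a2 a3).1
      rw [e, (hs l' j' a4 a5 a6).1] at a7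
      exact P.inj _ _ _ a2 (a5.trans a7))
    fun l ⟨j, a1, a2, a3⟩ => by
      obtain ⟨a4, a5⟩ := hs l j a1 a2 a3
      refine ⟨fun h => by simp [c4 _ h] at a4, t3 ▸ a5, (ad_ev h1).2 ?_⟩
      filter_upwards [c6, t2, h2] with z z1 z2 z3 hz
      obtain ⟨l', a6, a7⟩ := (z3 j).1 ((z1 j a1).2 ⟨s l, a4, z2 ▸ hz⟩)
      exact P.inj _ _ _ a6 a2 ▸ a7
  let nu : Fin n → Option ℕ := fun l => if φ p l = 0 then P.nu l else none
  have n1 : ∀ l j, nu l = some j ↔ P.nu l = some j ∧ φ p l = 0 := fun l j => by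
    by_cases h : φ p l = 0 <;> simp [nu, h]
  have n2 : ∀ z l, l.val < k ∨ nu l ≠ none → Θ z l = z l := fun z l hl => by
    refine b3 z l ?_
    rcases hl with hl | hl
    · exact .inl (.inl hl)
    · obtain ⟨j, hj⟩ := Option.ne_none_iff_exists'.1 hl
      by_cases h : j ∈ J
      · exact .inl (.inr ⟨j, h, ((n1 l j).1 hj).1⟩)
      · exact .inr ⟨j, h, (n1 l j).1 hj⟩
  have n3 : ∀ z, pr k (Θ z) = Θ (pr k z) := fun z => funext fun l => by
    by_cases h : l.val < k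
    · rw [n2 _ l (.inl h)]
      exact (if_pos h).trans (if_pos h).symm
    · exact (if_neg h).trans (b4 z l h).symm
  have q1 : pr k (φ p) = φ p := hx.self_of_nhds hp
  have q2 : ∀ w : W n, AnalyticAt ℂ (pr k) w := fun w => AnalyticAt.pi fun l => by
    by_cases h : l.val < k
    · simpa only [pr, if_pos h] using analyticAt_const
    · simpa only [pr, if_neg h] using!
        (ContinuousLinearMap.proj (R := ℂ) (φ := fun _ : Fin n => ℂ) l).analyticAt w
  have q3 : ∀ w : W n, pr k (pr k w) = pr k w := fun w => funext fun l => by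
    by_cases h : l.val < k
    · exact (if_pos h).trans (if_pos h).symm
    · exact if_neg h
  obtain ⟨η, e1, e2, -⟩ := ift b1 b2.1
  have q4 : pr k (Θ (φ p)) = Θ (φ p) := by rw [n3, q1]
  have g1 : ∀ i, AnalyticAt ℂ (fun w => P.g i (η (pr k w))) (Θ (φ p)) := fun i =>
    AnalyticAt.comp (g := P.g i) (by rw [q4, e2.self_of_nhds]; exact P.an i)
      (AnalyticAt.comp (g := η) (q4.symm ▸ e1) (q2 _))
  have g2 : ∀ i, Ind k fun w => P.g i (η (pr k w)) := fun i w => by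
    simp only [q3]
  have g3 : ∀ᶠ w in 𝓝 (φ p), ∀ i, P.g i (η (pr k (Θ w))) = P.g i w := by
    have t : Tendsto (pr k) (𝓝 (φ p)) (𝓝 (φ p)) := by
      have := (q2 (φ p)).continuousAt.tendsto
      rwa [q1] at this
    filter_upwards [t.eventually e2] with w hw i
    rw [n3, hw, P.ind i]
  let P' : Pres n k ((Θ ∘ φ) p) :=
    { nu := nu, κ := P.κ, g := fun i w => P.g i (η (pr k w)), le := P.le
      free := fun l hl => by simp [nu, P.free l hl]
      inj := fun l l' j a1 a2 => P.inj _ _ _ ((n1 _ _).1 a1).1 ((n1 _ _).1 a2).1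
      an := g1, ind := g2 }
  have cφ : Tendsto φ (𝓝 p) (𝓝 (φ p)) := (ad_map h1).le
  refine ⟨Θ, A.map τ.symm.toEmbedding, fun i w => P.g i (η (pr k w)), P', ⟨b1, b2⟩,
    ⟨⟨X.sat p φ _ Θ h1 ⟨b1, b2⟩ EventuallyEq.rfl, ?_⟩, h3.trans ?_⟩, by rw [Finset.card_map, c2],
    ?_, fun l hl => Finset.mem_map_equiv.2 (b5 l (.inl hl)), fun l j hl => ?_,
    fun j hj => (k1 j hj).imp fun l hl => (n1 l j).2 hl, fun _ => rfl, n2, n3, rfl, g1, g2, g3⟩
  · have a1 : ∀ᶠ z in 𝓝 p, ∀ l, φ p l ≠ 0 → φ z l ≠ 0 := eventually_all.2 fun l => by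
      by_cases h : φ p l = 0
      · exact Eventually.of_forall fun _ h' => (h' h).elim
      · exact ((((continuous_apply l).tendsto _).comp cφ).eventually_ne h).mono fun _ h' _ => h'
    filter_upwards [h2, a1] with z z1 z2 j
    refine (z1 j).trans ⟨fun ⟨l, a2, a3⟩ => ?_, fun ⟨l, a2, a3⟩ => ⟨l, ((n1 l j).1 a2).1, ?_⟩⟩
    · have a4 := (n1 l j).2 ⟨a2, by_contra fun h => z2 l h a3⟩
      exact ⟨l, a4, (n2 _ l (.inr (by simp [a4]))).trans a3⟩
    · exact (n2 _ l (.inr (by simp [show nu l = some j from a2]))).symm.trans a3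
  · suffices h : P.f D a =Θ[𝓝 (φ p)] fun w => P'.f D a (Θ w) from
      ⟨h.1.comp_tendsto cφ, h.2.comp_tendsto cφ⟩
    let u : W n → ℝ := fun w => ‖∏ l, if φ p l = 0 then 1 else w l ^ ex a P.nu l‖
    have u0 : 0 < u (φ p) := norm_pos_iff.2 (Finset.prod_ne_zero_iff.2 fun l _ => by
      by_cases h : φ p l = 0
      · simp [h]
      · simp [h])
    have u1 : Continuous u := (continuous_finsetProd _ fun l _ => by
      by_cases h : φ p l = 0
      · simpa only [if_pos h] using continuous_const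
      · simpa only [if_neg h] using! (continuous_apply l).pow _).norm
    have u2 : ∀ w, ‖mon (ex a P.nu) w‖ = u w * ‖mon (ex a nu) (Θ w)‖ := fun w => by
      rw [← norm_mul, mon, mon, ← Finset.prod_mul_distrib]
      refine congrArg norm (Finset.prod_congr rfl fun l _ => ?_)
      by_cases h : φ p l = 0
      · rw [if_pos h, one_mul]
        rcases e : P.nu l with _ | j
        · simp [ex, nu, e]
        · have a4 := (n1 l j).2 ⟨e, h⟩
          rw [n2 _ l (.inr (by simp [a4])), ex, ex, e, a4]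
      · simp [ex, nu, h]
    refine IsTheta.trans (EventuallyEq.isTheta ?_) (theta_unit (x := fun w => ‖Θ w - pr k (Θ w)‖)
      (t := fun w => rt D (‖mon (ex a nu) (Θ w)‖ * nm P'.g (Θ w))) (c := fun w => rt D (u w))
      (fun _ => norm_nonneg _) (fun _ => ad_rt _ (mul_nonneg (norm_nonneg _) (ad_nm _ _)))
      ((u1.tendsto _).rpow_const (.inl u0.ne')) (Real.rpow_pos_of_pos u0 _))
    filter_upwards [g3] with w hw
    have a1 : Θ w - pr k (Θ w) = w - pr k w := funext fun l => by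
      by_cases h : l.val < k
      · simp [pr, h, n2 w l (.inl h)]
      · simp [pr, h]
    have a2 : nm P'.g (Θ w) = nm P.g w := Finset.sum_congr rfl fun i _ => congrArg norm (hw i)
    rw [a1, a2, Pres.f, pf, u2, mul_assoc, rt, rt, rt,
      Real.mul_rpow (norm_nonneg _) (mul_nonneg (norm_nonneg _) (ad_nm _ _))]
  · filter_upwards [c3, t2, cφ.eventually b7] with z z1 z2 z3
    rw [z1, z2]
    exact z3.symm.trans (forall_congr' fun l => imp_congr_left
      (Finset.mem_map_equiv (s := A) (f := τ.symm) (b := l)).symm)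
  · obtain ⟨a1, a2⟩ := (n1 l j).1 hl
    refine Finset.mem_map_equiv.trans ⟨fun h => by_contra fun h' => b6 l ⟨j, h', a1, a2⟩ h,
      fun h => b5 l (.inr ⟨j, h, a1⟩)⟩

end Vale.Agent.P287Q.H1
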