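import Mathlib

/-!
# P287, resolution: exchange of coordinates
-/

open Filter Topology Set Function

noncomputable section

namespace Vale.Agent.P287Q.H1

/-- the analytic inverse function theorem -/
theorem ift {E : Type*} [NormedAddCommGroup E] [NormedSpace ℂ E] [FiniteDimensional ℂ E]
    {Φ : E → E} {a : E} (h : AnalyticAt ℂ Φ a) (hi : Injective (fderiv ℂ Φ a)) :
    ∃ Ψ : E → E, AnalyticAt ℂ Ψ (Φ a) ∧ (∀ᶠ z in 𝓝 a, Ψ (Φ z) = z) ∧
      ∀ᶠ z in 𝓝 (Φ a), Φ (Ψ z) = z := by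
  have : CompleteSpace E := FiniteDimensional.complete ℂ E
  let e : E ≃L[ℂ] E :=
    (LinearEquiv.ofInjectiveEndo (fderiv ℂ Φ a : E →ₗ[ℂ] E) hi).toContinuousLinearEquiv
  have he : fderiv ℂ Φ a = (e : E →L[ℂ] E) := by ext v; rfl
  have hs : HasStrictFDerivAt Φ (e : E →L[ℂ] E) a := he ▸ h.hasStrictFDerivAt
  exact ⟨hs.localInverse Φ e a, (hs.toOpenPartialHomeomorph Φ).analyticAt_symm'
    hs.mem_toOpenPartialHomeomorph_source h he, hs.eventually_left_inverse,
    hs.eventually_right_inverse⟩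

variable {ι κ : Type*} [Fintype ι] [DecidableEq ι] [Fintype κ]

/-- a nonzero maximal minor -/
theorem sel (L : (ι → ℂ) →ₗ[ℂ] κ → ℂ) (J : Set ι)
    (h : ∀ c, ∃ v, (∀ i, i ∉ J → v i = 0) ∧ L v = c) :
    ∃ e : κ → ι, Injective e ∧ (∀ k, e k ∈ J) ∧
      ∀ v, (∀ i, i ∉ range e → v i = 0) → L v = 0 → v = 0 := by
  classical
  obtain ⟨κ', f, f1, f2, f3⟩ := exists_linearIndependent' ℂ fun j : J => L (Pi.single j.1 1)
  have h1 : Submodule.span ℂ (range fun j : J => L (Pi.single j.1 1)) = ⊤ := by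
    refine eq_top_iff.2 fun c _ => ?_
    obtain ⟨v, hv, rfl⟩ := h c
    rw [pi_eq_sum_univ' v, map_sum]
    refine Submodule.sum_mem _ fun i _ => ?_
    by_cases hi : i ∈ J
    · rw [map_smul]
      refine Submodule.smul_mem _ _ (Submodule.subset_span ⟨⟨i, hi⟩, ?_⟩)
      exact congrArg L (funext fun j => by simp [Pi.single_apply, eq_comm])
    · rw [hv i hi, zero_smul, map_zero]
      exact Submodule.zero_mem _
  have : Finite κ' := Finite.of_injective f f1
  have : Fintype κ' := Fintype.ofFinite κ'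
  have h2 : Fintype.card κ = Fintype.card κ' := by
    rw [← Module.finrank_eq_card_basis (Module.Basis.mk f3 (f2.trans h1).ge), Module.finrank_pi]
  let g := Fintype.equivOfCardEq h2
  have h3 : Injective fun k => (f (g k)).1 := Subtype.val_injective.comp (f1.comp g.injective)
  refine ⟨fun k => (f (g k)).1, h3, fun k => (f (g k)).2, fun v hv h0 => ?_⟩
  have h4 : v = ∑ k, v (f (g k)).1 • Pi.single (f (g k)).1 (1 : ℂ) := by
    funext i
    rw [Finset.sum_apply]
    by_cases hi : i ∈ range fun k => (f (g k)).1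
    · obtain ⟨k, rfl⟩ := hi
      rw [Finset.sum_eq_single k (fun l _ hl => by
        rw [Pi.smul_apply, Pi.single_eq_of_ne (fun e => hl (h3 e).symm), smul_zero]) (by simp)]
      simp
    · rw [hv i hi]
      exact (Finset.sum_eq_zero fun l _ => by
        rw [Pi.smul_apply, Pi.single_eq_of_ne (fun e => hi ⟨l, e.symm⟩), smul_zero]).symm
  have h5 := Fintype.linearIndependent_iff.1 (f3.comp g g.injective) (fun k => v (f (g k)).1) (by
    rw [h4, map_sum] at h0
    simpa only [map_smul] using! h0)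
  rw [h4]
  exact Finset.sum_eq_zero fun k _ => by rw [h5 k, zero_smul]

theorem fderiv_single {f : (ι → ℂ) → ℂ} {a : ι → ℂ} (hf : DifferentiableAt ℂ f a) {i : ι}
    (h : ∀ᶠ t : ℂ in 𝓝 0, f (a + t • Pi.single i 1) = 0) : fderiv ℂ f a (Pi.single i 1) = 0 := by
  have h1 : HasDerivAt (fun t : ℂ => a + t • (Pi.single i 1 : ι → ℂ)) (Pi.single i 1) 0 := by
    simpa using ((hasDerivAt_id (0 : ℂ)).smul_const (Pi.single i 1 : ι → ℂ)).const_add a
  have h2 := HasFDerivAt.comp_hasDerivAt_of_eq (0 : ℂ) hf.hasFDerivAt h1 (by simp)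
  exact h2.unique ((hasDerivAt_const (0 : ℂ) (0 : ℂ)).congr_of_eventuallyEq h)

/-- **ADAPT**: functions which vanish on the coordinate subspace `{z_I = 0}` and whose
differentials are independent modulo the `dz_i`, `i ∈ Λ`, can be exchanged against coordinates in
`I \ Λ`; the subspace keeps its equations. -/
theorem adapt0 (x : κ → (ι → ℂ) → ℂ) (a : ι → ℂ) (I Λ : Set ι) (hx : ∀ k, AnalyticAt ℂ (x k) a)
    (ha : ∀ i ∈ I, a i = 0) (hz : ∀ᶠ z in 𝓝 a, (∀ i ∈ I, z i = 0) → ∀ k, x k z = 0)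
    (hs : ∀ c : κ → ℂ, ∃ v, (∀ i ∈ Λ, v i = 0) ∧ ∀ k, fderiv ℂ (x k) a v = c k) :
    ∃ (e : κ → ι) (Φ Ψ : (ι → ℂ) → ι → ℂ), Injective e ∧ (∀ k, e k ∈ I ∧ e k ∉ Λ) ∧
      AnalyticAt ℂ Φ a ∧ AnalyticAt ℂ Ψ (Φ a) ∧ (∀ᶠ z in 𝓝 a, Ψ (Φ z) = z) ∧
      (∀ᶠ z in 𝓝 (Φ a), Φ (Ψ z) = z) ∧ (∀ z k, Φ z (e k) = x k z) ∧
      (∀ z i, i ∉ range e → Φ z i = z i) ∧
      ∀ᶠ z in 𝓝 a, ((∀ i ∈ I, Φ z i = 0) ↔ ∀ i ∈ I, z i = 0) := by
  classical
  have h0 : ∀ k i, i ∉ I → fderiv ℂ (x k) a (Pi.single i 1) = 0 := fun k i hi => by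
    refine fderiv_single (hx k).differentiableAt ?_
    have t : Tendsto (fun t : ℂ => a + t • (Pi.single i 1 : ι → ℂ)) (𝓝 0) (𝓝 a) :=
      Continuous.tendsto' (by fun_prop) _ _ (by simp)
    filter_upwards [t.eventually hz] with t ht
    refine ht (fun j hj => ?_) k
    rw [Pi.add_apply, ha j hj, Pi.smul_apply, Pi.single_eq_of_ne (fun e : j = i => hi (e ▸ hj)), smul_zero,
      add_zero]
  obtain ⟨e, e1, e2, e3⟩ := sel (LinearMap.pi fun k => (fderiv ℂ (x k) a : (ι → ℂ) →ₗ[ℂ] ℂ))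
    (I \ Λ) fun c => by
      obtain ⟨v, v1, v2⟩ := hs c
      refine ⟨fun i => if i ∈ I then v i else 0, fun i hi => ?_, funext fun k => ?_⟩
      · by_cases h : i ∈ I
        · exact (if_pos h).trans (v1 i (by_contra fun h' => hi ⟨h, h'⟩))
        · exact if_neg h
      · have h1 : ∀ w : ι → ℂ, fderiv ℂ (x k) a w =
            ∑ i, w i * fderiv ℂ (x k) a (Pi.single i 1) := fun w => by
          conv_lhs => rw [pi_eq_sum_univ' w, map_sum]
          refine Finset.sum_congr rfl fun i _ => ?_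
          rw [map_smul, smul_eq_mul]
        rw [← v2 k, h1 v]
        refine (h1 _).trans (Finset.sum_congr rfl fun i _ => ?_)
        by_cases h : i ∈ I
        · rw [if_pos h]
        · rw [h0 k i h, mul_zero, mul_zero]
  let Φ : (ι → ℂ) → ι → ℂ := fun z => extend e (fun k => x k z) z
  have p1 : ∀ z k, Φ z (e k) = x k z := fun z k => e1.extend_apply _ _ k
  have p2 : ∀ z i, i ∉ range e → Φ z i = z i := fun z i hi => extend_apply' _ _ _ hi
  have a1 : ∀ i, AnalyticAt ℂ (fun z => Φ z i) a := fun i => by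
    by_cases hi : i ∈ range e
    · obtain ⟨k, rfl⟩ := hi
      simpa only [p1] using hx k
    · simpa only [p2 _ i hi] using!
        (ContinuousLinearMap.proj (R := ℂ) (φ := fun _ : ι => ℂ) i).analyticAt a
  have a2 : AnalyticAt ℂ Φ a := AnalyticAt.pi a1
  have a3 : ∀ v i, fderiv ℂ Φ a v i = fderiv ℂ (fun z => Φ z i) a v := fun v i => by
    rw [show Φ = fun z i => Φ z i from rfl, fderiv_pi fun i => (a1 i).differentiableAt]
    rfl
  obtain ⟨Ψ, b1, b2, b3⟩ := ift a2 ((injective_iff_map_eq_zero _).2 fun v hv => by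
    refine e3 v (fun i hi => ?_) (funext fun k => ?_)
    · have h1 := a3 v i
      rw [hv, funext fun z => p2 z i hi, (hasFDerivAt_apply i a).fderiv] at h1
      exact h1.symm
    · have h1 := a3 v (e k)
      rw [hv, funext fun z => p1 z k] at h1
      exact h1.symm)
  refine ⟨e, Φ, Ψ, e1, e2, a2, b1, b2, b3, p1, p2, ?_⟩
  have q1 : ∀ z : ι → ℂ, (∀ i ∈ I, z i = 0) → (∀ k, x k z = 0) → ∀ i ∈ I, Φ z i = 0 :=
    fun z h1 h2 i hi => by
      by_cases h : i ∈ range e
      · obtain ⟨k, rfl⟩ := h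
        rw [p1, h2]
      · rw [p2 z i h, h1 i hi]
  have t : Tendsto (fun (z : ι → ℂ) i => if i ∈ I then 0 else z i) (𝓝 a) (𝓝 a) := by
    refine Continuous.tendsto' (continuous_pi fun i => ?_) _ _ (funext fun i => ?_)
    · by_cases h : i ∈ I
      · simpa only [if_pos h] using continuous_const
      · simpa only [if_neg h] using continuous_apply i
    · by_cases h : i ∈ I
      · rw [if_pos h, ha i h]
      · rw [if_neg h]
  filter_upwards [hz, b2, t.eventually hz, t.eventually b2] with z z1 z2 z3 z4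
  refine ⟨fun h i hi => ?_, fun h => q1 z h (z1 h)⟩
  have h1 : ∀ i ∈ I, (fun i => if i ∈ I then 0 else z i) i = 0 := fun i hi => if_pos hi
  have h2 : Φ (fun i => if i ∈ I then 0 else z i) = Φ z := funext fun j => by
    by_cases hj : j ∈ I
    · rw [q1 _ h1 (z3 h1) j hj, h j hj]
    · have hj' : j ∉ range e := fun ⟨k, hk⟩ => hj (hk ▸ (e2 k).1)
      rw [p2 _ j hj', p2 _ j hj', if_neg hj]
  rw [← z2, ← h2, z4]
  exact if_pos hi

end Vale.Agent.P287Q.H1
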