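import Vale.Agent.P287Q.H1.An1
import Vale.Agent.P277Z.Hir.IA

/-!
# P287, resolution: division by coordinates and monomials, weak transforms in a blow-up chart
-/

open Filter Topology Set Metric Asymptotics Function

noncomputable section

set_option linter.unusedSectionVars false

namespace Vale.Agent.P287Q.H1

variable {ι : Type} [Fintype ι] [DecidableEq ι] {f g : (ι → ℂ) → ℂ} {q : ι → ℂ}

theorem an_crd (l : ι) (q : ι → ℂ) : AnalyticAt ℂ (fun z : ι → ℂ => z l) q :=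
  (ContinuousLinearMap.proj (R := ℂ) (φ := fun _ : ι => ℂ) l).analyticAt q

/-- division by a power of a coordinate: the order along the hyperplane -/
theorem div_of_ord {i : ι} (hq : q i = 0) (hf : AnalyticAt ℂ f q) {k : ℕ}
    (h : ∀ᶠ u in 𝓝 q, u i = 0 → Ord f u k) :
    ∃ g, AnalyticAt ℂ g q ∧ ∀ᶠ z in 𝓝 q, f z = z i ^ k * g z := by
  refine P277Z.Hir.IH.div_pow (l := ContinuousLinearMap.proj (R := ℂ) (φ := fun _ : ι => ℂ) i)
    (e := Pi.single i 1) (by simp) hq k hf ?_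
  filter_upwards [h] with u hu h0
  have h1 := tend_line u (Pi.single i 1 : ι → ℂ) 0
  rw [zero_smul, add_zero] at h1
  refine (((hu h0).comp_tendsto h1).trans ?_).mono nhdsWithin_le_nhds
  refine IsBigO.of_bound 1 (Eventually.of_forall fun s => le_of_eq ?_)
  simp [norm_smul, Pi.norm_single]

theorem ord_of_le_crd {i : ι} (hf : AnalyticAt ℂ f q) {c C : ℝ} (hc : 0 ≤ c) {k : ℕ}
    (hk : (k : ℝ) < c + 1) (h : ∀ᶠ z in 𝓝 q, ‖f z‖ ≤ C * ‖z i‖ ^ c) :
    ∀ᶠ u in 𝓝 q, u i = 0 → Ord f u k := by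
  filter_upwards [h.eventually_nhds, hf.eventually_analyticAt] with u h1 h2 h0
  refine ord_of_rpow h2 (c := c) (IsBigO.of_bound |C| ?_) hk
  filter_upwards [h1] with z hz
  refine hz.trans ((mul_le_mul_of_nonneg_right (le_abs_self C) (by positivity)).trans
    (mul_le_mul_of_nonneg_left ?_ (abs_nonneg C)))
  rw [Real.norm_of_nonneg (by positivity)]
  refine Real.rpow_le_rpow (norm_nonneg _) ?_ hc
  simpa [h0] using norm_le_pi_norm (z - u) i

/-- division by a power of a coordinate: growth with a real exponent -/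
theorem div_of_rpow {i : ι} (hq : q i = 0) (hf : AnalyticAt ℂ f q) {c C : ℝ} (hc : 0 ≤ c) {k : ℕ}
    (hk : (k : ℝ) < c + 1) (h : ∀ᶠ z in 𝓝 q, ‖f z‖ ≤ C * ‖z i‖ ^ c) :
    ∃ g, AnalyticAt ℂ g q ∧ ∀ᶠ z in 𝓝 q, f z = z i ^ k * g z :=
  div_of_ord hq hf (ord_of_le_crd hf hc hk h)

/-- division by a power of a coordinate -/
theorem div_crd {i : ι} (hf : AnalyticAt ℂ f q) {C : ℝ} {k : ℕ}
    (h : ∀ᶠ z in 𝓝 q, ‖f z‖ ≤ C * ‖z i‖ ^ k) :
    ∃ g, AnalyticAt ℂ g q ∧ ∀ᶠ z in 𝓝 q, f z = z i ^ k * g z := by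
  by_cases hq : q i = 0
  · exact div_of_rpow hq hf (c := k) (C := C) (Nat.cast_nonneg k) (lt_add_one _)
      (by simpa only [Real.rpow_natCast] using h)
  refine ⟨fun z => (z i ^ k)⁻¹ * f z, (((an_crd i q).pow k).inv (pow_ne_zero _ hq)).mul hf, ?_⟩
  filter_upwards [(an_crd i q).continuousAt.eventually_ne hq] with z hz
  rw [mul_inv_cancel_left₀ (pow_ne_zero _ hz)]

theorem dense_off : Dense {z : ι → ℂ | ∀ l, z l ≠ 0} := by
  have d : Dense (Set.pi univ fun _ : ι => ({0}ᶜ : Set ℂ)) :=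
    dense_pi univ fun _ _ => dense_compl_singleton 0
  refine Dense.mono ?_ d
  exact fun z hz l => hz l trivial

theorem off_neBot (q : ι → ℂ) : (𝓝[{z : ι → ℂ | ∀ l, z l ≠ 0}] q).NeBot :=
  mem_closure_iff_nhdsWithin_neBot.1 (dense_off q)

/-- an inequality between continuous functions extends to the coordinate hyperplanes -/
theorem le_of_off {φ ψ : (ι → ℂ) → ℝ} (hφ : ∀ᶠ z in 𝓝 q, ContinuousAt φ z)
    (hψ : ∀ᶠ z in 𝓝 q, ContinuousAt ψ z) (h : ∀ᶠ z in 𝓝 q, (∀ l, z l ≠ 0) → φ z ≤ ψ z) :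
    ∀ᶠ z in 𝓝 q, φ z ≤ ψ z := by
  filter_upwards [hφ, hψ, h.eventually_nhds] with z h1 h2 h3
  have := off_neBot z
  refine le_of_tendsto_of_tendsto (h1.tendsto.mono_left nhdsWithin_le_nhds)
    (h2.tendsto.mono_left nhdsWithin_le_nhds) (b := 𝓝[{z : ι → ℂ | ∀ l, z l ≠ 0}] z) ?_
  filter_upwards [mem_nhdsWithin_of_mem_nhds h3, self_mem_nhdsWithin] with u hu h0 using hu h0

theorem eq_of_off {φ ψ : (ι → ℂ) → ℂ} (hφ : ∀ᶠ z in 𝓝 q, ContinuousAt φ z)
    (hψ : ∀ᶠ z in 𝓝 q, ContinuousAt ψ z) (h : ∀ᶠ z in 𝓝 q, (∀ l, z l ≠ 0) → φ z = ψ z) :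
    φ =ᶠ[𝓝 q] ψ := by
  filter_upwards [hφ, hψ, h.eventually_nhds] with z h1 h2 h3
  have := off_neBot z
  refine tendsto_nhds_unique_of_eventuallyEq (h1.tendsto.mono_left nhdsWithin_le_nhds)
    (h2.tendsto.mono_left nhdsWithin_le_nhds) (l := 𝓝[{z : ι → ℂ | ∀ l, z l ≠ 0}] z) ?_
  filter_upwards [mem_nhdsWithin_of_mem_nhds h3, self_mem_nhdsWithin] with u hu h0 using hu h0

theorem ev_cont (hf : AnalyticAt ℂ f q) : ∀ᶠ z in 𝓝 q, ContinuousAt f z :=
  hf.eventually_analyticAt.mono fun _ h => h.continuousAt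

/-- division by a monomial -/
theorem div_mon (a : ι → ℕ) (S : Finset ι) : ∀ {f : (ι → ℂ) → ℂ}, AnalyticAt ℂ f q → ∀ {C : ℝ},
    (∀ᶠ z in 𝓝 q, ‖f z‖ ≤ C * ‖∏ l ∈ S, z l ^ a l‖) →
    ∃ g, AnalyticAt ℂ g q ∧ ∀ᶠ z in 𝓝 q, f z = (∏ l ∈ S, z l ^ a l) * g z := by
  induction S using Finset.induction_on with
  | empty => exact fun hf _ _ => ⟨_, hf, Eventually.of_forall fun z => by simp⟩
  | insert i S hi ih =>
    intro f hf C h
    simp only [Finset.prod_insert hi] at h ⊢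
    have an : AnalyticAt ℂ (fun z : ι → ℂ => ∏ l ∈ S, z l ^ a l) q :=
      Finset.analyticAt_fun_prod _ fun l _ => (an_crd l q).pow _
    obtain ⟨R, M, hR, hM, h1⟩ := exists_ball an
    obtain ⟨g, hg, e⟩ := div_crd hf (i := i) (k := a i) (C := |C| * M) (by
      filter_upwards [h, closedBall_mem_nhds q hR] with z h2 h3
      refine h2.trans ((mul_le_mul_of_nonneg_right (le_abs_self C) (norm_nonneg _)).trans ?_)
      rw [norm_mul, norm_pow, mul_assoc, mul_comm M]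
      exact mul_le_mul_of_nonneg_left (mul_le_mul_of_nonneg_left
        (h1 z (mem_closedBall_iff_norm.1 h3)).2 (by positivity)) (abs_nonneg C))
    obtain ⟨g', hg', e'⟩ := ih hg (C := C) (le_of_off ((ev_cont hg).mono fun _ h => h.norm)
      ((ev_cont an).mono fun _ h => continuousAt_const.mul h.norm) (by
        filter_upwards [h, e] with z h2 h3 h0
        rw [h3, norm_mul, norm_mul, mul_left_comm] at h2
        exact le_of_mul_le_mul_left h2 (norm_pos_iff.2 (pow_ne_zero _ (h0 i)))))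
    refine ⟨g', hg', ?_⟩
    filter_upwards [e, e'] with z h2 h3
    rw [h2, h3, mul_assoc]

/-- the exact power of a coordinate -/
theorem exists_div_max {i : ι} (hq : q i = 0) (hf : AnalyticAt ℂ f q) (h : ¬ f =ᶠ[𝓝 q] 0) :
    ∃ (k : ℕ) (g : (ι → ℂ) → ℂ), AnalyticAt ℂ g q ∧ (∀ᶠ z in 𝓝 q, f z = z i ^ k * g z) ∧
      ¬ ∀ᶠ z in 𝓝 q, z i = 0 → g z = 0 := by
  by_contra h1
  push Not at h1
  have h2 : ∀ k : ℕ, ∃ g, AnalyticAt ℂ g q ∧ ∀ᶠ z in 𝓝 q, f z = z i ^ k * g z := fun k => by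
    induction k with
    | zero => exact ⟨f, hf, Eventually.of_forall fun z => by simp⟩
    | succ k ih =>
      obtain ⟨g, hg, e⟩ := ih
      obtain ⟨g', hg', e'⟩ := div_of_ord hq hg (k := 1) (by
        filter_upwards [h1 k g hg e, hg.eventually_analyticAt] with u a b c
        exact ord_one b.differentiableAt (a c))
      refine ⟨g', hg', ?_⟩
      filter_upwards [e, e'] with z a b
      rw [a, b]; ring
  refine h (zero_of_ord hf fun k => ?_)
  obtain ⟨g, hg, e⟩ := h2 k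
  have h3 := ((ord_one (an_crd i q).differentiableAt hq).pow k).cmul hg.continuousAt
  rw [one_mul] at h3
  exact h3.congr (e.mono fun z hz => by rw [hz, mul_comm])

/-! ### the charts of a blow-up -/

/-- the chart `i` of the blow-up of the subspace where the coordinates in `A` vanish -/
def sg (A : Finset ι) (i : ι) (z : ι → ℂ) : ι → ℂ :=
  fun l => if l ∈ A ∧ l ≠ i then z i * z l else z l

theorem sg_an (A : Finset ι) (i : ι) (z : ι → ℂ) : AnalyticAt ℂ (sg A i) z :=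
  AnalyticAt.pi fun l => by
    unfold sg
    split_ifs
    · exact (an_crd i z).mul (an_crd l z)
    · exact an_crd l z

theorem sg_self (A : Finset ι) (i : ι) (z : ι → ℂ) : sg A i z i = z i := by simp [sg]

theorem sg_of_not {A : Finset ι} (i : ι) (z : ι → ℂ) {l : ι} (h : l ∉ A) : sg A i z l = z l := by
  simp [sg, h]

theorem sg_of_mem {A : Finset ι} {i : ι} (z : ι → ℂ) {l : ι} (h : l ∈ A) (h' : l ≠ i) :
    sg A i z l = z i * z l := by simp [sg, h, h']

theorem sg_zero {A : Finset ι} {i : ι} {z : ι → ℂ} (hz : z i = 0) {l : ι} (h : l ∈ A) :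
    sg A i z l = 0 := by
  by_cases e : l = i
  · rw [e, sg_self, hz]
  · rw [sg_of_mem z h e, hz, zero_mul]

/-- existence of the weak transform -/
theorem exists_wt {A : Finset ι} {i : ι} {b : ι → ℂ} (hb : b i = 0) (hf : AnalyticAt ℂ f (sg A i b))
    {w : ℕ} (h : ∀ᶠ u in 𝓝 (sg A i b), (∀ l ∈ A, u l = 0) → Ord f u w) :
    ∃ f', AnalyticAt ℂ f' b ∧ ∀ᶠ z in 𝓝 b, f (sg A i z) = z i ^ w * f' z := by
  refine div_of_ord (f := fun z => f (sg A i z)) hb (hf.comp (sg_an A i b)) ?_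
  filter_upwards [(sg_an A i b).continuousAt.eventually h] with u hu h0
  exact (hu fun l hl => sg_zero h0 hl).comp (sg_an A i u).differentiableAt

/-- the projection to the fibre of the blow-up through `b` -/
def fb (A : Finset ι) (i : ι) (b z : ι → ℂ) : ι → ℂ := fun l => if l ∈ A ∧ l ≠ i then z l else b l

theorem fb_an (A : Finset ι) (i : ι) (b z : ι → ℂ) : AnalyticAt ℂ (fb A i b) z :=
  AnalyticAt.pi fun l => by
    unfold fb
    split_ifs
    · exact an_crd l z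
    · exact analyticAt_const

theorem fb_self (A : Finset ι) (i : ι) (b : ι → ℂ) : fb A i b b = b := by
  funext l; simp [fb]

/-- the order of the weak transform along the fibre is at most the order at the base point -/
theorem wt_ord_fb {A : Finset ι} {i : ι} {b : ι → ℂ} (hb : b i = 0)
    (hf : AnalyticAt ℂ f (sg A i b)) {f' : (ι → ℂ) → ℂ} (hf' : AnalyticAt ℂ f' b) {w : ℕ}
    (e : ∀ᶠ z in 𝓝 b, f (sg A i z) = z i ^ w * f' z) (h : Ord f (sg A i b) w)
    (h' : Ord (fun z => f' (fb A i b z)) b (w + 1)) : Ord f (sg A i b) (w + 1) := by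
  let v₀ : ι → ℂ := fun l => if l = i then 1 else if l ∈ A then b l else 0
  let ζ : ℂ × (ι → ℂ) → ι → ℂ := fun p l =>
    if l ∈ A ∧ l ≠ i then p.2 l / p.2 i else b l + p.1 * p.2 l
  have v1 : v₀ i = 1 := by simp [v₀]
  have z0 : ζ (0, v₀) = b := by
    funext l
    by_cases hl : l ∈ A ∧ l ≠ i
    · simp [ζ, v₀, hl.1, hl.2]
    · simp only [ζ, if_neg hl, zero_mul, add_zero]
  have zf : ∀ v, fb A i b (ζ (0, v)) = ζ (0, v) := fun v => by
    funext l
    by_cases hl : l ∈ A ∧ l ≠ i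
    · simp only [fb, if_pos hl]
    · simp only [fb, ζ, if_neg hl, zero_mul, add_zero]
  have an2 : ∀ (l : ι) (p : ℂ × (ι → ℂ)), AnalyticAt ℂ (fun p : ℂ × (ι → ℂ) => p.2 l) p :=
    fun l p => (an_crd l p.2).comp analyticAt_snd
  have za : ∀ p : ℂ × (ι → ℂ), p.2 i ≠ 0 → AnalyticAt ℂ ζ p := fun p hp => AnalyticAt.pi fun l => by
    by_cases hl : l ∈ A ∧ l ≠ i
    · simp only [if_pos hl]
      exact (an2 l p).div (an2 i p) hp
    · simp only [if_neg hl]
      exact analyticAt_const.add (analyticAt_fst.mul (an2 l p))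
  have zs : ∀ (t : ℂ) (v : ι → ℂ), v i ≠ 0 → sg A i (ζ (t, v)) = sg A i b + t • v ∧
      ζ (t, v) i = t * v i := fun t v hv => by
    have k : ζ (t, v) i = t * v i := by simp [ζ, hb]
    refine ⟨funext fun l => ?_, k⟩
    rw [Pi.add_apply, Pi.smul_apply, smul_eq_mul]
    by_cases hl : l ∈ A ∧ l ≠ i
    · rw [sg_of_mem _ hl.1 hl.2, k, sg_zero hb hl.1]
      simp only [ζ, if_pos hl]
      field_simp
      ring
    · simp only [sg, ζ, if_neg hl]
  have z1 : AnalyticAt ℂ (fun v => ζ (0, v)) v₀ :=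
    AnalyticAt.comp (g := ζ) (f := fun v : ι → ℂ => ((0 : ℂ), v)) (za _ (by simp [v1]))
      (analyticAt_const.prod analyticAt_id)
  have z2 : Tendsto (fun v => ζ (0, v)) (𝓝 v₀) (𝓝 b) := z0 ▸ z1.continuousAt.tendsto
  have k1 : Ord (fun v => f' (fb A i b (ζ (0, v)))) v₀ (w + 1) :=
    Ord.comp (f := fun z => f' (fb A i b z)) (Φ := fun v => ζ (0, v)) z1.differentiableAt
      (by rw [z0]; exact h')
  have k2 : Ord (fun v => iteratedFDeriv ℂ w f (sg A i b) fun _ => v) v₀ (w + 1) := by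
    refine (k1.cmul (g := fun v => (w.factorial : ℂ) * v i ^ w)
      (continuousAt_const.mul ((an_crd i v₀).pow w).continuousAt)).congr ?_
    filter_upwards [z2.eventually e.eventually_nhds, z2.eventually (ev_cont hf'),
      (an_crd i v₀).continuousAt.eventually_ne (y := 0) (by simp [v1])] with v a1 a2 a3
    have t1 : Tendsto (fun t : ℂ => ζ (t, v)) (𝓝[≠] 0) (𝓝 (ζ (0, v))) :=
      ((za (0, v) a3).continuousAt.tendsto.comp
        ((continuous_id.prodMk continuous_const).tendsto 0)).mono_left nhdsWithin_le_nhds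
    have t2 : Tendsto (fun t : ℂ => f (sg A i b + t • v) / t ^ w) (𝓝[≠] 0)
        (𝓝 (v i ^ w * f' (ζ (0, v)))) := by
      refine ((a2.tendsto.comp t1).const_mul (v i ^ w)).congr' ?_
      filter_upwards [t1.eventually a1, self_mem_nhdsWithin] with t b1 t0
      rw [← (zs t v a3).1, b1, (zs t v a3).2, comp_apply, mul_pow]
      field_simp [pow_ne_zero w t0]
    have t3 := tendsto_nhds_unique t2 (h.tendsto_lead hf v)
    have f0 : (w.factorial : ℂ) ≠ 0 := by exact_mod_cast Nat.factorial_ne_zero w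
    rw [zf, mul_assoc, t3, mul_div_cancel₀ _ f0]
    rfl
  refine ord_of_dl hf fun j hj v => ?_
  rcases (Nat.lt_succ_iff.1 hj).eq_or_lt with rfl | hj
  · exact form_zero _ k2 v
  · exact (ord_iff hf).1 h j hj v

/-- the order of the weak transform does not increase -/
theorem wt_ord {A : Finset ι} {i : ι} {b : ι → ℂ} (hb : b i = 0)
    (hf : AnalyticAt ℂ f (sg A i b)) {f' : (ι → ℂ) → ℂ} (hf' : AnalyticAt ℂ f' b) {w : ℕ}
    (e : ∀ᶠ z in 𝓝 b, f (sg A i z) = z i ^ w * f' z) (h : Ord f (sg A i b) w)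
    (h' : Ord f' b (w + 1)) : Ord f (sg A i b) (w + 1) :=
  wt_ord_fb hb hf hf' e h (Ord.comp (fb_an A i b b).differentiableAt (by rwa [fb_self]))

/-- the new coordinate does not divide the weak transform -/
theorem wt_not_dvd {A : Finset ι} {i : ι} {b : ι → ℂ} (hb : b i = 0)
    (hf : AnalyticAt ℂ f (sg A i b)) {f' : (ι → ℂ) → ℂ} (hf' : AnalyticAt ℂ f' b) {w : ℕ}
    (e : ∀ᶠ z in 𝓝 b, f (sg A i z) = z i ^ w * f' z) (h : Ord f (sg A i b) w)
    (h' : ∀ᶠ z in 𝓝 b, z i = 0 → f' z = 0) : Ord f (sg A i b) (w + 1) := by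
  refine wt_ord_fb hb hf hf' e h (ord_of_zero ?_ _)
  have h1 : Tendsto (fb A i b) (𝓝 b) (𝓝 b) := by
    have := (fb_an A i b b).continuousAt.tendsto
    rwa [fb_self] at this
  filter_upwards [h1.eventually h'] with z hz
  exact hz (by simp [fb, hb])

/-- the quotient by a power of the new coordinate is unique -/
theorem wt_unique {i : ι} {w : ℕ} {f₁ f₂ : (ι → ℂ) → ℂ} (h₁ : AnalyticAt ℂ f₁ q)
    (h₂ : AnalyticAt ℂ f₂ q) (e : ∀ᶠ z in 𝓝 q, z i ^ w * f₁ z = z i ^ w * f₂ z) : f₁ =ᶠ[𝓝 q] f₂ :=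
  eq_of_off (ev_cont h₁) (ev_cont h₂) (e.mono fun _ hz h0 =>
    mul_left_cancel₀ (pow_ne_zero _ (h0 i)) hz)

end Vale.Agent.P287Q.H1
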