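import Vale.Agent.P287Q.H1.Defs
import Vale.Agent.P287Q.H1.An2
import Vale.Agent.P287Q.H1.Adapt0

/-!
# Principalization by blow-ups in smooth centres: basic rules
-/

open Filter Topology Set Function Asymptotics

noncomputable section

set_option linter.unusedSectionVars false

namespace Vale.Agent.P287Q.H1

/-! ### roots -/

section rt

variable {D : ℕ} {x y : ℝ}

theorem rt_nonneg (D : ℕ) (hx : 0 ≤ x) : 0 ≤ rt D x := Real.rpow_nonneg hx _

theorem rt_mono (D : ℕ) (hx : 0 ≤ x) (h : x ≤ y) : rt D x ≤ rt D y :=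
  Real.rpow_le_rpow hx h (by positivity)

theorem rt_mul (D : ℕ) (hx : 0 ≤ x) (hy : 0 ≤ y) : rt D (x * y) = rt D x * rt D y :=
  Real.mul_rpow hx hy

theorem rt_pow (hD : D ≠ 0) (hx : 0 ≤ x) : rt D x ^ D = x := Real.rpow_inv_natCast_pow hx hD

theorem pow_rt (hD : D ≠ 0) (hx : 0 ≤ x) : rt D (x ^ D) = x := Real.pow_rpow_inv_natCast hx hD

theorem rt_zero (hD : D ≠ 0) : rt D 0 = 0 :=
  Real.zero_rpow (inv_ne_zero (Nat.cast_ne_zero.2 hD))

theorem rt_one (D : ℕ) : rt D 1 = 1 := Real.one_rpow _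

theorem rt_one' (x : ℝ) : rt 1 x = x := by simp [rt]

theorem rt_pos (D : ℕ) (hx : 0 < x) : 0 < rt D x := Real.rpow_pos_of_pos hx _

theorem rt_eq_zero (hD : D ≠ 0) (hx : 0 ≤ x) : rt D x = 0 ↔ x = 0 :=
  ⟨fun h => by rw [← rt_pow hD hx, h, zero_pow hD], fun h => h ▸ rt_zero hD⟩

theorem rt_le_iff (hD : D ≠ 0) (hx : 0 ≤ x) (hy : 0 ≤ y) : rt D x ≤ y ↔ x ≤ y ^ D :=
  ⟨fun h => (rt_pow hD hx).symm.le.trans (pow_le_pow_left₀ (rt_nonneg D hx) h D),
    fun h => (rt_mono D hx h).trans (pow_rt hD hy).le⟩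

theorem le_rt_iff (hD : D ≠ 0) (hx : 0 ≤ x) (hy : 0 ≤ y) : y ≤ rt D x ↔ y ^ D ≤ x :=
  ⟨fun h => (pow_le_pow_left₀ hy h D).trans (rt_pow hD hx).le,
    fun h => (pow_rt hD hy).symm.le.trans (rt_mono D (pow_nonneg hy D) h)⟩

theorem rt_add_le (hD : D ≠ 0) (hx : 0 ≤ x) (hy : 0 ≤ y) : rt D (x + y) ≤ rt D x + rt D y :=
  Real.rpow_add_le_add_rpow hx hy (by positivity)
    (inv_le_one_of_one_le₀ (by exact_mod_cast Nat.one_le_iff_ne_zero.2 hD))

theorem rt_sum_le (hD : D ≠ 0) {κ : Type*} (s : Finset κ) {f : κ → ℝ} (hf : ∀ i ∈ s, 0 ≤ f i) :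
    rt D (∑ i ∈ s, f i) ≤ ∑ i ∈ s, rt D (f i) := by
  classical
  induction s using Finset.induction_on with
  | empty => simp [rt_zero hD]
  | insert i s hi ih =>
    rw [Finset.sum_insert hi, Finset.sum_insert hi]
    have h1 : ∀ j ∈ s, 0 ≤ f j := fun j hj => hf j (Finset.mem_insert_of_mem hj)
    exact (rt_add_le hD (hf i (Finset.mem_insert_self i s)) (Finset.sum_nonneg h1)).trans
      (add_le_add_right (ih h1) _)

theorem rt_pow_mul {m : ℕ} (hm : m ≠ 0) (D : ℕ) (hx : 0 ≤ x) : rt (D * m) (x ^ m) = rt D x := by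
  have h : (m : ℝ) ≠ 0 := Nat.cast_ne_zero.2 hm
  rw [rt, rt, ← Real.rpow_natCast, ← Real.rpow_mul hx, Nat.cast_mul, mul_inv, mul_left_comm,
    mul_inv_cancel₀ h, mul_one]

theorem rt_npow (D m : ℕ) (hx : 0 ≤ x) : rt D (x ^ m) = rt D x ^ m := by
  rw [rt, rt, ← Real.rpow_natCast, ← Real.rpow_natCast, ← Real.rpow_mul hx, ← Real.rpow_mul hx,
    mul_comm]

theorem continuous_rt (D : ℕ) : Continuous (rt D) :=
  Real.continuous_rpow_const (by positivity)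

variable {α : Type*} {l : Filter α} {f g : α → ℝ}

theorem rt_isBigO (D : ℕ) (hf : ∀ᶠ z in l, 0 ≤ f z) (hg : ∀ᶠ z in l, 0 ≤ g z) (h : f =O[l] g) :
    (fun z => rt D (f z)) =O[l] fun z => rt D (g z) := by
  obtain ⟨C, hC, h⟩ := h.exists_nonneg
  refine IsBigO.of_bound (rt D C) ?_
  filter_upwards [h.bound, hf, hg] with z h1 h2 h3
  rw [Real.norm_of_nonneg h2, Real.norm_of_nonneg h3] at h1
  rw [Real.norm_of_nonneg (rt_nonneg D h2), Real.norm_of_nonneg (rt_nonneg D h3), ← rt_mul D hC h3]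
  exact rt_mono D h2 h1

theorem rt_isTheta (D : ℕ) (hf : ∀ᶠ z in l, 0 ≤ f z) (hg : ∀ᶠ z in l, 0 ≤ g z) (h : f =Θ[l] g) :
    (fun z => rt D (f z)) =Θ[l] fun z => rt D (g z) :=
  ⟨rt_isBigO D hf hg h.1, rt_isBigO D hg hf h.2⟩

theorem rt_isBigO_iff (hD : D ≠ 0) (hf : ∀ᶠ z in l, 0 ≤ f z) :
    (fun z => rt D (f z)) =O[l] g ↔ f =O[l] fun z => g z ^ D := by
  have e : (fun z => rt D (f z) ^ D) =ᶠ[l] f := hf.mono fun z hz => rt_pow hD hz
  exact ⟨fun h => (h.pow D).congr' e EventuallyEq.rfl,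
    fun h => IsBigO.of_pow hD (h.congr' e.symm EventuallyEq.rfl)⟩

theorem isBigO_rt_iff (hD : D ≠ 0) (hf : ∀ᶠ z in l, 0 ≤ f z) :
    g =O[l] (fun z => rt D (f z)) ↔ (fun z => g z ^ D) =O[l] f := by
  have e : (fun z => rt D (f z) ^ D) =ᶠ[l] f := hf.mono fun z hz => rt_pow hD hz
  exact ⟨fun h => (h.pow D).congr' EventuallyEq.rfl e,
    fun h => IsBigO.of_pow hD (h.congr' EventuallyEq.rfl e.symm)⟩

theorem isBigO_of_le' (hf : ∀ᶠ z in l, 0 ≤ f z) (h : ∀ᶠ z in l, f z ≤ g z) : f =O[l] g :=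
  IsBigO.of_bound 1 (by
    filter_upwards [hf, h] with z h1 h2
    rw [one_mul, Real.norm_of_nonneg h1]
    exact h2.trans (le_abs_self _))

theorem isBigO_add_left (hf : ∀ᶠ z in l, 0 ≤ f z) (hg : ∀ᶠ z in l, 0 ≤ g z) :
    f =O[l] fun z => f z + g z :=
  isBigO_of_le' hf (hg.mono fun _ h => le_add_of_nonneg_right h)

theorem isBigO_add_right (hf : ∀ᶠ z in l, 0 ≤ f z) (hg : ∀ᶠ z in l, 0 ≤ g z) :
    g =O[l] fun z => f z + g z :=
  isBigO_of_le' hg (hf.mono fun _ h => le_add_of_nonneg_left h)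

theorem add_isBigO_iff {h : α → ℝ} (hf : ∀ᶠ z in l, 0 ≤ f z) (hg : ∀ᶠ z in l, 0 ≤ g z) :
    (fun z => f z + g z) =O[l] h ↔ f =O[l] h ∧ g =O[l] h :=
  ⟨fun k => ⟨(isBigO_add_left hf hg).trans k, (isBigO_add_right hf hg).trans k⟩,
    fun k => k.1.add k.2⟩

theorem add_isTheta {f' g' : α → ℝ} (hf : ∀ᶠ z in l, 0 ≤ f z) (hg : ∀ᶠ z in l, 0 ≤ g z)
    (hf' : ∀ᶠ z in l, 0 ≤ f' z) (hg' : ∀ᶠ z in l, 0 ≤ g' z) (h : f =Θ[l] f') (h' : g =Θ[l] g') :
    (fun z => f z + g z) =Θ[l] fun z => f' z + g' z :=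
  ⟨(h.1.trans (isBigO_add_left hf' hg')).add (h'.1.trans (isBigO_add_right hf' hg')),
    (h.2.trans (isBigO_add_left hf hg)).add (h'.2.trans (isBigO_add_right hf hg))⟩

end rt

variable {n : ℕ}

/-! ### families, monomials, projections -/

section fam

variable {κ : Type} [Fintype κ] {g : κ → W n → ℂ} {q : W n}

theorem nm_nonneg (g : κ → W n → ℂ) (z : W n) : 0 ≤ nm g z :=
  Finset.sum_nonneg fun _ _ => norm_nonneg _

theorem le_nm (g : κ → W n → ℂ) (i : κ) (z : W n) : ‖g i z‖ ≤ nm g z :=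
  Finset.single_le_sum (f := fun i => ‖g i z‖) (fun _ _ => norm_nonneg _) (Finset.mem_univ i)

theorem nm_eq_zero {z : W n} : nm g z = 0 ↔ ∀ i, g i z = 0 := by
  simp [nm, Finset.sum_eq_zero_iff_of_nonneg]

theorem nm_cont (h : ∀ i, ContinuousAt (g i) q) : ContinuousAt (nm g) q :=
  tendsto_finsetSum _ fun i _ => (h i).norm

theorem nm_ev_cont (h : ∀ i, AnalyticAt ℂ (g i) q) : ∀ᶠ z in 𝓝 q, ContinuousAt (nm g) z :=
  (eventually_all.2 fun i => ev_cont (h i)).mono fun _ hz => nm_cont hz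

theorem nm_isBigO_iff {α : Type*} {l : Filter α} {k : α → W n} {h : α → ℝ} :
    (fun z => nm g (k z)) =O[l] h ↔ ∀ i, (fun z => g i (k z)) =O[l] h :=
  ⟨fun H i => (IsBigO.of_bound 1 (Eventually.of_forall fun z => by
      rw [one_mul, Real.norm_of_nonneg (nm_nonneg _ _)]; exact le_nm g i _)).trans H,
    fun H => (IsBigO.sum (s := Finset.univ) fun i _ => (H i).norm_left).congr_left fun z => by
      simp only [Finset.sum_apply, nm]⟩

theorem van_nm_iff {m : ℕ} : Van (nm g) m q ↔ ∀ i, Ord (g i) q m := nm_isBigO_iff (k := id)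

theorem Van.mono {f : W n → ℝ} {m m' : ℕ} (h : Van f m q) (hm : m' ≤ m) : Van f m' q := by
  rcases hm.eq_or_lt with rfl | hm
  · exact h
  · exact IsBigO.trans h (pow_isLittleO q hm).isBigO

theorem Van.of_isBigO {f f' : W n → ℝ} {m : ℕ} (h : Van f m q) (h' : f' =O[𝓝 q] f) : Van f' m q :=
  h'.trans h

theorem Van.eq_zero {f : W n → ℝ} {m : ℕ} (h : Van f m q) (hm : m ≠ 0) : f q = 0 := by
  obtain ⟨C, hC⟩ := h.bound
  simpa [hm] using hC.self_of_nhds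

theorem Van.comp {f : W n → ℝ} {m : ℕ} {Φ : W n → W n} (hΦ : DifferentiableAt ℂ Φ q)
    (h : Van f m (Φ q)) : Van (fun z => f (Φ z)) m q :=
  (IsBigO.comp_tendsto h hΦ.continuousAt).trans (hΦ.isBigO_sub.norm_norm.pow m)

theorem not_van_eventually (hg : ∀ i, AnalyticAt ℂ (g i) q) {m : ℕ} (h : ¬ Van (nm g) m q) :
    ∀ᶠ z in 𝓝 q, ¬ Van (nm g) m z := by
  rw [van_nm_iff, not_forall] at h
  obtain ⟨i, hi⟩ := h
  exact (not_ord_eventually (hg i) hi).mono fun z hz h => hz (van_nm_iff.1 h i)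

theorem van_zero (hg : ∀ i, AnalyticAt ℂ (g i) q) : Van (nm g) 0 q :=
  van_nm_iff.2 fun i => ord_zero (hg i).continuousAt

theorem zero_of_van (hg : ∀ i, AnalyticAt ℂ (g i) q) (h : ∀ m, Van (nm g) m q) :
    ∀ᶠ z in 𝓝 q, ∀ i, g i z = 0 :=
  eventually_all.2 fun i => zero_of_ord (hg i) fun m => van_nm_iff.1 (h m) i

theorem van_of_zero (h : ∀ᶠ z in 𝓝 q, ∀ i, g i z = 0) (m : ℕ) : Van (nm g) m q :=
  van_nm_iff.2 fun i => ord_of_zero (h.mono fun _ hz => hz i) m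

theorem mon_an (μ : Fin n → ℕ) (q : W n) : AnalyticAt ℂ (mon μ) q :=
  Finset.analyticAt_fun_prod _ fun l _ => (an_crd l q).pow _

theorem mon_zero (z : W n) : mon 0 z = 1 := by simp [mon]

theorem mon_add (μ μ' : Fin n → ℕ) (z : W n) : mon (μ + μ') z = mon μ z * mon μ' z := by
  simp [mon, pow_add, Finset.prod_mul_distrib]

theorem mon_ne_zero (μ : Fin n → ℕ) {z : W n} (h : ∀ l, μ l ≠ 0 → z l ≠ 0) : mon μ z ≠ 0 :=
  Finset.prod_ne_zero_iff.2 fun l _ => by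
    by_cases e : μ l = 0
    · simp [e]
    · exact pow_ne_zero _ (h l e)

theorem ex_zero (nu : Fin n → Option ℕ) : ex 0 nu = 0 := by
  funext l; rcases e : nu l with _ | j <;> simp [ex, e]

theorem pr_an (k : ℕ) (q : W n) : AnalyticAt ℂ (pr k : W n → W n) q :=
  AnalyticAt.pi fun l => by
    by_cases h : l.val < k
    · simpa only [pr, if_pos h] using analyticAt_const
    · simpa only [pr, if_neg h] using an_crd l q

theorem pr_idem (k : ℕ) (z : W n) : pr k (pr k z) = pr k z := by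
  funext l; simp only [pr]; split_ifs <;> rfl

theorem pr_eq_self {k : ℕ} {z : W n} : pr k z = z ↔ ∀ l : Fin n, l.val < k → z l = 0 :=
  ⟨fun h l hl => by rw [← h]; simp [pr, hl], fun h => funext fun l => by
    simp only [pr]; split_ifs with hl; exacts [(h l hl).symm, rfl]⟩

theorem pr_sub (k : ℕ) (z w : W n) : pr k (z - w) = pr k z - pr k w := by
  funext l; simp only [pr, Pi.sub_apply]; split_ifs <;> simp

theorem norm_pr_le (k : ℕ) (z : W n) : ‖pr k z‖ ≤ ‖z‖ :=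
  (pi_norm_le_iff_of_nonneg (norm_nonneg _)).2 fun l => by
    simp only [pr]; split_ifs
    · simp
    · exact norm_le_pi_norm z l

theorem norm_sub_pr_le (k : ℕ) (z : W n) : ‖z - pr k z‖ ≤ ‖z‖ :=
  (pi_norm_le_iff_of_nonneg (norm_nonneg _)).2 fun l => by
    simp only [pr, Pi.sub_apply]; split_ifs
    · simpa using norm_le_pi_norm z l
    · simp

theorem le_norm_sub_pr {k : ℕ} (z : W n) {l : Fin n} (hl : l.val < k) : ‖z l‖ ≤ ‖z - pr k z‖ := by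
  simpa [pr, hl] using norm_le_pi_norm (z - pr k z) l

theorem norm_sub_pr_le_of {k : ℕ} {z : W n} {c : ℝ} (hc : 0 ≤ c)
    (h : ∀ l : Fin n, l.val < k → ‖z l‖ ≤ c) : ‖z - pr k z‖ ≤ c :=
  (pi_norm_le_iff_of_nonneg hc).2 fun l => by
    simp only [pr, Pi.sub_apply]; split_ifs with hl
    · simpa using h l hl
    · simpa using hc

theorem norm_sub_pr_sub {k : ℕ} (hq : pr k q = q) (z : W n) : ‖z - pr k z‖ ≤ ‖z - q‖ := by
  have h := norm_sub_pr_le k (z - q)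
  rwa [pr_sub, hq, sub_sub_sub_cancel_right] at h

theorem tendsto_pr {k : ℕ} (hq : pr k q = q) : Tendsto (pr k) (𝓝 q) (𝓝 q) := by
  have h := (pr_an k q).continuousAt.tendsto
  rwa [hq] at h

theorem pf_nonneg (k D : ℕ) (μ : Fin n → ℕ) (g : κ → W n → ℂ) (z : W n) : 0 ≤ pf k D μ g z :=
  add_nonneg (norm_nonneg _) (rt_nonneg D (mul_nonneg (norm_nonneg _) (nm_nonneg _ _)))

theorem pf_cont (k D : ℕ) (μ : Fin n → ℕ) (h : ∀ i, ContinuousAt (g i) q) :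
    ContinuousAt (pf k D μ g) q :=
  (continuousAt_id.sub (pr_an k q).continuousAt).norm.add ((continuous_rt D).continuousAt.comp
    ((mon_an μ q).continuousAt.norm.mul (nm_cont h)))

/-- the support of a presentation -/
theorem van_pf {k D : ℕ} (hD : D ≠ 0) (μ : Fin n → ℕ) :
    Van (pf k D μ g) 1 q ↔ pr k q = q ∧ Van (fun z => ‖mon μ z‖ * nm g z) D q := by
  have h0 : ∀ᶠ z in 𝓝 q, 0 ≤ ‖mon μ z‖ * nm g z :=
    Eventually.of_forall fun z => mul_nonneg (norm_nonneg _) (nm_nonneg _ _)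
  unfold Van pf
  rw [add_isBigO_iff (Eventually.of_forall fun _ => norm_nonneg _)
    (h0.mono fun _ h => rt_nonneg D h), rt_isBigO_iff hD h0]
  simp only [pow_one]
  refine and_congr_left' ⟨fun h => ?_, fun h => isBigO_of_le' (Eventually.of_forall fun _ =>
    norm_nonneg _) (Eventually.of_forall (norm_sub_pr_sub h))⟩
  obtain ⟨C, hC⟩ := h.bound
  have h1 := hC.self_of_nhds
  simp only [sub_self, norm_zero, mul_zero, norm_le_zero_iff, norm_eq_zero, sub_eq_zero] at h1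
  exact h1.symm

theorem σ_eq (A : Finset (Fin n)) (i : Fin n) : σ A i = sg A i := rfl

theorem σ_an (A : Finset (Fin n)) (i : Fin n) (z : W n) : AnalyticAt ℂ (σ A i) z := sg_an A i z

theorem isClosed_Zs (A : Finset (Fin n)) : IsClosed (Zs A) := by
  simp only [Zs, ofPred_forall]
  exact isClosed_iInter fun l => isClosed_iInter fun _ =>
    isClosed_eq (continuous_apply l) continuous_const

theorem isClosed_hyp (nu : Fin n → Option ℕ) (j : ℕ) : IsClosed (hyp nu j) := by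
  simp only [hyp, ofPred_exists]
  exact isClosed_iUnion_of_finite fun l =>
    IsClosed.and isClosed_const (isClosed_eq (continuous_apply l) continuous_const)

theorem mem_hyp {nu : Fin n → Option ℕ} (h : Inj nu) {l : Fin n} {j : ℕ} (hl : nu l = some j)
    {z : W n} : z ∈ hyp nu j ↔ z l = 0 :=
  ⟨fun ⟨l', h1, h2⟩ => h l' l j h1 hl ▸ h2, fun h1 => ⟨l, hl, h1⟩⟩

theorem σ_mem_Zs {A : Finset (Fin n)} {i : Fin n} (hi : i ∈ A) {z : W n} :
    σ A i z ∈ Zs A ↔ z i = 0 :=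
  ⟨fun h => (sg_self A i z).symm.trans (h i hi), fun h _ hl => sg_zero h hl⟩

end fam

/-! ### local isomorphisms -/

section co

variable {θ θ' : W n → W n} {q : W n}

theorem isCo_id (q : W n) : IsCo id q := ⟨analyticAt_id, by
  rw [fderiv_id]; exact bijective_id⟩

theorem IsCo.comp (h' : IsCo θ' (θ q)) (h : IsCo θ q) : IsCo (θ' ∘ θ) q :=
  ⟨h'.1.comp h.1, by
    rw [fderiv_comp q h'.1.differentiableAt h.1.differentiableAt]
    exact h'.2.comp h.2⟩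

theorem IsCo.congr (h : IsCo θ q) (e : θ =ᶠ[𝓝 q] θ') : IsCo θ' q :=
  ⟨h.1.congr e, e.fderiv_eq (𝕜 := ℂ) ▸ h.2⟩

theorem isCo_of_inj (h : AnalyticAt ℂ θ q) (hi : Injective (fderiv ℂ θ q)) : IsCo θ q :=
  ⟨h, hi, (LinearMap.injective_iff_surjective (f := (fderiv ℂ θ q).toLinearMap)).1 hi⟩

theorem isCo_of_left {ψ : W n → W n} (h : AnalyticAt ℂ θ q) (h' : AnalyticAt ℂ ψ (θ q))
    (e : ∀ᶠ z in 𝓝 q, ψ (θ z) = z) : IsCo θ q := by
  refine isCo_of_inj h (Injective.of_comp (f := fderiv ℂ ψ (θ q)) ?_)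
  have h1 := fderiv_comp q h'.differentiableAt h.differentiableAt
  have h2 : ψ ∘ θ =ᶠ[𝓝 q] id := e
  rw [h2.fderiv_eq, fderiv_id] at h1
  rw [← ContinuousLinearMap.coe_comp, ← h1]
  exact injective_id

theorem IsCo.tendsto (h : IsCo θ q) : Tendsto θ (𝓝 q) (𝓝 (θ q)) := h.1.continuousAt

theorem IsCo.inv (h : IsCo θ q) : ∃ ψ : W n → W n, IsCo ψ (θ q) ∧ ψ (θ q) = q ∧
    (∀ᶠ z in 𝓝 q, ψ (θ z) = z) ∧ ∀ᶠ w in 𝓝 (θ q), θ (ψ w) = w := by
  obtain ⟨ψ, h1, h2, h3⟩ := ift h.1 h.2.1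
  have e := h2.self_of_nhds
  exact ⟨ψ, isCo_of_left h1 (by rw [e]; exact h.1) h3, e, h2, h3⟩

theorem IsCo.map_nhds (h : IsCo θ q) : map θ (𝓝 q) = 𝓝 (θ q) := by
  obtain ⟨ψ, h1, h2, -, h4⟩ := h.inv
  refine le_antisymm h.tendsto fun s hs => ?_
  have h5 : Tendsto ψ (𝓝 (θ q)) (𝓝 q) := by
    have := h1.tendsto
    rwa [h2] at this
  filter_upwards [h5 hs, h4] with w a b
  rwa [mem_preimage, mem_preimage, b] at a

theorem IsCo.eventually (h : IsCo θ q) : ∀ᶠ z in 𝓝 q, IsCo θ z := by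
  obtain ⟨ψ, h1, -, h3, -⟩ := h.inv
  filter_upwards [h.1.eventually_analyticAt, h.tendsto.eventually h1.1.eventually_analyticAt,
    h3.eventually_nhds] with z a b c using isCo_of_left a b c

/-- analytic maps are Lipschitz near the point -/
theorem lip_pair {α : Type*} {l : Filter α} (h : AnalyticAt ℂ θ q) {a b : α → W n}
    (ha : Tendsto a l (𝓝 q)) (hb : Tendsto b l (𝓝 q)) :
    (fun z => ‖θ (a z) - θ (b z)‖) =O[l] fun z => ‖a z - b z‖ :=
  (h.hasStrictFDerivAt.isBigO_sub.comp_tendsto (k := fun z => (a z, b z))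
    (ha.prodMk_nhds hb)).norm_norm

theorem IsCo.theta_pair {α : Type*} {l : Filter α} (h : IsCo θ q) {a b : α → W n}
    (ha : Tendsto a l (𝓝 q)) (hb : Tendsto b l (𝓝 q)) :
    (fun z => ‖θ (a z) - θ (b z)‖) =Θ[l] fun z => ‖a z - b z‖ := by
  refine ⟨lip_pair h.1 ha hb, ?_⟩
  obtain ⟨ψ, h1, -, h3, -⟩ := h.inv
  refine (lip_pair h1.1 (h.tendsto.comp ha) (h.tendsto.comp hb)).congr' ?_ EventuallyEq.rfl
  filter_upwards [ha.eventually h3, hb.eventually h3] with z e1 e2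
  simp only [comp_apply, e1, e2]

theorem IsCo.theta (h : IsCo θ q) : (fun z => ‖θ z - θ q‖) =Θ[𝓝 q] fun z => ‖z - q‖ :=
  h.theta_pair tendsto_id tendsto_const_nhds

theorem IsCo.van_iff (h : IsCo θ q) {f : W n → ℝ} {m : ℕ} :
    Van (fun z => f (θ z)) m q ↔ Van f m (θ q) := by
  refine ⟨fun k => ?_, Van.comp h.1.differentiableAt⟩
  unfold Van
  rw [← h.map_nhds, isBigO_map]
  exact IsBigO.trans k (h.theta.pow m).2

theorem IsCo.ord_iff (h : IsCo θ q) {f : W n → ℂ} {m : ℕ} :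
    Ord (fun z => f (θ z)) q m ↔ Ord f (θ q) m := by
  refine ⟨fun k => ?_, Ord.comp h.1.differentiableAt⟩
  unfold Ord
  rw [← h.map_nhds, isBigO_map]
  exact IsBigO.trans k (h.theta.pow m).2

end co

/-! ### charts -/

namespace Mf

variable {X : Mf n} {p : X.M} {φ φ' : X.M → W n}

theorem co_tendsto (h : X.Co p φ) : Tendsto φ (𝓝 p) (𝓝 (φ p)) := by
  obtain ⟨e, he, h1⟩ := X.hom p φ h
  exact (e.continuousAt he).congr h1.symm

theorem co_map (h : X.Co p φ) : map φ (𝓝 p) = 𝓝 (φ p) := by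
  obtain ⟨e, he, h1⟩ := X.hom p φ h
  rw [map_congr h1, e.map_nhds_eq he, h1.self_of_nhds]

theorem co_ev (h : X.Co p φ) {Q : W n → Prop} : (∀ᶠ z in 𝓝 p, Q (φ z)) ↔ ∀ᶠ w in 𝓝 (φ p), Q w := by
  rw [← co_map h, eventually_map]

theorem co_isBigO (h : X.Co p φ) {E F : Type*} [Norm E] [Norm F] {f : W n → E} {g : W n → F} :
    (fun z => f (φ z)) =O[𝓝 p] (fun z => g (φ z)) ↔ f =O[𝓝 (φ p)] g := by
  rw [← co_map h, isBigO_map]
  rfl

theorem co_isTheta (h : X.Co p φ) {E F : Type*} [Norm E] [Norm F] {f : W n → E} {g : W n → F} :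
    (fun z => f (φ z)) =Θ[𝓝 p] (fun z => g (φ z)) ↔ f =Θ[𝓝 (φ p)] g :=
  and_congr (co_isBigO h) (co_isBigO h)

theorem co_congr (h : X.Co p φ) (e : φ =ᶠ[𝓝 p] φ') : X.Co p φ' :=
  X.sat p φ φ' id h (isCo_id _) e.symm

theorem co_comp (h : X.Co p φ) {θ : W n → W n} (hθ : IsCo θ (φ p)) : X.Co p (θ ∘ φ) :=
  X.sat p φ _ θ h hθ EventuallyEq.rfl

/-- the local inverse of a chart -/
theorem co_inv (h : X.Co p φ) : ∃ ψ : W n → X.M, ψ (φ p) = p ∧ Tendsto ψ (𝓝 (φ p)) (𝓝 p) ∧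
    (∀ᶠ z in 𝓝 p, ψ (φ z) = z) ∧ (∀ᶠ w in 𝓝 (φ p), φ (ψ w) = w) ∧
    ∀ᶠ w in 𝓝 (φ p), ContinuousAt ψ w := by
  obtain ⟨e, he, h1⟩ := X.hom p φ h
  have e0 : φ p = e p := h1.self_of_nhds
  have h2 : ∀ᶠ z in 𝓝 p, e.symm (φ z) = z := by
    filter_upwards [h1, e.open_source.mem_nhds he] with z a b
    rw [a, e.left_inv b]
  have h3 : ∀ᶠ w in 𝓝 (φ p), w ∈ e.target := e0 ▸ e.open_target.mem_nhds (e.map_source he)
  have h4 : Tendsto e.symm (𝓝 (φ p)) (𝓝 p) := e0 ▸ e.tendsto_symm he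
  refine ⟨e.symm, h2.self_of_nhds, h4, h2, ?_, h3.mono fun w hw => e.continuousAt_symm hw⟩
  filter_upwards [h4.eventually h1, h3] with w a b
  rw [a, e.right_inv b]

theorem co_inj (h : X.Co p φ) : ∀ᶠ z in 𝓝 p, φ z = φ p → z = p := by
  obtain ⟨ψ, h1, -, h2, -⟩ := co_inv h
  exact h2.mono fun z hz e => by rw [← hz, e, h1]

theorem co_theta (h : X.Co p φ) (h' : X.Co p φ') :
    (fun z => ‖φ' z - φ' p‖) =Θ[𝓝 p] fun z => ‖φ z - φ p‖ := by
  obtain ⟨θ, h1, h2⟩ := X.tr p φ φ' h h'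
  refine IsTheta.trans (EventuallyEq.isTheta ?_) ((co_isTheta h).2 h1.theta)
  filter_upwards [h2] with z hz
  rw [hz, h2.self_of_nhds]
  rfl

theorem ord1_iff (h : X.Co p φ) {f : X.M → ℝ} :
    X.Ord1 f p ↔ f =O[𝓝 p] fun z => ‖φ z - φ p‖ :=
  ⟨fun ⟨_, h1, h2⟩ => h2.trans (co_theta h h1).1, fun k => ⟨φ, h, k⟩⟩

theorem Ord1.of_isBigO {f f' : X.M → ℝ} (h : X.Ord1 f p) (h' : f' =O[𝓝 p] f) : X.Ord1 f' p :=
  h.imp fun _ k => ⟨k.1, h'.trans k.2⟩

theorem ord1_congr {f f' : X.M → ℝ} (h : f =Θ[𝓝 p] f') : X.Ord1 f p ↔ X.Ord1 f' p :=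
  ⟨fun k => k.of_isBigO h.2, fun k => k.of_isBigO h.1⟩

theorem ord1_van (h : X.Co p φ) {f : X.M → ℝ} {F : W n → ℝ} (e : f =Θ[𝓝 p] fun z => F (φ z)) :
    X.Ord1 f p ↔ Van F 1 (φ p) := by
  rw [ord1_congr e, ord1_iff h, Van, ← co_isBigO h]
  simp only [pow_one]

theorem Ord1.eq_zero {f : X.M → ℝ} (h : X.Ord1 f p) : f p = 0 := by
  obtain ⟨φ, -, h⟩ := h
  obtain ⟨C, hC⟩ := h.bound
  simpa using hC.self_of_nhds

theorem theta_ev {α : Type*} [TopologicalSpace α] {a : α} {f g : α → ℝ} (h : f =Θ[𝓝 a] g) :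
    ∀ᶠ b in 𝓝 a, f =Θ[𝓝 b] g := by
  obtain ⟨C, h1⟩ := h.1.bound
  obtain ⟨C', h2⟩ := h.2.bound
  filter_upwards [h1.eventually_nhds, h2.eventually_nhds] with b a1 a2
  exact ⟨IsBigO.of_bound C a1, IsBigO.of_bound C' a2⟩

theorem bigO_ev {α : Type*} [TopologicalSpace α] {a : α} {E F : Type*} [Norm E] [Norm F]
    {f : α → E} {g : α → F} (h : f =O[𝓝 a] g) : ∀ᶠ b in 𝓝 a, f =O[𝓝 b] g := by
  obtain ⟨C, h1⟩ := h.bound
  exact h1.eventually_nhds.mono fun b a1 => IsBigO.of_bound C a1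

theorem dense_co (h : X.Co p φ) (i : Fin n) : ∀ᶠ b in 𝓝 p, (𝓝[{z | φ z i ≠ 0}] b).NeBot := by
  filter_upwards [X.ev p φ h] with b hb
  obtain ⟨ψ, h1, h2, -, h4, -⟩ := co_inv hb
  have := off_neBot (φ b)
  refine Tendsto.neBot (f := ψ) (x := 𝓝[{z : W n | ∀ l, z l ≠ 0}] (φ b)) ?_
  refine tendsto_nhdsWithin_iff.2 ⟨h2.mono_left nhdsWithin_le_nhds, ?_⟩
  filter_upwards [mem_nhdsWithin_of_mem_nhds h4, self_mem_nhdsWithin] with w a c
  show φ (ψ w) i ≠ 0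
  rw [a]
  exact c i

/-- two coordinate functions with the same zeros are comparable -/
theorem crd_isBigO (h : X.Co p φ) (h' : X.Co p φ') {i i' : Fin n}
    (e : ∀ᶠ z in 𝓝 p, φ z i = 0 → φ' z i' = 0) :
    (fun z => φ' z i') =O[𝓝 p] fun z => φ z i := by
  obtain ⟨θ, h1, h2⟩ := X.tr p φ φ' h h'
  have h3 : AnalyticAt ℂ (fun w => θ w i') (φ p) := (an_crd i' _).comp h1.1
  have h4 : ∀ᶠ w in 𝓝 (φ p), w i = 0 → θ w i' = 0 := (co_ev h).1 (by
    filter_upwards [e, h2] with z a b c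
    exact (congrFun b i').symm.trans (a c))
  have h5 : (fun w => θ w i') =O[𝓝 (φ p)] fun w => w i := by
    by_cases h0 : φ p i = 0
    · obtain ⟨g, hg, e'⟩ := div_of_ord h0 h3 (k := 1) (by
        filter_upwards [h4, h3.eventually_analyticAt] with w a b c
        exact ord_one b.differentiableAt (a c))
      have h6 := (isBigO_refl (fun w : W n => w i) (𝓝 (φ p))).mul
        (hg.continuousAt.tendsto.isBigO_one ℂ)
      exact h6.congr' (e'.mono fun w hw => by simpa only [pow_one] using hw.symm)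
        (Eventually.of_forall fun w => mul_one _)
    · exact (h3.continuousAt.tendsto.isBigO_one ℂ).trans
        ((isBigO_const_left_iff_pos_le_norm (one_ne_zero' ℂ)).2 ⟨‖φ p i‖ / 2, by positivity,
          (((an_crd i _).continuousAt.norm.eventually_const_lt (half_lt_self
            (norm_pos_iff.2 h0))).mono fun _ => le_of_lt)⟩)
  exact ((co_isBigO h).2 h5).congr' (h2.mono fun z hz => (congrFun hz i').symm) EventuallyEq.rfl

theorem Eqn.zero {Y : Set X.M} {e : X.M → ℂ} (h : X.Eqn Y p e) : ∀ᶠ z in 𝓝 p, z ∈ Y ↔ e z = 0 := by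
  rcases h with ⟨rfl, h⟩ | ⟨φ, i, -, rfl, h⟩
  · exact h.mono fun z hz => ⟨fun k => (hz k).elim, fun k => (one_ne_zero k).elim⟩
  · exact h

theorem Eqn.cont {Y : Set X.M} {e : X.M → ℂ} (h : X.Eqn Y p e) : ∀ᶠ z in 𝓝 p, ContinuousAt e z := by
  rcases h with ⟨rfl, h⟩ | ⟨φ, i, h1, rfl, -⟩
  · exact Eventually.of_forall fun _ => continuousAt_const
  · exact (X.ev p φ h1).mono fun b hb => (continuous_apply i).continuousAt.comp (co_tendsto hb)

theorem Eqn.ev {Y : Set X.M} {e : X.M → ℂ} (h : X.Eqn Y p e) : ∀ᶠ b in 𝓝 p, X.Eqn Y b e := by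
  rcases h with ⟨rfl, h⟩ | ⟨φ, i, h1, rfl, h⟩
  · exact h.eventually_nhds.mono fun b hb => .inl ⟨rfl, hb⟩
  · filter_upwards [X.ev p φ h1, h.eventually_nhds] with b a c using .inr ⟨φ, i, a, rfl, c⟩

theorem Eqn.dense {Y : Set X.M} {e : X.M → ℂ} (h : X.Eqn Y p e) :
    ∀ᶠ b in 𝓝 p, (𝓝[{z | e z ≠ 0}] b).NeBot := by
  rcases h with ⟨rfl, h⟩ | ⟨φ, i, h1, rfl, -⟩
  · refine Eventually.of_forall fun b => ?_
    simp only [Pi.one_apply, ne_eq, one_ne_zero, not_false_eq_true, ofPred_true, nhdsWithin_univ]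
    infer_instance
  · exact dense_co h1 i

theorem isBigO_of_ne {α : Type*} [TopologicalSpace α] {a : α} {e e' : α → ℂ}
    (h : ContinuousAt e a) (h' : ContinuousAt e' a) (h0 : e a ≠ 0) : e' =O[𝓝 a] e :=
  (h'.tendsto.isBigO_one ℂ).trans
    ((isBigO_const_left_iff_pos_le_norm (one_ne_zero' ℂ)).2 ⟨‖e a‖ / 2, by positivity,
      ((h.norm.eventually_const_lt (half_lt_self (norm_pos_iff.2 h0))).mono fun _ => le_of_lt)⟩)

theorem Eqn.isBigO {Y Y' : Set X.M} {e e' : X.M → ℂ} (h : X.Eqn Y p e) (h' : X.Eqn Y' p e')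
    (hY : ∀ᶠ z in 𝓝 p, z ∈ Y → z ∈ Y') : e' =O[𝓝 p] e := by
  by_cases h0 : e p = 0
  swap
  · exact isBigO_of_ne h.cont.self_of_nhds h'.cont.self_of_nhds h0
  have h1 : e' p = 0 := h'.zero.self_of_nhds.1 (hY.self_of_nhds (h.zero.self_of_nhds.2 h0))
  have h2 : ∀ᶠ z in 𝓝 p, e z = 0 → e' z = 0 := by
    filter_upwards [h.zero, h'.zero, hY] with z a b c d using b.1 (c (a.2 d))
  rcases h with ⟨rfl, -⟩ | ⟨φ, i, a, rfl, -⟩
  · exact (one_ne_zero h0).elim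
  rcases h' with ⟨rfl, -⟩ | ⟨φ', i', a', rfl, -⟩
  · exact (one_ne_zero h1).elim
  exact crd_isBigO a a' h2

/-- two local equations are comparable -/
theorem Eqn.isTheta {Y : Set X.M} {e e' : X.M → ℂ} (h : X.Eqn Y p e) (h' : X.Eqn Y p e') :
    e =Θ[𝓝 p] e' :=
  ⟨h'.isBigO h (Eventually.of_forall fun _ => id), h.isBigO h' (Eventually.of_forall fun _ => id)⟩

/-- cancellation of a local equation -/
theorem Eqn.cancel {Y : Set X.M} {e : X.M → ℂ} (h : X.Eqn Y p e) {f g : X.M → ℝ}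
    (hf : ∀ᶠ z in 𝓝 p, ContinuousAt f z) (hg : ∀ᶠ z in 𝓝 p, ContinuousAt g z)
    (k : (fun z => ‖e z‖ * f z) =O[𝓝 p] fun z => ‖e z‖ * g z) : f =O[𝓝 p] g := by
  obtain ⟨C, k⟩ := k.bound
  refine IsBigO.of_bound C ?_
  filter_upwards [hf, hg, k.eventually_nhds, h.dense] with b a1 a2 a3 a4
  refine le_of_tendsto_of_tendsto (a1.norm.tendsto.mono_left nhdsWithin_le_nhds)
    ((a2.norm.tendsto.const_mul C).mono_left nhdsWithin_le_nhds) (b := 𝓝[{z | e z ≠ 0}] b) ?_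
  filter_upwards [mem_nhdsWithin_of_mem_nhds a3, self_mem_nhdsWithin] with z b1 b2
  rw [norm_mul, norm_mul, norm_norm, mul_left_comm] at b1
  exact le_of_mul_le_mul_left b1 (norm_pos_iff.2 b2)

theorem Adapt.ev {E : Dv X} {nu : Fin n → Option ℕ} (h : Adapt E p φ nu) :
    ∀ᶠ b in 𝓝 p, Adapt E b φ nu := by
  filter_upwards [X.ev p φ h.1, h.2.eventually_nhds] with b h1 h2 using ⟨h1, h2⟩

/-- the support in terms of a presentation -/
theorem IsPres.ord1 {E : Dv X} {k D : ℕ} (hD : D ≠ 0) {a : ℕ → ℕ} {f : X.M → ℝ}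
    {P : Pres n k (φ p)} (h : IsPres E k D a f p φ P) : ∀ᶠ b in 𝓝 p, (X.Ord1 f b ↔
      pr k (φ b) = φ b ∧ Van (fun z => ‖mon (ex a P.nu) z‖ * nm P.g z) D (φ b)) := by
  filter_upwards [X.ev p φ h.1.1, theta_ev h.2] with b h1 h2
  rw [ord1_van h1 h2, Pres.f, van_pf hD]

end Mf

end Vale.Agent.P287Q.H1
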