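import Vale.Agent.P287Q.H1.St
import Vale.Agent.P287Q.H1.Bas
import Vale.Agent.P287Q.H1.Adapt

/-!
# P287, resolution: adapted presentations and the sign of the new exponent
-/

open Filter Topology Set Function Asymptotics

noncomputable section

namespace Vale.Agent.P287Q.H1

open Mf

variable {n : ℕ}

theorem sum_ex (a : ℕ → ℕ) {nu : Fin n → Option ℕ} (h : Inj nu) {A : Finset (Fin n)} {J : Finset ℕ}
    (h1 : ∀ l j, nu l = some j → (l ∈ A ↔ j ∈ J)) (h2 : ∀ j ∈ J, ∃ l, nu l = some j) :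
    ∑ l ∈ A, ex a nu l = ∑ j ∈ J, a j := by
  have e : ∀ l ∈ A, ex a nu l = ∑ j ∈ J, if nu l = some j then a j else 0 := fun l hl => by
    rcases e : nu l with _ | j
    · simp [ex, e]
    · rw [Finset.sum_eq_single j (fun j' _ hj => if_neg fun e' => hj (Option.some_injective _ e').symm)
        fun hj => (hj ((h1 l j e).1 hl)).elim, if_pos rfl, ex, e]
      rfl
  rw [Finset.sum_congr rfl e, Finset.sum_comm]
  refine Finset.sum_congr rfl fun j hj => ?_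
  obtain ⟨l, hl⟩ := h2 j hj
  rw [Finset.sum_eq_single l (fun l' _ e' => if_neg fun e'' => e' (h _ _ _ e'' hl))
    fun hl' => (hl' ((h1 l j hl).2 hj)).elim, if_pos hl]

/-- the adapted presentation, with the codimension -/
theorem adapt' {X : Mf n} {E : Dv X} {k D c : ℕ} {a : ℕ → ℕ} {f : X.M → ℝ} {p : X.M}
    {φ : X.M → W n} {P : Pres n k (φ p)} {C : Set X.M} {J : Finset ℕ}
    (hP : IsPres E k D a f p φ P) (hp : p ∈ C) (hx : ∀ᶠ z in 𝓝 p, z ∈ C → pr k (φ z) = φ z)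
    (hJ : C ⊆ E.cap J) (hC : Snc E c J C p) :
    ∃ (φ₁ : X.M → W n) (P₁ : Pres n k (φ₁ p)) (A : Finset (Fin n)), IsPres E k D a f p φ₁ P₁ ∧
      (nm P₁.g ∘ φ₁) =ᶠ[𝓝 p] (nm P.g ∘ φ) ∧ (∀ᶠ z in 𝓝 p, z ∈ C ↔ φ₁ z ∈ Zs A) ∧
        Fit k P₁.nu J A (φ₁ p) ∧ A.card = c := by
  obtain ⟨Θ, A, g, P', -, a2, a3, a4, a5, a6, a7, a8, a9, -, b1, -, -, b2⟩ := adapt hP hC hp hx hJ
  refine ⟨Θ ∘ φ, P', A, a2, ?_, a4, ⟨a5, fun l j hl => ?_, a6, a7⟩, a3⟩
  · filter_upwards [(co_ev hP.1.1).2 b2] with z hz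
    rw [b1]
    exact Finset.sum_congr rfl fun i _ => congrArg norm (hz i)
  · refine (a9 _ l (.inr (by simp [hl]))).trans (by_contra fun h => ?_)
    simp [a8 l, h] at hl

theorem stAdapt : StAdapt := fun _ _ _ _ _ _ _ _ _ _ _ _ _ _ hP hp hx hJ hC => by
  obtain ⟨φ₁, P₁, A, h1, h2, h3, h4, -⟩ := adapt' hP hp hx hJ hC
  exact ⟨φ₁, P₁, A, h1, h2, h3, h4⟩

end Vale.Agent.P287Q.H1
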