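import Mathlib

/-!
# P287, resolution: orders of vanishing, directional derivatives, Cauchy and Taylor estimates
-/

open Filter Topology Set Metric Asymptotics

noncomputable section

set_option linter.unusedSectionVars false

namespace Vale.Agent.P287Q.H1

/-! ### one variable -/

theorem cauchy1 {φ : ℂ → ℂ} {r M : ℝ} (hr : 0 < r) (hφ : DifferentiableOn ℂ φ (closedBall 0 r))
    (hM : ∀ t : ℂ, ‖t‖ ≤ r → ‖φ t‖ ≤ M) (j : ℕ) :
    ‖iteratedDeriv j φ 0‖ ≤ j.factorial * M / r ^ j :=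
  Complex.norm_iteratedDeriv_le_of_forall_mem_sphere_norm_le j hr
    (DifferentiableOn.diffContOnCl (by rwa [closure_ball _ hr.ne']))
    fun z hz => hM z (mem_sphere_zero_iff_norm.1 hz).le

theorem taylor1 {φ : ℂ → ℂ} {r M : ℝ} (hr : 0 < r) (hφ : DifferentiableOn ℂ φ (closedBall 0 r))
    (hM : ∀ t : ℂ, ‖t‖ ≤ r → ‖φ t‖ ≤ M) (d : ℕ) {t : ℂ} (ht : ‖t‖ ≤ r / 2) :
    ‖φ t - ∑ j ∈ Finset.range d, t ^ j / j.factorial * iteratedDeriv j φ 0‖ ≤
      2 * M * (‖t‖ / r) ^ d := by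
  have hM0 : 0 ≤ M := (norm_nonneg _).trans (hM 0 (by rw [norm_zero]; exact hr.le))
  have h1 := Complex.hasSum_taylorSeries_on_ball (hφ.mono ball_subset_closedBall)
    (z := t) (by rw [mem_ball_zero_iff]; linarith)
  have h2 : HasSum (fun j : ℕ => t ^ j / j.factorial * iteratedDeriv j φ 0) (φ t) := by
    refine h1.congr_fun fun j => ?_
    simp only [sub_zero, smul_eq_mul]
    ring
  have h3 := (hasSum_nat_add_iff' d).2 h2
  set q : ℝ := ‖t‖ / r with hq
  have q0 : 0 ≤ q := by positivity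
  have q1 : q ≤ 1 / 2 := by rw [hq, div_le_iff₀ hr]; linarith
  have h4 : HasSum (fun j : ℕ => M * q ^ d * (1 / 2 : ℝ) ^ j) (M * q ^ d * 2) :=
    hasSum_geometric_two.mul_left _
  have h5 := h3.norm_le_of_bounded h4 fun j => by
    have a := cauchy1 hr hφ hM (j + d)
    have f0 : (0 : ℝ) < (j + d).factorial := by exact_mod_cast Nat.factorial_pos _
    rw [norm_mul, norm_div, norm_pow, Complex.norm_natCast]
    calc ‖t‖ ^ (j + d) / (j + d).factorial * ‖iteratedDeriv (j + d) φ 0‖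
        ≤ ‖t‖ ^ (j + d) / (j + d).factorial * ((j + d).factorial * M / r ^ (j + d)) := by gcongr
      _ = M * q ^ d * q ^ j := by
        rw [hq, div_pow, div_pow, pow_add, pow_add]; field_simp
      _ ≤ M * q ^ d * (1 / 2) ^ j := by gcongr
  linarith

theorem deriv_zero_of_isLittleO {φ : ℂ → ℂ} (hφ : AnalyticAt ℂ φ 0) {j : ℕ}
    (h : φ =o[𝓝 0] fun t : ℂ => ‖t‖ ^ j) : iteratedDeriv j φ 0 = 0 := by
  refine norm_le_zero_iff.1 (le_of_forall_pos_le_add fun ε hε => ?_)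
  have f0 : (0 : ℝ) < j.factorial := by exact_mod_cast Nat.factorial_pos _
  obtain ⟨r, hr, h1⟩ := nhds_basis_closedBall.eventually_iff.1
    ((h.bound (div_pos hε f0)).and hφ.eventually_analyticAt)
  have h2 := cauchy1 hr (fun t ht => (h1 ht).2.differentiableAt.differentiableWithinAt)
    (M := ε / j.factorial * r ^ j) (fun t ht => by
      refine (h1 (mem_closedBall_zero_iff.2 ht)).1.trans ?_
      rw [norm_pow, norm_norm]
      gcongr) j
  rw [zero_add]
  refine h2.trans (le_of_eq ?_)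
  field_simp

/-! ### directional derivatives -/

variable {E : Type*} [NormedAddCommGroup E] [NormedSpace ℂ E] {f g : E → ℂ} {a z v : E}

/-- the derivative of order `j` of `f` in the direction `v` -/
def dl (v : E) (j : ℕ) (f : E → ℂ) (z : E) : ℂ := iteratedFDeriv ℂ j f z fun _ => v

theorem dl_zero (v : E) (f : E → ℂ) : dl v 0 f = f := by
  funext z; simp [dl]

theorem an_iter (hf : AnalyticAt ℂ f a) (j : ℕ) : AnalyticAt ℂ (iteratedFDeriv ℂ j f) a :=
  (AnalyticOnNhd.iteratedFDeriv (s := {a}) (fun _ h => h ▸ hf) j) a rfl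

theorem dl_an (hf : AnalyticAt ℂ f a) (v : E) (j : ℕ) : AnalyticAt ℂ (dl v j f) a :=
  ((ContinuousMultilinearMap.apply ℂ (fun _ : Fin j => E) ℂ fun _ => v).analyticAt _).comp
    (an_iter hf j)

theorem dl_congr (h : f =ᶠ[𝓝 a] g) (v : E) (j : ℕ) : dl v j f =ᶠ[𝓝 a] dl v j g :=
  (h.iteratedFDeriv ℂ j).mono fun z hz => by rw [dl, dl, hz]

theorem dl_succ (hf : AnalyticAt ℂ f z) (v : E) (j : ℕ) :
    dl v (j + 1) f z = fderiv ℂ (dl v j f) z v := by
  have h1 := ((ContinuousMultilinearMap.apply ℂ (fun _ : Fin j => E) ℂ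
    fun _ => v).hasFDerivAt.comp z (an_iter hf j).differentiableAt.hasFDerivAt).fderiv
  rw [dl, iteratedFDeriv_succ_apply_left]
  exact (congrArg (fun L : E →L[ℂ] ℂ => L v) h1).symm

theorem dl_smul (c : ℂ) (v : E) (j : ℕ) (f : E → ℂ) (z : E) :
    dl (c • v) j f z = c ^ j * dl v j f z := by
  have h := (iteratedFDeriv ℂ j f z).map_smul_univ (fun _ => c) fun _ => v
  simpa [dl] using h

theorem norm_dl_le (v : E) (j : ℕ) (f : E → ℂ) (z : E) :
    ‖dl v j f z‖ ≤ ‖iteratedFDeriv ℂ j f z‖ * ‖v‖ ^ j := by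
  simpa [dl] using (iteratedFDeriv ℂ j f z).le_opNorm fun _ => v

theorem tend_line (z v : E) (s : ℂ) : Tendsto (fun t : ℂ => z + t • v) (𝓝 s) (𝓝 (z + s • v)) :=
  (continuous_const.add (continuous_id.smul continuous_const)).tendsto s

theorem an_line (z v : E) (s : ℂ) : AnalyticAt ℂ (fun t : ℂ => z + t • v) s :=
  analyticAt_const.add (analyticAt_id.smul analyticAt_const)

theorem dl_line (j : ℕ) : ∀ {s : ℂ}, AnalyticAt ℂ f (z + s • v) →
    iteratedDeriv j (fun t : ℂ => f (z + t • v)) s = dl v j f (z + s • v) := by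
  induction j with
  | zero => intro s _; rw [iteratedDeriv_zero, dl_zero]
  | succ j ih =>
    intro s hf
    have h1 : iteratedDeriv j (fun t : ℂ => f (z + t • v)) =ᶠ[𝓝 s]
        fun t => dl v j f (z + t • v) :=
      ((tend_line z v s).eventually hf.eventually_analyticAt).mono fun t ht => ih ht
    have h2 : HasDerivAt (fun t : ℂ => z + t • v) v s := by
      simpa using ((hasDerivAt_id s).smul_const v).const_add z
    rw [iteratedDeriv_succ, h1.deriv_eq, dl_succ hf]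
    exact ((dl_an hf v j).differentiableAt.hasFDerivAt.comp_hasDerivAt s h2).deriv

theorem dl_line0 (hf : AnalyticAt ℂ f z) (v : E) (j : ℕ) :
    iteratedDeriv j (fun t : ℂ => f (z + t • v)) 0 = dl v j f z := by
  have h := dl_line (f := f) (z := z) (v := v) j (s := 0) (by rwa [zero_smul, add_zero])
  rwa [zero_smul, add_zero] at h

theorem dl_add (hf : AnalyticAt ℂ f z) (v : E) (i j : ℕ) :
    dl v i (dl v j f) z = dl v (i + j) f z := by
  induction i generalizing z with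
  | zero => rw [dl_zero, zero_add]
  | succ i ih =>
    have h1 : dl v i (dl v j f) =ᶠ[𝓝 z] dl v (i + j) f :=
      hf.eventually_analyticAt.mono fun w hw => ih hw
    rw [dl_succ (dl_an hf v j), h1.fderiv_eq, ← dl_succ hf, Nat.add_right_comm]

theorem dl_one (f : E → ℂ) (z v : E) : dl v 1 f z = fderiv ℂ f z v := by
  simp [dl]

theorem diff_line {r : ℝ} (hf : ∀ t : ℂ, ‖t‖ ≤ r → AnalyticAt ℂ f (z + t • v)) :
    DifferentiableOn ℂ (fun t : ℂ => f (z + t • v)) (closedBall 0 r) := fun t ht =>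
  (AnalyticAt.comp (g := f) (f := fun t : ℂ => z + t • v) (hf t (mem_closedBall_zero_iff.1 ht))
    (an_line z v t)).differentiableAt.differentiableWithinAt

/-- Cauchy estimate along a line -/
theorem cauchy_dl {r M : ℝ} (hr : 0 < r) (hf : ∀ t : ℂ, ‖t‖ ≤ r → AnalyticAt ℂ f (z + t • v))
    (hM : ∀ t : ℂ, ‖t‖ ≤ r → ‖f (z + t • v)‖ ≤ M) (j : ℕ) :
    ‖dl v j f z‖ ≤ j.factorial * M / r ^ j := by
  have h0 := hf 0 (by rw [norm_zero]; exact hr.le)
  rw [zero_smul, add_zero] at h0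
  rw [← dl_line0 h0]
  exact cauchy1 hr (diff_line hf) hM j

/-- Taylor estimate along a line -/
theorem taylor_dl {r M : ℝ} (hr : 0 < r) (hf : ∀ t : ℂ, ‖t‖ ≤ r → AnalyticAt ℂ f (z + t • v))
    (hM : ∀ t : ℂ, ‖t‖ ≤ r → ‖f (z + t • v)‖ ≤ M) (d : ℕ) {t : ℂ} (ht : ‖t‖ ≤ r / 2) :
    ‖f (z + t • v) - ∑ j ∈ Finset.range d, t ^ j / j.factorial * dl v j f z‖ ≤
      2 * M * (‖t‖ / r) ^ d := by
  have h0 := hf 0 (by rw [norm_zero]; exact hr.le)
  rw [zero_smul, add_zero] at h0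
  simpa only [dl_line0 h0] using taylor1 hr (diff_line hf) hM d ht

/-- a ball on which `f` is analytic and bounded -/
theorem exists_ball (hf : AnalyticAt ℂ f a) :
    ∃ R M : ℝ, 0 < R ∧ 0 ≤ M ∧ ∀ z, ‖z - a‖ ≤ R → AnalyticAt ℂ f z ∧ ‖f z‖ ≤ M := by
  have h1 : ∀ᶠ z in 𝓝 a, ‖f z‖ < ‖f a‖ + 1 :=
    hf.continuousAt.norm.eventually_lt continuousAt_const (lt_add_one _)
  obtain ⟨R, hR, h⟩ := nhds_basis_closedBall.eventually_iff.1 (hf.eventually_analyticAt.and h1)
  exact ⟨R, ‖f a‖ + 1, hR, by positivity, fun z hz =>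
    (h (mem_closedBall_iff_norm.2 hz)).imp id le_of_lt⟩

/-- Taylor estimate, uniform near `a` -/
theorem taylor_unif (hf : AnalyticAt ℂ f a) (d : ℕ) :
    ∃ C δ : ℝ, 0 ≤ C ∧ 0 < δ ∧ ∀ z, ‖z - a‖ ≤ δ → ∀ w : E, ‖w‖ ≤ δ →
      ‖f (z + w) - ∑ j ∈ Finset.range d, (j.factorial : ℂ)⁻¹ * dl w j f z‖ ≤ C * ‖w‖ ^ d := by
  obtain ⟨R, M, hR, hM, h⟩ := exists_ball hf
  refine ⟨2 * M * (2 / R) ^ d, R / 4, by positivity, by positivity, fun z hz w hw => ?_⟩
  by_cases h0 : w = 0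
  · subst h0
    rcases d with _ | d
    · have := (h z (by linarith)).2
      simp only [add_zero, Finset.range_zero, Finset.sum_empty, sub_zero, pow_zero, mul_one]
      linarith
    · rw [Finset.sum_range_succ', Finset.sum_eq_zero fun j _ => by
        have := dl_smul 0 (0 : E) (j + 1) f z
        rw [zero_smul, zero_pow j.succ_ne_zero, zero_mul] at this
        rw [this, mul_zero]]
      simp [dl_zero]
  have w0 : 0 < ‖w‖ := norm_pos_iff.2 h0
  have k : ∀ t : ℂ, ‖t‖ ≤ R / 2 / ‖w‖ → ‖z + t • w - a‖ ≤ R := fun t ht => by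
    rw [le_div_iff₀ w0] at ht
    rw [add_sub_right_comm]
    refine (norm_add_le _ _).trans ?_
    rw [norm_smul]
    linarith
  have h1 := taylor_dl (r := R / 2 / ‖w‖) (by positivity) (fun t ht => (h _ (k t ht)).1)
    (fun t ht => (h _ (k t ht)).2) d (t := 1) (by
      rw [norm_one, le_div_iff₀ two_pos, le_div_iff₀ w0]; linarith)
  simp only [one_smul, one_pow, one_div, norm_one] at h1
  refine h1.trans (le_of_eq ?_)
  rw [mul_assoc (2 * M), ← mul_pow]
  congr 2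
  field_simp

/-! ### order of vanishing -/

/-- `f` vanishes at `a` to order at least `k` -/
def Ord (f : E → ℂ) (a : E) (k : ℕ) : Prop := f =O[𝓝 a] fun z => ‖z - a‖ ^ k

theorem dl_of_isLittleO (hf : AnalyticAt ℂ f a) {j : ℕ} (h : f =o[𝓝 a] fun z => ‖z - a‖ ^ j)
    (v : E) : dl v j f a = 0 := by
  rw [← dl_line0 hf]
  have h0 := tend_line a v 0
  rw [zero_smul, add_zero] at h0
  refine deriv_zero_of_isLittleO (AnalyticAt.comp (g := f) (f := fun t : ℂ => a + t • v)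
    (by rwa [zero_smul, add_zero]) (an_line a v 0)) ((h.comp_tendsto h0).trans_isBigO ?_)
  refine IsBigO.of_bound (‖v‖ ^ j) (Eventually.of_forall fun t => le_of_eq ?_)
  simp [norm_smul, mul_pow, mul_comm]

theorem pow_isLittleO (a : E) {j k : ℕ} (h : j < k) :
    (fun z => ‖z - a‖ ^ k) =o[𝓝 a] fun z => ‖z - a‖ ^ j :=
  (isLittleO_pow_pow h).comp_tendsto (tendsto_norm_sub_self a)

theorem ord_of_dl (hf : AnalyticAt ℂ f a) {k : ℕ} (h : ∀ j < k, ∀ v, dl v j f a = 0) :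
    Ord f a k := by
  obtain ⟨C, δ, -, hδ, h1⟩ := taylor_unif hf k
  refine IsBigO.of_bound C ?_
  filter_upwards [closedBall_mem_nhds a hδ] with z hz
  have h2 := h1 a (by rw [sub_self, norm_zero]; exact hδ.le) (z - a) (mem_closedBall_iff_norm.1 hz)
  rw [Finset.sum_eq_zero fun j hj => by rw [h j (Finset.mem_range.1 hj), mul_zero], sub_zero,
    add_sub_cancel] at h2
  rwa [norm_pow, norm_norm]

theorem ord_iff (hf : AnalyticAt ℂ f a) {k : ℕ} : Ord f a k ↔ ∀ j < k, ∀ v, dl v j f a = 0 :=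
  ⟨fun h _ hj => dl_of_isLittleO hf (h.trans_isLittleO (pow_isLittleO a hj)), ord_of_dl hf⟩

theorem Ord.mono {k l : ℕ} (h : Ord f a k) (hl : l ≤ k) : Ord f a l := by
  rcases hl.eq_or_lt with rfl | hl
  · exact h
  · exact h.trans (pow_isLittleO a hl).isBigO

theorem Ord.congr {k : ℕ} (h : Ord f a k) (e : f =ᶠ[𝓝 a] g) : Ord g a k :=
  IsBigO.congr' h e EventuallyEq.rfl

theorem ord_zero (hf : ContinuousAt f a) : Ord f a 0 := by
  simpa [Ord] using hf.tendsto.isBigO_one ℝ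

theorem ord_of_isLittleO (hf : AnalyticAt ℂ f a) {k : ℕ} (h : f =o[𝓝 a] fun z => ‖z - a‖ ^ k) :
    Ord f a (k + 1) :=
  ord_of_dl hf fun j hj => dl_of_isLittleO hf (by
    rcases (Nat.lt_succ_iff.1 hj).eq_or_lt with rfl | hj
    · exact h
    · exact h.trans (pow_isLittleO a hj))

/-- growth with a real exponent -/
theorem ord_of_rpow (hf : AnalyticAt ℂ f a) {c : ℝ} (h : f =O[𝓝 a] fun z => ‖z - a‖ ^ c) {k : ℕ}
    (hk : (k : ℝ) < c + 1) : Ord f a k := by
  rcases k with _ | k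
  · exact ord_zero hf.continuousAt
  refine ord_of_isLittleO hf (h.trans_isLittleO ?_)
  have hc : 0 < c - k := by push_cast at hk; linarith
  have h1 : Tendsto (fun z => ‖z - a‖ ^ (c - k)) (𝓝 a) (𝓝 0) := by
    have h2 := (Real.continuousAt_rpow_const 0 (c - k) (.inr hc.le)).tendsto
    rw [Real.zero_rpow hc.ne'] at h2
    exact h2.comp (tendsto_norm_sub_self a)
  have h2 := ((isLittleO_one_iff ℝ).2 h1).mul_isBigO (isBigO_refl (fun z => ‖z - a‖ ^ k) (𝓝 a))
  refine h2.congr (fun z => ?_) fun z => one_mul _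
  rw [← Real.rpow_natCast, ← Real.rpow_add' (norm_nonneg _) (by
    have : (0 : ℝ) ≤ k := Nat.cast_nonneg k
    linarith), sub_add_cancel]

theorem Ord.eq_zero {k : ℕ} (h : Ord f a k) (hk : k ≠ 0) : f a = 0 := by
  obtain ⟨C, hC⟩ := h.bound
  simpa [hk] using hC.self_of_nhds

theorem ord_one (hf : DifferentiableAt ℂ f a) (h : f a = 0) : Ord f a 1 := by
  simpa [Ord, h] using hf.isBigO_sub

theorem ord_two_iff (hf : AnalyticAt ℂ f a) : Ord f a 2 ↔ f a = 0 ∧ fderiv ℂ f a = 0 := by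
  rw [ord_iff hf]
  refine ⟨fun h => ⟨by simpa [dl_zero] using h 0 two_pos 0, ?_⟩, fun h j hj v => ?_⟩
  · ext v
    simpa [dl_one] using h 1 one_lt_two v
  · interval_cases j
    · rw [dl_zero, h.1]
    · rw [dl_one, h.2]; rfl

theorem Ord.mul {k l : ℕ} (h : Ord f a k) (h' : Ord g a l) : Ord (fun z => f z * g z) a (k + l) :=
  (IsBigO.mul h h').congr_right fun _ => (pow_add _ _ _).symm

theorem Ord.cmul {k : ℕ} (h : Ord f a k) (hg : ContinuousAt g a) : Ord (fun z => g z * f z) a k := by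
  simpa using (ord_zero hg).mul h

theorem Ord.add {k : ℕ} (h : Ord f a k) (h' : Ord g a k) : Ord (fun z => f z + g z) a k :=
  IsBigO.add h h'

theorem Ord.pow {k : ℕ} (h : Ord f a k) (m : ℕ) : Ord (fun z => f z ^ m) a (k * m) :=
  (IsBigO.pow h m).congr_right fun _ => (pow_mul _ _ _).symm

theorem Ord.of_pow {k m : ℕ} (hm : m ≠ 0) (h : Ord (fun z => f z ^ m) a (k * m)) : Ord f a k :=
  IsBigO.of_pow hm (h.congr_right fun _ => pow_mul _ _ _)

theorem Ord.of_le {k : ℕ} (h : Ord f a k) {C : ℝ} (hg : ∀ᶠ z in 𝓝 a, ‖g z‖ ≤ C * ‖f z‖) :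
    Ord g a k := (IsBigO.of_bound C hg).trans h

theorem Ord.comp {F : Type*} [NormedAddCommGroup F] [NormedSpace ℂ F] {Φ : F → E} {b : F} {k : ℕ}
    (hΦ : DifferentiableAt ℂ Φ b) (h : Ord f (Φ b) k) : Ord (fun z => f (Φ z)) b k :=
  (h.comp_tendsto hΦ.continuousAt).trans (hΦ.isBigO_sub.norm_norm.pow k)

theorem Ord.dl {k : ℕ} (h : Ord f a k) (hf : AnalyticAt ℂ f a) (v : E) (j : ℕ) :
    Ord (dl v j f) a (k - j) := by
  have h0 : ∀ {g : E → ℂ} {l : ℕ}, AnalyticAt ℂ g a → Ord g a l →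
      Ord (fun z => fderiv ℂ g z v) a (l - 1) := by
    intro g l hg hl
    obtain ⟨C, hC, h1⟩ := hl.exists_pos
    obtain ⟨r, hr, h2⟩ := nhds_basis_closedBall.eventually_iff.1
      (h1.bound.and hg.eventually_analyticAt)
    rcases l with _ | l
    · exact ord_zero (((ContinuousLinearMap.apply ℂ ℂ v).analyticAt _).comp hg.fderiv).continuousAt
    refine IsBigO.of_bound (C * (2 + ‖v‖) ^ (l + 1)) ?_
    have hv : 0 < 2 + ‖v‖ := by positivity
    filter_upwards [closedBall_mem_nhds a (div_pos hr hv)] with z hz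
    rw [mem_closedBall_iff_norm, le_div_iff₀ hv] at hz
    by_cases e : z = a
    · subst e
      rcases l with _ | l
      · obtain ⟨ρ, hρ, hρ'⟩ : ∃ ρ : ℝ, 0 < ρ ∧ ρ * (2 + ‖v‖) ≤ r := ⟨r / (2 + ‖v‖), by positivity,
          (div_mul_cancel₀ _ hv.ne').le⟩
        have k : ∀ t : ℂ, ‖t‖ ≤ ρ → ‖z + t • v - z‖ ≤ ρ * (2 + ‖v‖) := fun t ht => by
          rw [add_sub_cancel_left, norm_smul]; gcongr; linarith
        have h3 := cauchy_dl hρ (fun t ht => (h2 (mem_closedBall_iff_norm.2 ((k t ht).trans hρ'))).2)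
          (M := C * (ρ * (2 + ‖v‖))) (fun t ht => by
            refine (h2 (mem_closedBall_iff_norm.2 ((k t ht).trans hρ'))).1.trans ?_
            rw [zero_add, pow_one, norm_norm]
            exact mul_le_mul_of_nonneg_left (k t ht) hC.le) 1
        rw [dl_one] at h3
        refine h3.trans (le_of_eq ?_)
        simp
        field_simp
      · have := ((ord_two_iff hg).1 (hl.mono (by omega))).2
        simp [this]
    have z0 : 0 < ‖z - a‖ := norm_pos_iff.2 (sub_ne_zero.2 e)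
    have k : ∀ t : ℂ, ‖t‖ ≤ ‖z - a‖ → ‖z + t • v - a‖ ≤ ‖z - a‖ * (2 + ‖v‖) := fun t ht => by
      rw [add_sub_right_comm]
      refine (norm_add_le _ _).trans ?_
      rw [norm_smul]
      nlinarith [norm_nonneg v]
    have h3 := cauchy_dl z0 (fun t ht => (h2 (mem_closedBall_iff_norm.2 ((k t ht).trans hz))).2)
      (M := C * (‖z - a‖ * (2 + ‖v‖)) ^ (l + 1)) (fun t ht => by
        refine (h2 (mem_closedBall_iff_norm.2 ((k t ht).trans hz))).1.trans ?_
        rw [norm_pow, norm_norm]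
        exact mul_le_mul_of_nonneg_left (pow_le_pow_left₀ (norm_nonneg _) (k t ht) _) hC.le) 1
    rw [dl_one] at h3
    refine h3.trans (le_of_eq ?_)
    simp only [Nat.add_sub_cancel, norm_pow, norm_norm, Nat.factorial_one, Nat.cast_one,
      mul_pow, pow_succ]
    field_simp
  induction j with
  | zero => simpa [dl_zero] using h
  | succ j ih =>
    refine (h0 (dl_an hf v j) ih).congr ?_
    exact hf.eventually_analyticAt.mono fun z hz => (dl_succ hz v j).symm

/-- upper semicontinuity of the order -/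
theorem not_ord_eventually (hf : AnalyticAt ℂ f a) {k : ℕ} (h : ¬ Ord f a k) :
    ∀ᶠ z in 𝓝 a, ¬ Ord f z k := by
  rw [ord_iff hf] at h
  push Not at h
  obtain ⟨j, hj, v, h⟩ := h
  filter_upwards [hf.eventually_analyticAt, (dl_an hf v j).continuousAt.eventually_ne h] with z h1 h2
  exact fun h3 => h2 ((ord_iff h1).1 h3 j hj v)

/-- the identity theorem -/
theorem zero_of_ord (hf : AnalyticAt ℂ f a) (h : ∀ k, Ord f a k) : f =ᶠ[𝓝 a] 0 := by
  obtain ⟨R, M, hR, hM, h1⟩ := exists_ball hf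
  filter_upwards [closedBall_mem_nhds a (half_pos (half_pos hR))] with z hz
  rw [mem_closedBall_iff_norm] at hz
  by_cases e : z = a
  · exact e ▸ (h 1).eq_zero one_ne_zero
  have z0 : 0 < ‖z - a‖ := norm_pos_iff.2 (sub_ne_zero.2 e)
  have k : ∀ t : ℂ, ‖t‖ ≤ 4 → ‖a + t • (z - a) - a‖ ≤ R := fun t ht => by
    rw [add_sub_cancel_left, norm_smul]; nlinarith
  have h2 : ∀ d : ℕ, ‖f z‖ ≤ 2 * M * (1 / 4) ^ d := fun d => by
    have h3 := taylor_dl (r := 4) four_pos (fun t ht => (h1 _ (k t ht)).1)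
      (fun t ht => (h1 _ (k t ht)).2) d (t := 1) (by norm_num)
    rw [Finset.sum_eq_zero fun j _ => by
      rw [(ord_iff hf).1 (h (j + 1)) j (Nat.lt_succ_self j), mul_zero]] at h3
    simpa using h3
  have h3 : Tendsto (fun d : ℕ => 2 * M * (1 / 4 : ℝ) ^ d) atTop (𝓝 (2 * M * 0)) :=
    (tendsto_pow_atTop_nhds_zero_of_lt_one (by norm_num) (by norm_num)).const_mul _
  rw [mul_zero] at h3
  exact norm_le_zero_iff.1 (ge_of_tendsto' h3 h2)

theorem ord_of_zero (h : f =ᶠ[𝓝 a] 0) (k : ℕ) : Ord f a k :=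
  IsBigO.congr' (isBigO_zero _ _) h.symm EventuallyEq.rfl

/-- the exact order -/
theorem exists_ord (hf : AnalyticAt ℂ f a) (h : ¬ f =ᶠ[𝓝 a] 0) :
    ∃ k, Ord f a k ∧ ¬ Ord f a (k + 1) := by
  by_contra h1
  push Not at h1
  exact h (zero_of_ord hf fun k => Nat.rec (ord_zero hf.continuousAt) h1 k)

theorem exists_dl (hf : AnalyticAt ℂ f a) {k : ℕ} (h : Ord f a k) (h' : ¬ Ord f a (k + 1)) :
    ∃ v, dl v k f a ≠ 0 := by
  by_contra h1
  push Not at h1
  refine h' (ord_of_dl hf fun j hj v => ?_)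
  rcases (Nat.lt_succ_iff.1 hj).eq_or_lt with rfl | hj
  · exact h1 v
  · exact (ord_iff hf).1 h j hj v

/-- the leading term along a line -/
theorem Ord.tendsto_lead {k : ℕ} (h : Ord f a k) (hf : AnalyticAt ℂ f a) (v : E) :
    Tendsto (fun t : ℂ => f (a + t • v) / t ^ k) (𝓝[≠] 0) (𝓝 (H1.dl v k f a / k.factorial)) := by
  obtain ⟨C, δ, hC, hδ, h1⟩ := taylor_unif hf (k + 1)
  have h2 : Tendsto (fun t : ℂ => C * ‖v‖ ^ (k + 1) * ‖t‖) (𝓝[≠] 0) (𝓝 (C * ‖v‖ ^ (k + 1) * 0)) :=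
    (tendsto_norm_zero.mono_left nhdsWithin_le_nhds).const_mul _
  rw [mul_zero] at h2
  refine tendsto_iff_norm_sub_tendsto_zero.2 (squeeze_zero' (Eventually.of_forall fun _ =>
    norm_nonneg _) ?_ h2)
  have h3 : ∀ᶠ t : ℂ in 𝓝 0, ‖t • v‖ < δ :=
    (continuous_id.smul continuous_const).norm.continuousAt.eventually_lt continuousAt_const
      (by simpa using hδ)
  filter_upwards [mem_nhdsWithin_of_mem_nhds h3, self_mem_nhdsWithin] with t ht t0
  have h4 := h1 a (by rw [sub_self, norm_zero]; exact hδ.le) _ ht.le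
  rw [Finset.sum_range_succ, Finset.sum_eq_zero fun j hj => by
    rw [(ord_iff hf).1 h j (Finset.mem_range.1 hj), mul_zero], zero_add, dl_smul] at h4
  have t1 : t ^ k ≠ 0 := pow_ne_zero _ t0
  have t2 : 0 < ‖t‖ ^ k := pow_pos (norm_pos_iff.2 t0) _
  have e : f (a + t • v) / t ^ k - H1.dl v k f a / k.factorial =
      (f (a + t • v) - (k.factorial : ℂ)⁻¹ * (t ^ k * H1.dl v k f a)) / t ^ k := by
    field_simp
  rw [e, norm_div, norm_pow, div_le_iff₀ t2]
  refine h4.trans (le_of_eq ?_)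
  rw [norm_smul]
  ring

/-- a form of degree `k` which vanishes to order `k + 1` somewhere is zero -/
theorem form_zero {k : ℕ} (p : E [×k]→L[ℂ] ℂ) {v₀ : E} (h : Ord (fun v => p fun _ => v) v₀ (k + 1))
    (v : E) : (p fun _ => v) = 0 := by
  have an : ∀ u, AnalyticAt ℂ (fun v => p fun _ => v) u := fun u =>
    AnalyticAt.comp (g := p) (f := fun v : E => fun _ : Fin k => v) p.analyticAt
      (AnalyticAt.pi fun _ => analyticAt_id)
  have h0 : ∀ j u, dl u j (fun v => p fun _ => v) v₀ = 0 := fun j u => by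
    by_cases hj : j < k + 1
    · exact (ord_iff (an _)).1 h j hj u
    refine norm_le_zero_iff.1 (ge_of_tendsto (f := fun r : ℝ =>
      j.factorial * (‖p‖ * (‖v₀‖ + ‖u‖) ^ k) * r⁻¹) (x := atTop) ?_ ?_)
    · simpa using tendsto_inv_atTop_zero.const_mul ((j.factorial : ℝ) * (‖p‖ * (‖v₀‖ + ‖u‖) ^ k))
    filter_upwards [eventually_ge_atTop (1 : ℝ)] with r hr
    have r0 : 0 < r := by linarith
    have h1 := cauchy_dl r0 (fun t _ => an (v₀ + t • u)) (M := ‖p‖ * ((‖v₀‖ + ‖u‖) * r) ^ k)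
      (fun t ht => by
        have h2 : ‖p fun _ => v₀ + t • u‖ ≤ ‖p‖ * ‖v₀ + t • u‖ ^ k := by
          simpa using p.le_opNorm fun _ => v₀ + t • u
        refine h2.trans (mul_le_mul_of_nonneg_left (pow_le_pow_left₀ (norm_nonneg _) ?_ _)
          (norm_nonneg _))
        refine (norm_add_le _ _).trans ?_
        rw [norm_smul]
        nlinarith [norm_nonneg u, norm_nonneg v₀]) j
    refine h1.trans ?_
    rw [div_le_iff₀ (pow_pos r0 _), mul_pow]
    have h3 : r ^ k ≤ r⁻¹ * r ^ j := by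
      rw [le_inv_mul_iff₀ r0, ← pow_succ']
      exact pow_le_pow_right₀ hr (by omega)
    calc _ = j.factorial * (‖p‖ * (‖v₀‖ + ‖u‖) ^ k) * r ^ k := by ring
      _ ≤ j.factorial * (‖p‖ * (‖v₀‖ + ‖u‖) ^ k) * (r⁻¹ * r ^ j) := by gcongr
      _ = _ := by ring
  have h1 := zero_of_ord (an v₀) fun l => ord_of_dl (an v₀) fun j _ u => h0 j u
  exact (AnalyticOnNhd.eqOn_zero_of_preconnected_of_eventuallyEq_zero (U := univ)
    (fun u _ => an u) isPreconnected_univ (mem_univ v₀) h1) (mem_univ v)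

end Vale.Agent.P287Q.H1
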