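import Vale.Agent.P287Q.H1.Defs

/-!
# Principalization by blow-ups in smooth centres: the statements of the steps
-/

open Filter Topology Set Function Asymptotics

noncomputable section

namespace Vale.Agent.P287Q.H1

open Mf

/-- the same presentation at another point -/
def Pres.mv {n k : ℕ} {q : W n} (P : Pres n k q) {q' : W n} (h : ∀ i, AnalyticAt ℂ (P.g i) q') :
    Pres n k q' := { P with an := h }

/-- the exponents after the blow-up -/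
def nxt (a : ℕ → ℕ) (r : ℕ) (J : Finset ℕ) (m D : ℕ) : ℕ → ℕ :=
  update a r (∑ j ∈ J, a j + m - D)

/-! ## local analysis -/

/-- division by a power of a coordinate -/
def StDiv : Prop := ∀ (n : ℕ) (f : W n → ℂ) (q : W n) (i : Fin n) (d : ℕ), AnalyticAt ℂ f q →
  q i = 0 → (f =O[𝓝 q] fun z => ‖z i‖ ^ d) →
    ∃ h, AnalyticAt ℂ h q ∧ ∀ᶠ z in 𝓝 q, f z = z i ^ d * h z

/-- two equations of a smooth hypersurface are comparable -/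
def StHyp : Prop := ∀ (n : ℕ) (θ : W n → W n) (q : W n) (i j : Fin n), IsCo θ q →
  (∀ᶠ z in 𝓝 q, θ z j = 0 ↔ z i = 0) → (fun z => θ z j) =Θ[𝓝 q] fun z => z i

/-- monomials in matched labelled coordinates are comparable -/
def StMon : Prop := ∀ (n : ℕ) (nu nu' : Fin n → Option ℕ) (Φ : W n → W n) (q : W n) (a : ℕ → ℕ),
  LIso nu nu' Φ q → Inj nu → Inj nu' →
    (fun z => mon (ex a nu') (Φ z)) =Θ[𝓝 q] mon (ex a nu)

/-- cancellation of a monomial -/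
def StCan : Prop := ∀ (n : ℕ) (μ : Fin n → ℕ) (f g : W n → ℝ) (q : W n),
  (∀ᶠ z in 𝓝 q, ContinuousAt f z) → (∀ᶠ z in 𝓝 q, ContinuousAt g z) →
  ((fun z => ‖mon μ z‖ * f z) =O[𝓝 q] fun z => ‖mon μ z‖ * g z) → f =O[𝓝 q] g

open Classical in
/-- the order of a monomial times a family -/
def StOrd : Prop := ∀ (n : ℕ) (μ : Fin n → ℕ) (κ : Type) [Fintype κ] (g : κ → W n → ℂ) (q : W n)
  (d : ℕ), (∀ i, AnalyticAt ℂ (g i) q) →
    (Van (fun z => ‖mon μ z‖ * nm g z) d q ↔ Van (nm g) (d - ∑ l with q l = 0, μ l) q)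

/-- the differential closure of one function -/
def StSz : Prop := ∀ (n : ℕ) (f : W n → ℂ) (q : W n) (d : ℕ), AnalyticAt ℂ f q →
  Lip (szD d f) q ∧ (∀ᶠ z in 𝓝 q, ContinuousAt (szD d f) z) ∧
    DomD (szD d f) (fun z => rt d ‖f z‖) q ∧ (Van (fun z => ‖f z‖) d q ↔ szD d f q = 0) ∧
      ∀ D, 0 < D → d.factorial ∣ D → Sz D (szD d f) q

/-- the order is upper semicontinuous, and finite unless the family is zero -/
def StUsc : Prop := ∀ (n : ℕ) (κ : Type) [Fintype κ] (g : κ → W n → ℂ) (q : W n),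
  (∀ i, AnalyticAt ℂ (g i) q) →
    (∀ m, ¬ Van (nm g) m q → ∀ᶠ z in 𝓝 q, ¬ Van (nm g) m z) ∧
      ((∀ m, Van (nm g) m q) → ∀ᶠ z in 𝓝 q, nm g z = 0)

/-- uniform vanishing along a coordinate subspace -/
def StVanC : Prop := ∀ (n : ℕ) (κ : Type) [Fintype κ] (g : κ → W n → ℂ) (q : W n) (m : ℕ)
  (A : Finset (Fin n)), (∀ i, AnalyticAt ℂ (g i) q) → q ∈ Zs A →
    (∀ᶠ z in 𝓝 q, z ∈ Zs A → Van (nm g) m z) → nm g =O[𝓝 q] fun z => (∑ l ∈ A, ‖z l‖) ^ m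

/-- the differential closure of a presentation -/
def StSat : Prop := ∀ (n k : ℕ) (q : W n) (P : Pres n k q) (D m : ℕ) (a : ℕ → ℕ), 0 < D →
  0 < m → Lip (P.L D a m) q ∧ (∀ᶠ z in 𝓝 q, ContinuousAt (P.L D a m) z) ∧
    P.T D a m =O[𝓝 q] P.L D a m ∧ DomD (P.L D a m) (P.T D a m) q ∧
      Sz (D + m).factorial (P.L D a m) q

/-- maximal contact -/
def StMax : Prop := ∀ (n k : ℕ) (κ : Type) [Fintype κ] (g : κ → W n → ℂ) (q : W n) (m : ℕ),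
  (∀ i, AnalyticAt ℂ (g i) q) → (∀ i, Ind k (g i)) → 0 < m → Van (nm g) m q →
    ¬ Van (nm g) (m + 1) q → ∃ u : W n → ℂ, AnalyticAt ℂ u q ∧ Ind k u ∧ u q = 0 ∧
      fderiv ℂ u q ≠ 0 ∧ (∀ z, ‖u z‖ ≤ ∑ i, szD m (g i) z) ∧
        DomD (fun z => ‖u z‖) (fun z => rt m (nm g z)) q

/-- formal properties of `DomD` and `Lip` -/
def StDom : Prop := ∀ (n : ℕ) (L T : W n → ℝ) (q : W n),
  (DomD L T q → ∀ L' T' : W n → ℝ, L' =O[𝓝 q] L → T =O[𝓝 q] T' → DomD L' T' q) ∧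
  (DomD L T q → ∀ᶠ z in 𝓝 q, DomD L T z) ∧
  (DomD L T q → Van T 1 q → Van L 1 q) ∧
  (DomD L T q → ∀ L₀ : W n → ℝ, Lip L₀ q → Van L₀ 1 q → T =O[𝓝 q] L₀ → L =O[𝓝 q] L₀) ∧
  (∀ θ p, IsCo θ p → θ p = q → DomD L T q → DomD (L ∘ θ) (T ∘ θ) p) ∧
  (∀ θ p, IsCo θ p → θ p = q → Lip L q → Lip (L ∘ θ) p) ∧
  (Lip L q → ∀ᶠ z in 𝓝 q, Lip L z)

/-- a function of Lipschitz type which dominates the first `k` coordinates has level `k` -/
def StQ : Prop := ∀ (n k D : ℕ) (L : W n → ℝ) (q : W n), k ≤ n → 0 < D → Lip L q → Sz D L q →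
  pr k q = q → ((fun z => ‖z - pr k z‖) =O[𝓝 q] L) →
    ∃ P : Pres n k q, P.nu = (fun _ => none) ∧ L =Θ[𝓝 q] P.f D 0

/-- the differential closure has level `k + 1` -/
def StLev : Prop := ∀ (n k : ℕ) (q : W n) (P : Pres n k q) (D m : ℕ) (a : ℕ → ℕ), 0 < D →
  0 < m → pr k q = q → Van (nm P.g) m q → ¬ Van (nm P.g) (m + 1) q →
    ∃ (θ : W n → W n) (P₁ : Pres n (k + 1) (θ q)), IsCo θ q ∧ P₁.nu = (fun _ => none) ∧
      P.L D a m =Θ[𝓝 q] (P₁.f (D + m).factorial 0 ∘ θ)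

/-- independence of the presentation -/
def StKey : Prop := ∀ (n k D : ℕ) (a : ℕ → ℕ) (q q' : W n) (P : Pres n k q) (P' : Pres n k q')
  (Φ : W n → W n), 0 < D → Φ q = q' → LIso P.nu P'.nu Φ q → P.f D a =Θ[𝓝 q] (P'.f D a ∘ Φ) →
    pr k q = q → pr k q' = q' →
      (∀ m, Van (nm P.g) m q → Van (nm P'.g) m q') ∧
        ∀ m, 0 < m → ∀ L : W n → ℝ, Lip L q → P.T D a m =O[𝓝 q] L → (P'.T D a m ∘ Φ) =O[𝓝 q] L

/-- Giraud's lemma in the chart `i` -/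
def StGir : Prop := ∀ (n : ℕ) (A : Finset (Fin n)) (i : Fin n) (b : W n) (L T L' T' : W n → ℝ),
  b i = 0 → DomD L T (σ A i b) → ((fun z => ‖z i‖ * L' z) =O[𝓝 b] (L ∘ σ A i)) →
    ((T ∘ σ A i) =O[𝓝 b] fun z => ‖z i‖ * T' z) → (∀ᶠ z in 𝓝 b, ContinuousAt L' z) →
      DomD L' T' b

/-- the order does not go up -/
def StOrdBl : Prop := ∀ (n : ℕ) (A : Finset (Fin n)) (i : Fin n) (b : W n) (κ : Type) [Fintype κ]
  (g g' : κ → W n → ℂ) (m : ℕ), i ∈ A → b i = 0 → (∀ t, AnalyticAt ℂ (g t) (σ A i b)) →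
    (∀ t, AnalyticAt ℂ (g' t) b) → (∀ᶠ z in 𝓝 (σ A i b), z ∈ Zs A → Van (nm g) m z) →
      (∀ t, ∀ᶠ z in 𝓝 b, g t (σ A i z) = z i ^ m * g' t z) → Van (nm g') (m + 1) b →
        Van (nm g) (m + 1) (σ A i b)

/-- the coordinates in `A` fit with the level `k`, the labels `nu` and the set `J` -/
structure Fit {n : ℕ} (k : ℕ) (nu : Fin n → Option ℕ) (J : Finset ℕ) (A : Finset (Fin n))
    (q : W n) : Prop where
  low : ∀ l : Fin n, l.val < k → l ∈ A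
  zero : ∀ l j, nu l = some j → q l = 0
  mem : ∀ l j, nu l = some j → (l ∈ A ↔ j ∈ J)
  sur : ∀ j ∈ J, ∃ l, nu l = some j

/-- the transform of a presentation in the chart `i` -/
def StTrip : Prop := ∀ (n k D m r : ℕ) (a : ℕ → ℕ) (q : W n) (P : Pres n k q) (J : Finset ℕ)
  (A : Finset (Fin n)) (i : Fin n) (b : W n), 0 < D → i ∈ A → k ≤ i.val → b i = 0 →
    σ A i b = q → Fit k P.nu J A q → (∀ l, P.nu l ≠ some r) → D ≤ ∑ j ∈ J, a j + m →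
      (∀ᶠ z in 𝓝 q, z ∈ Zs A → Van (nm P.g) m z) →
        ∃ P' : Pres n k b, P'.nu = update P.nu i (some r) ∧
          (∀ᶠ z in 𝓝 b, ‖z i‖ * P'.f D (nxt a r J m D) z = P.f D a (σ A i z)) ∧
          (∀ᶠ z in 𝓝 b, ‖z i‖ ^ m * nm P'.g z = nm P.g (σ A i z)) ∧
          (Van (nm P'.g) (m + 1) b → Van (nm P.g) (m + 1) q)

/-- coordinates adapted to a centre -/
def StAdaptL : Prop := ∀ (n k : ℕ) (nu nu₀ : Fin n → Option ℕ) (J : Finset ℕ) (A₀ : Finset (Fin n))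
  (ψ : W n → W n) (q : W n), (∀ l : Fin n, l.val < k → nu l = none) → Inj nu → Inj nu₀ →
    (∀ l j, nu l = some j → q l = 0) → IsCo ψ q → ψ q ∈ Zs A₀ → (∀ l ∈ A₀, nu₀ l = none) →
      (∀ᶠ z in 𝓝 q, ψ z ∈ Zs A₀ → pr k z = z ∧ ∀ j ∈ J, z ∈ hyp nu j) →
        (∀ᶠ z in 𝓝 q, ∀ j ∉ J, z ∈ hyp nu j ↔ ψ z ∈ hyp nu₀ j) →
          ∃ (θ : W n → W n) (A : Finset (Fin n)), IsCo θ q ∧
            (∀ z (l : Fin n), l.val < k ∨ nu l ≠ none → θ z l = z l) ∧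
            (∀ l : Fin n, k ≤ l.val → Ind k fun z => θ z l) ∧
            (∀ᶠ z in 𝓝 q, ψ z ∈ Zs A₀ ↔ θ z ∈ Zs A) ∧ Fit k nu J A (θ q)

/-! ## statements on manifolds -/

/-- presentations: nearby points, the support, local isomorphisms -/
def StPres : Prop := ∀ (n k D : ℕ) (X : Mf n) (E : Dv X) (a : ℕ → ℕ) (f : X.M → ℝ) (p : X.M)
  (φ : X.M → W n) (P : Pres n k (φ p)), 0 < D → IsPres E k D a f p φ P →
    (∀ᶠ b in 𝓝 p, ∃ h, IsPres E k D a f b φ (P.mv h)) ∧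
    (X.Ord1 f p ↔ pr k (φ p) = φ p ∧ Van (fun z => ‖mon (ex a P.nu) z‖ * nm P.g z) D (φ p)) ∧
    (∀ γ ∈ X.Γ, ∀ p' ∈ γ.source, γ p' = p → ∃ h, IsPres E k D a (f ∘ γ) p' (φ ∘ γ) (P.mv h))

/-- independence of the presentation -/
def StKeyM : Prop := ∀ (n k D : ℕ) (X : Mf n) (E : Dv X) (a : ℕ → ℕ) (f : X.M → ℝ) (p : X.M)
  (φ φ' : X.M → W n) (P : Pres n k (φ p)) (P' : Pres n k (φ' p)), 0 < D → IsPres E k D a f p φ P →
    IsPres E k D a f p φ' P' → X.Ord1 f p →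
      (∀ m, Van (nm P.g) m (φ p) ↔ Van (nm P'.g) m (φ' p)) ∧
        ∀ m, 0 < m → Van (nm P.g) m (φ p) → (P.L D a m ∘ φ) =Θ[𝓝 p] (P'.L D a m ∘ φ')

/-- local equations: uniqueness and cancellation -/
def StEqn : Prop := ∀ (n : ℕ) (X : Mf n) (Y : Set X.M) (b : X.M) (e : X.M → ℂ), X.Eqn Y b e →
  (∀ e', X.Eqn Y b e' → e =Θ[𝓝 b] e') ∧
  (∀ᶠ z in 𝓝 b, ∃ e', X.Eqn Y z e' ∧ e =Θ[𝓝 z] e') ∧
  (∀ γ ∈ X.Γ, X.Inv Y → ∀ p ∈ γ.source, γ p = b → X.Eqn Y p (e ∘ γ)) ∧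
  (∀ f g : X.M → ℝ, (∀ᶠ z in 𝓝 b, ContinuousAt f z) → (∀ᶠ z in 𝓝 b, ContinuousAt g z) →
    ((fun z => ‖e z‖ * f z) =O[𝓝 b] fun z => ‖e z‖ * g z) → f =O[𝓝 b] g) ∧
  (X.Ord1 (fun z => ‖e z‖) b ↔ b ∈ Y)

/-- a presentation adapted to the centre -/
def StAdapt : Prop := ∀ (n k D c : ℕ) (X : Mf n) (E : Dv X) (a : ℕ → ℕ) (f : X.M → ℝ) (p : X.M)
  (φ : X.M → W n) (P : Pres n k (φ p)) (C : Set X.M) (J : Finset ℕ), 0 < D →
    IsPres E k D a f p φ P →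
    p ∈ C → (∀ᶠ z in 𝓝 p, z ∈ C → pr k (φ z) = φ z) → C ⊆ E.cap J → Snc E c J C p →
      ∃ (φ₁ : X.M → W n) (P₁ : Pres n k (φ₁ p)) (A : Finset (Fin n)), IsPres E k D a f p φ₁ P₁ ∧
        (nm P₁.g ∘ φ₁) =ᶠ[𝓝 p] (nm P.g ∘ φ) ∧ (∀ᶠ z in 𝓝 p, z ∈ C ↔ φ₁ z ∈ Zs A) ∧
          Fit k P₁.nu J A (φ₁ p)

/-- the divisors after the blow-up: existence, and description in charts -/
def StTrE : Prop := ∀ (n : ℕ) (X X' : Mf n) (π : X'.M → X.M) (C : Set X.M) (E : Dv X),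
  IsBl π C → IsClosed C →
    (X.Inv C → ∃ E', TrE π C E E') ∧
    ∀ E' : Dv X', TrE π C E E' → ∀ (b : X'.M) (φ : X.M → W n) (nu : Fin n → Option ℕ),
      Adapt E (π b) φ nu →
        (π b ∉ C → Adapt E' b (φ ∘ π) nu) ∧
        ∀ (A : Finset (Fin n)) (i : Fin n) (φ' : X'.M → W n), π b ∈ C → Inj nu →
          (∀ l j, nu l = some j → φ (π b) l = 0) → (∀ᶠ z in 𝓝 (π b), z ∈ C ↔ φ z ∈ Zs A) →
            i ∈ A → X'.Co b φ' → φ ∘ π =ᶠ[𝓝 b] σ A i ∘ φ' →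
              Adapt E' b φ' (update nu i (some E.r)) ∧ (∀ l, nu l ≠ some E.r) ∧
                φ' b i = 0 ∧ X'.Eqn (π ⁻¹' C) b fun z => φ' z i

/-- the new exponent is not negative -/
def StGen : Prop := ∀ (n k D m : ℕ) (X : Mf n) (E : Dv X) (O : Obj X) (a : ℕ → ℕ) (C : Set X.M)
  (J : Finset ℕ), 0 < D → Lev E k D O → Adm E O C J → Bd E k D a O m → D ≤ ∑ j ∈ J, a j + m

/-- the transform of a presentation: above a point of the support either the size function is as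
large as the equation of the exceptional divisor, or it has a presentation -/
def StUp : Prop := ∀ (n k D m : ℕ) (X X' : Mf n) (π : X'.M → X.M) (C : Set X.M) (E : Dv X)
  (E' : Dv X') (O : Obj X) (J : Finset ℕ) (a : ℕ → ℕ) (b : X'.M) (φ : X.M → W n)
  (P : Pres n k (φ (π b))), 0 < D → Lev E k D O → Adm E O C J → IsBl π C → TrE π C E E' → π b ∈ O.S →
      IsPres E k D a (O.N (π b)) (π b) φ P → D ≤ ∑ j ∈ J, a j + m →
        (π b ∈ C → ∀ᶠ z in 𝓝 (π b), z ∈ C → Van (nm P.g) m (φ z)) →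
          ∃ (e : X'.M → ℂ) (h : X'.M → ℝ), X'.Eqn (π ⁻¹' C) b e ∧
            (∀ᶠ z in 𝓝 b, ContinuousAt h z) ∧
            (fun z => ‖e z‖ * h z) =Θ[𝓝 b] (O.N (π b) ∘ π) ∧
            ((∀ᶠ z in 𝓝 b, ¬ X'.Ord1 h z) ∨ ∃ φ' P', IsPres E' k D (nxt a E.r J m D) h b φ' P' ∧
              ((fun z => ‖e z‖ ^ m * nm P'.g (φ' z)) =Θ[𝓝 b] fun z => nm P.g (φ (π z))) ∧
              (Van (nm P'.g) (m + 1) (φ' b) → Van (nm P.g) (m + 1) (φ (π b))))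

/-- existence and uniqueness of the transform -/
def StTr : Prop := ∀ (n k D : ℕ) (X X' : Mf n) (π : X'.M → X.M) (C : Set X.M) (E : Dv X)
  (E' : Dv X') (O : Obj X) (J : Finset ℕ), 0 < D → Lev E k D O → Adm E O C J → IsBl π C →
    TrE π C E E' → ∃ O', Tr π C O O' ∧ Lev E' k D O'

/-- uniqueness of the transform -/
def StTrU : Prop := ∀ (n : ℕ) (X X' : Mf n) (π : X'.M → X.M) (C : Set X.M) (O : Obj X)
  (O' : Obj X') (b : X'.M) (e : X'.M → ℂ) (h : X'.M → ℝ), Tr π C O O' → π b ∈ O.S →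
    X'.Eqn (π ⁻¹' C) b e → (∀ᶠ z in 𝓝 b, ContinuousAt h z) →
      (fun z => ‖e z‖ * h z) =Θ[𝓝 b] (O.N (π b) ∘ π) → O'.N b =Θ[𝓝 b] h

/-- Giraud's lemma in arbitrary charts -/
def StGirM : Prop := ∀ (n c : ℕ) (X X' : Mf n) (π : X'.M → X.M) (C : Set X.M) (E : Dv X)
  (J : Finset ℕ) (b : X'.M) (φ : X.M → W n) (φ' : X'.M → W n) (e : X'.M → ℂ)
  (L T L' T' : W n → ℝ), IsBl π C → (π b ∈ C → Snc E c J C (π b)) → X.Co (π b) φ → X'.Co b φ' →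
    X'.Eqn (π ⁻¹' C) b e → DomD L T (φ (π b)) →
      ((fun z => ‖e z‖ * L' (φ' z)) =O[𝓝 b] fun z => L (φ (π z))) →
      ((fun z => T (φ (π z))) =O[𝓝 b] fun z => ‖e z‖ * T' (φ' z)) →
        (∀ᶠ z in 𝓝 (φ' b), ContinuousAt L' z) → DomD L' T' (φ' b)

/-- the bound for the order survives if the order is maximal along the centre -/
def StBdTr : Prop := ∀ (n k D m : ℕ) (X X' : Mf n) (π : X'.M → X.M) (C : Set X.M) (E : Dv X)
  (E' : Dv X') (O : Obj X) (O' : Obj X') (J : Finset ℕ) (a : ℕ → ℕ), 0 < D → Lev E k D O →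
    Adm E O C J → IsBl π C → TrE π C E E' → Tr π C O O' → Bd E k D a O m →
      (∀ p ∈ C, ∃ φ P, IsPres E k D a (O.N p) p φ P ∧ Van (nm P.g) m (φ p)) →
        Bd E' k D (nxt a E.r J m D) O' m

/-- the companion exists -/
def StComp : Prop := ∀ (n k D m : ℕ) (X : Mf n) (E : Dv X) (O : Obj X) (a : ℕ → ℕ), 0 < D →
  0 < m → Lev E k D O → Bd E k D a O m →
    ∃ Oc, Comp E k D m a O Oc ∧ Lev (E.mask E.r) (k + 1) (D + m).factorial Oc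

/-- the companion relation survives -/
def StCompTr : Prop := ∀ (n k D m : ℕ) (X X' : Mf n) (π : X'.M → X.M) (C : Set X.M) (E : Dv X)
  (E' : Dv X') (O Oc : Obj X) (O' Oc' : Obj X') (J : Finset ℕ) (a : ℕ → ℕ), 0 < D → 0 < m →
    Lev E k D O → Comp E k D m a O Oc → Adm E O C J → C ⊆ Oc.S → IsBl π C → TrE π C E E' →
      Tr π C O O' → Tr π C Oc Oc' → Comp E' k D m (nxt a E.r J m D) O' Oc'

/-- the boundary object exists -/
def StBdy : Prop := ∀ (n k D k₁ D₁ r₀ : ℕ) (X : Mf n) (E : Dv X) (O Oc : Obj X) (J : Finset ℕ),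
  0 < D₁ → Lev E k D O → Oc.S ⊆ O.S → Lev (E.mask r₀) k₁ D₁ Oc →
    ∃ Ob, Bdy E J Oc Ob ∧ Lev (E.mask r₀) k₁ D₁ Ob

/-- the boundary relation survives -/
def StBdyTr : Prop := ∀ (n k D : ℕ) (X X' : Mf n) (π : X'.M → X.M) (C : Set X.M) (E : Dv X)
  (E' : Dv X') (O Oc Ob : Obj X) (Oc' Ob' : Obj X') (J J₁ : Finset ℕ), 0 < D → Lev E k D O →
    Oc.S ⊆ O.S → Bdy E J Oc Ob → Adm E O C J₁ → J ⊆ J₁ → IsBl π C → TrE π C E E' →
      Tr π C Oc Oc' → Tr π C Ob Ob' → Bdy E' J Oc' Ob'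

/-- the monomial case -/
def StMono : Prop := ∀ n k : ℕ, ResBd n k 0

/-- the order is bounded -/
def StNZ : Prop := ∀ (n k D : ℕ) (X : Mf n) (E : Dv X) (O : Obj X), 0 < D → Lev E k D O →
  NZ E k D O → ∃ m, Bd E k D 0 O m

/-- the locus where the family is zero -/
def StZero : Prop := ∀ n k : ℕ, 0 < k → ResNZ n k → Res n k

/-- the main step -/
def StStep : Prop := ∀ n k m : ℕ, Res n (k + 1) → ResBd n k m → ResBd n k (m + 1)

/-- the theorem -/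
def StMain : Prop := ∀ n k : ℕ, ResNZ n k

end Vale.Agent.P287Q.H1
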