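import Vale.Agent.P287Q.H1.Bas
import Vale.Agent.P287Q.H1.St

/-!
# The boundary object: existence and transform
-/

open Filter Topology Set Function Asymptotics

noncomputable section

namespace Vale.Agent.P287Q.H1

open Mf

namespace Bd0

variable {n : ℕ} {X : Mf n} {p : X.M} {φ : X.M → W n} {Y : Set X.M} {e : X.M → ℂ}

theorem inv_ev (hY : X.Inv Y) {γ : OpenPartialHomeomorph X.M X.M} (hγ : γ ∈ X.Γ)
    (hp : p ∈ γ.source) : ∀ᶠ z in 𝓝 p, γ z ∈ Y ↔ z ∈ Y := by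
  filter_upwards [γ.open_source.mem_nhds hp] with z hz
  refine ⟨fun h => ?_, hY γ hγ z hz⟩
  have h1 := hY γ.symm (X.symm γ hγ) (γ z) (γ.map_source hz) h
  rwa [γ.left_inv hz] at h1

theorem eqn_gam (hY : X.Inv Y) {γ : OpenPartialHomeomorph X.M X.M} (hγ : γ ∈ X.Γ)
    (hp : p ∈ γ.source) (h : X.Eqn Y (γ p) e) : X.Eqn Y p (e ∘ γ) := by
  have ht : Tendsto γ (𝓝 p) (𝓝 (γ p)) := γ.continuousAt hp
  rcases h with ⟨rfl, h⟩ | ⟨φ, i, h1, rfl, h⟩
  · refine .inl ⟨rfl, ?_⟩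
    filter_upwards [ht.eventually h, inv_ev hY hγ hp] with z a b c using a (b.2 c)
  · refine .inr ⟨φ ∘ γ, i, X.hol γ hγ p hp φ h1, rfl, ?_⟩
    filter_upwards [ht.eventually h, inv_ev hY hγ hp] with z a b using b.symm.trans a

theorem eqn_ord1 (h : X.Eqn Y p e) : X.Ord1 (fun z => ‖e z‖) p ↔ p ∈ Y := by
  refine ⟨fun k => h.zero.self_of_nhds.2 (norm_eq_zero.1 k.eq_zero), fun hp => ?_⟩
  have h0 := h.zero.self_of_nhds.1 hp
  rcases h with ⟨rfl, h⟩ | ⟨φ, i, h1, rfl, h⟩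
  · exact (one_ne_zero h0).elim
  · refine ⟨φ, h1, isBigO_of_le' (Eventually.of_forall fun _ => norm_nonneg _)
      (Eventually.of_forall fun z => ?_)⟩
    have h2 := norm_le_pi_norm (φ z - φ p) i
    rwa [Pi.sub_apply, show φ p i = 0 from h0, sub_zero] at h2

theorem eqn_an (h : X.Eqn Y p e) (hφ : X.Co p φ) :
    ∃ u : W n → ℂ, AnalyticAt ℂ u (φ p) ∧ ∀ᶠ z in 𝓝 p, e z = u (φ z) := by
  rcases h with ⟨rfl, -⟩ | ⟨φ', i, h1, rfl, -⟩
  · exact ⟨fun _ => 1, analyticAt_const, Eventually.of_forall fun _ => rfl⟩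
  · obtain ⟨θ, h2, h3⟩ := X.tr p φ φ' hφ h1
    exact ⟨fun w => θ w i, (an_crd i _).comp h2.1, h3.mono fun z hz => congrFun hz i⟩

theorem eqn_one (h : X.Eqn Y p e) (hp : p ∉ Y) : (fun z => ‖e z‖) =Θ[𝓝 p] fun _ => (1 : ℝ) := by
  have h0 : e p ≠ 0 := fun k => hp (h.zero.self_of_nhds.2 k)
  have h1 : e =Θ[𝓝 p] fun _ => (1 : ℂ) :=
    ⟨isBigO_of_ne continuousAt_const h.cont.self_of_nhds one_ne_zero,
      isBigO_of_ne h.cont.self_of_nhds continuousAt_const h0⟩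
  simpa using (isTheta_norm_left.2 (isTheta_norm_right.2 h1))

section sum

variable {α ι : Type*} {l : Filter α} {J : Finset ι} {f f' h : α → ℝ} {u u' : ι → α → ℂ}

theorem sum_isBigO_iff : (fun z => |f z| + ∑ j ∈ J, ‖u j z‖) =O[l] h ↔
    f =O[l] h ∧ ∀ j ∈ J, (fun z => ‖u j z‖) =O[l] h := by
  have h1 : ∀ z, 0 ≤ ∑ j ∈ J, ‖u j z‖ := fun z => Finset.sum_nonneg fun _ _ => norm_nonneg _
  rw [add_isBigO_iff (Eventually.of_forall fun _ => abs_nonneg _) (Eventually.of_forall h1),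
    isBigO_abs_left]
  refine and_congr_right' ⟨fun k j hj => IsBigO.trans (isBigO_of_le' (Eventually.of_forall
    fun _ => norm_nonneg _) (Eventually.of_forall fun z => Finset.single_le_sum
      (f := fun j => ‖u j z‖) (fun _ _ => norm_nonneg _) hj)) k, fun k => ?_⟩
  exact (IsBigO.sum k).congr_left fun z => by simp only [Finset.sum_apply]

theorem sum_isBigO (a : f =O[l] f') (b : ∀ j ∈ J, u j =O[l] u' j) :
    (fun z => |f z| + ∑ j ∈ J, ‖u j z‖) =O[l] fun z => |f' z| + ∑ j ∈ J, ‖u' j z‖ := by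
  obtain ⟨c, d⟩ := sum_isBigO_iff.1 (isBigO_refl (fun z => |f' z| + ∑ j ∈ J, ‖u' j z‖) l)
  exact sum_isBigO_iff.2 ⟨a.trans c, fun j hj => (b j hj).norm_norm.trans (d j hj)⟩

theorem sum_isTheta (a : f =Θ[l] f') (b : ∀ j ∈ J, u j =Θ[l] u' j) :
    (fun z => |f z| + ∑ j ∈ J, ‖u j z‖) =Θ[l] fun z => |f' z| + ∑ j ∈ J, ‖u' j z‖ :=
  ⟨sum_isBigO a.1 fun j hj => (b j hj).1, sum_isBigO a.2 fun j hj => (b j hj).2⟩

end sum

theorem ord1_sum {J : Finset ℕ} {f : X.M → ℝ} {E : ℕ → Set X.M} {ε : ℕ → X.M → ℂ}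
    (h : ∀ j ∈ J, X.Eqn (E j) p (ε j)) :
    X.Ord1 (fun z => |f z| + ∑ j ∈ J, ‖ε j z‖) p ↔ X.Ord1 f p ∧ ∀ j ∈ J, p ∈ E j := by
  obtain ⟨φ, hφ⟩ := X.exi p
  rw [ord1_iff hφ, ord1_iff hφ, sum_isBigO_iff]
  exact and_congr_right' (forall₂_congr fun j hj => (ord1_iff hφ).symm.trans (eqn_ord1 (h j hj)))

/-- more functions in a presentation -/
theorem pres_add {k D : ℕ} (hD : D ≠ 0) {q : W n} (P : Pres n k q) (hq : pr k q = q)
    (J : Finset ℕ) (u : ℕ → W n → ℂ) (hu : ∀ j ∈ J, AnalyticAt ℂ (u j) q) :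
    ∃ P' : Pres n k q, P'.nu = P.nu ∧
      (fun z => |P.f D 0 z| + ∑ j ∈ J, ‖u j z‖) =Θ[𝓝 q] P'.f D 0 := by
  let g' : P.κ ⊕ J → W n → ℂ := Sum.elim P.g fun j z => u j (pr k z) ^ D
  have h1 : ∀ i, AnalyticAt ℂ (g' i) q := by
    rintro (i | j)
    · exact P.an i
    · exact (AnalyticAt.comp (f := pr k) (by rw [hq]; exact hu j j.2) (pr_an k q)).pow D
  have h2 : ∀ i, Ind k (g' i) := by
    rintro (i | j) z
    · exact P.ind i z
    · simp only [g', Sum.elim_inr, pr_idem]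
  refine ⟨⟨P.nu, P.κ ⊕ J, g', P.le, P.free, P.inj, h1, h2⟩, rfl, ?_⟩
  have e1 : ∀ z, nm g' z = nm P.g z + ∑ j : J, ‖u j (pr k z)‖ ^ D := fun z => by
    simp only [nm, Fintype.sum_sum_type, g', Sum.elim_inl, Sum.elim_inr, norm_pow]
  have e2 : ∀ z, 0 ≤ ∑ j : J, ‖u j (pr k z)‖ ^ D := fun z =>
    Finset.sum_nonneg fun _ _ => by positivity
  have l1 : ∀ j ∈ J, (fun z => u j z - u j (pr k z)) =O[𝓝 q] fun z => ‖z - pr k z‖ := fun j hj =>
    ((hu j hj).hasStrictFDerivAt.isBigO_sub.comp_tendsto (k := fun z => (z, pr k z))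
      (tendsto_id.prodMk_nhds (tendsto_pr hq))).norm_right
  show (fun z => |pf k D (ex 0 P.nu) P.g z| + ∑ j ∈ J, ‖u j z‖) =Θ[𝓝 q] pf k D (ex 0 P.nu) g'
  unfold pf
  simp only [ex_zero, mon_zero, norm_one, one_mul]
  have n1 : ∀ᶠ z in 𝓝 q, 0 ≤ ‖z - pr k z‖ := Eventually.of_forall fun _ => norm_nonneg _
  have n2 : ∀ᶠ z in 𝓝 q, 0 ≤ rt D (nm g' z) :=
    Eventually.of_forall fun _ => rt_nonneg D (nm_nonneg _ _)
  have n3 : ∀ᶠ z in 𝓝 q, 0 ≤ rt D (nm P.g z) :=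
    Eventually.of_forall fun _ => rt_nonneg D (nm_nonneg _ _)
  constructor
  · have a1 := isBigO_add_left n1 n2
    have a2 := isBigO_add_right n1 n2
    refine sum_isBigO_iff.2 ⟨a1.add (IsBigO.trans (isBigO_of_le' n3 (Eventually.of_forall fun z =>
      rt_mono D (nm_nonneg _ _) ?_)) a2), fun j hj => ?_⟩
    · rw [e1]; exact le_add_of_nonneg_right (e2 z)
    · have a3 : (fun z => u j (pr k z)) =O[𝓝 q] fun z => rt D (nm g' z) :=
        IsBigO.of_norm_left (isBigO_of_le' (Eventually.of_forall fun _ => norm_nonneg _)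
          (Eventually.of_forall fun z => (le_rt_iff hD (nm_nonneg _ _) (norm_nonneg _)).2 (by
            simpa only [g', Sum.elim_inr, norm_pow] using le_nm g' (.inr ⟨j, hj⟩) z)))
      exact ((((l1 j hj).trans a1).add (a3.trans a2)).congr_left fun z =>
        sub_add_cancel _ _).norm_left
  · obtain ⟨c, d⟩ := sum_isBigO_iff.1
      (isBigO_refl (fun z => |‖z - pr k z‖ + rt D (nm P.g z)| + ∑ j ∈ J, ‖u j z‖) (𝓝 q))
    have a1 := (isBigO_add_left n1 n3).trans c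
    have a2 := (isBigO_add_right n1 n3).trans c
    refine a1.add (IsBigO.trans (isBigO_of_le' (g := fun z => rt D (nm P.g z) +
      ∑ j : J, ‖u j (pr k z)‖) n2 (Eventually.of_forall fun z => ?_)) (a2.add ?_))
    · rw [e1]
      refine (rt_add_le hD (nm_nonneg _ _) (e2 z)).trans (add_le_add_right ?_ _)
      refine (rt_sum_le hD _ fun _ _ => by positivity).trans (le_of_eq ?_)
      exact Finset.sum_congr rfl fun j _ => pow_rt hD (norm_nonneg _)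
    · refine (IsBigO.sum (s := Finset.univ) (A := fun (j : J) z => ‖u j (pr k z)‖)
        fun j _ => ?_).congr_left fun z => by simp only [Finset.sum_apply]
      exact (((d j j.2).of_norm_left.sub ((l1 j j.2).trans a1)).congr_left fun z =>
        sub_sub_cancel _ _).norm_left

theorem exists_eqn {E : Dv X} {nu : Fin n → Option ℕ} (h : Adapt E p φ nu) (hi : Inj nu) {j : ℕ}
    {l : Fin n} (hl : nu l = some j) : X.Eqn (E.E j) p fun z => φ z l :=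
  .inr ⟨φ, l, h.1, rfl, h.2.mono fun _ hz => (hz j).trans (mem_hyp hi hl)⟩

theorem isClosed_cap (E : Dv X) (J : Finset ℕ) : IsClosed (E.cap J) := by
  simp only [Dv.cap, ofPred_forall]
  exact isClosed_iInter fun j => isClosed_iInter fun _ => E.closed j

theorem lev_pr {E : Dv X} {k D : ℕ} {O : Obj X} (hD : D ≠ 0) (h : Lev E k D O) (hp : p ∈ O.S)
    {a : ℕ → ℕ} {P : Pres n k (φ p)} (hP : IsPres E k D a (O.N p) p φ P) :
    ∀ᶠ z in 𝓝 p, z ∈ O.S → pr k (φ z) = φ z := by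
  filter_upwards [h.supp p hp, hP.ord1 hD] with z a b c using (b.1 (a.1 c)).1

end Bd0

open Bd0

theorem stBdy : StBdy := by
  intro n k D k₁ D₁ r₀ X E O Oc J hD hO hs hc
  have h1 : ∀ (p : X.M) (j : ℕ), ∃ e : X.M → ℂ, p ∈ O.S → p ∈ E.E j → X.Eqn (E.E j) p e := by
    intro p j
    by_cases h : p ∈ O.S ∧ p ∈ E.E j
    · obtain ⟨φ, P, hP⟩ := hO.pres p h.1
      obtain ⟨l, hl, -⟩ := (hP.1.2.self_of_nhds j).1 h.2
      exact ⟨_, fun _ _ => exists_eqn hP.1 P.inj hl⟩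
    · exact ⟨1, fun a b => (h ⟨a, b⟩).elim⟩
  choose ε hε using h1
  have h2 : ∀ p ∈ Oc.S ∩ E.cap J, ∀ j ∈ J, X.Eqn (E.E j) p (ε p j) := fun p hp j hj =>
    hε p j (hs hp.1) (hp.2 j hj)
  have h3 : ∀ p ∈ Oc.S ∩ E.cap J, ∀ᶠ b in 𝓝 p, ∀ j ∈ J, X.Eqn (E.E j) b (ε p j) := fun p hp =>
    (J.eventually_all).2 fun j hj => (h2 p hp j hj).ev
  refine ⟨⟨Oc.S ∩ E.cap J, fun p z => |Oc.N p z| + ∑ j ∈ J, ‖ε p j z‖⟩,
    ⟨rfl, fun p hp => ⟨ε p, h2 p hp, isTheta_refl _ _⟩⟩, hc.closed.inter (isClosed_cap E J),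
    inter_subset_left.trans hc.reg, fun p hp => ?_, fun p hp => ?_, fun p hp => ?_, ?_, ?_⟩
  · filter_upwards [hc.supp p hp.1, h3 p hp] with b a c
    exact (and_congr_left' a).trans (ord1_sum c).symm
  · filter_upwards [hc.cmp p hp.1, h3 p hp] with b a c hb
    exact sum_isTheta (a hb.1) fun j hj => (h2 b hb j hj).isTheta (c j hj)
  · obtain ⟨φ, P, hP⟩ := hc.pres p hp.1
    have h4 : ∀ j, ∃ u : W n → ℂ, j ∈ J → AnalyticAt ℂ u (φ p) ∧ ∀ᶠ z in 𝓝 p, ε p j z = u (φ z) := by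
      intro j
      by_cases hj : j ∈ J
      · exact (eqn_an (h2 p hp j hj) hP.1.1).imp fun _ h _ => h
      · exact ⟨0, fun h => (hj h).elim⟩
    choose u hu using h4
    obtain ⟨P', e1, e2⟩ := pres_add hD.ne' P ((lev_pr hD.ne' hc hp.1 hP).self_of_nhds hp.1) J u
      fun j hj => (hu j hj).1
    refine ⟨φ, P', e1 ▸ hP.1, IsTheta.trans ?_ ((co_isTheta hP.1.1).2 e2)⟩
    exact sum_isTheta hP.2 fun j hj => EventuallyEq.isTheta (hu j hj).2
  · exact fun γ hγ p hp h => ⟨hc.inv γ hγ p hp h.1, fun j hj => E.inv γ hγ p hp j (h.2 j hj)⟩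
  · intro γ hγ p hp h
    have h' : γ p ∈ Oc.S ∩ E.cap J :=
      ⟨hc.inv γ hγ p hp h.1, fun j hj => E.inv γ hγ p hp j (h.2 j hj)⟩
    exact sum_isTheta (u := fun j => ε (γ p) j ∘ γ) (hc.invN γ hγ p hp h.1) fun j hj =>
      (eqn_gam (fun γ hγ p hp => E.inv γ hγ p hp j) hγ hp (h2 _ h' j hj)).isTheta (h2 p h j hj)

/-- the equation of a divisor which contains the centre, after the blow-up -/
theorem Bd0.eqn_up (hA : StAdapt) (hE : StTrE) {n k D : ℕ} {X X' : Mf n} {π : X'.M → X.M}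
    {C : Set X.M} {E : Dv X} {E' : Dv X'} {O : Obj X} {J : Finset ℕ} (hD : 0 < D)
    (hO : Lev E k D O) (hC : Adm E O C J) (hπ : IsBl π C) (hT : TrE π C E E') {b : X'.M}
    (hb : π b ∈ O.S) {e : X'.M → ℂ} (he : X'.Eqn (π ⁻¹' C) b e) {j : ℕ} (hj : j ∈ J)
    (hbj : π b ∈ E.E j) {ε : X.M → ℂ} (hε : X.Eqn (E.E j) (π b) ε) :
    ∃ ε' : X'.M → ℂ, X'.Eqn (E'.E j) b ε' ∧ (fun z => e z * ε' z) =Θ[𝓝 b] (ε ∘ π) := by
  have ht : Tendsto π (𝓝 b) (𝓝 (π b)) := hπ.cont.continuousAt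
  have hr : j ≠ E.r := by
    rintro rfl
    rw [E.emp _ le_rfl] at hbj
    exact hbj
  obtain ⟨φ, P, hP⟩ := hO.pres _ hb
  by_cases h : π b ∈ C
  · obtain ⟨c, -, hs⟩ := hC.snc
    obtain ⟨φ₁, P₁, A, h1, -, h2, h3⟩ := hA n k D c X E 0 _ _ φ P C J hD hP h
      ((lev_pr hD.ne' hO hb hP).mono fun z a b => a (hC.sub b)) hC.lab (hs _ h)
    obtain ⟨i, hi, φ', h4, h5⟩ := hπ.ovr b h φ₁ A h1.1.1 h2
    obtain ⟨h6, -, -, h7⟩ := ((hE n X X' π C E hπ hC.closed).2 E' hT b φ₁ P₁.nu h1.1).2 A i φ' h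
      P₁.inj h3.zero h2 hi h4 h5
    obtain ⟨l, hl⟩ := h3.sur j hj
    have hlA : l ∈ A := (h3.mem l j hl).2 hj
    have h8 : (ε ∘ π) =Θ[𝓝 b] fun z => σ A i (φ' z) l := by
      have h9 := hε.isTheta (exists_eqn h1.1 P₁.inj hl)
      exact IsTheta.trans ⟨h9.1.comp_tendsto ht, h9.2.comp_tendsto ht⟩
        (EventuallyEq.isTheta (h5.mono fun z hz => congrFun hz l))
    have h10 : ∀ l', update P₁.nu i (some E.r) l' = some j → l' ≠ i ∧ l' = l := by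
      intro l' h'
      have h11 : l' ≠ i := by
        rintro rfl
        rw [update_self] at h'
        exact hr (Option.some.inj h').symm
      rw [update_of_ne h11] at h'
      exact ⟨h11, P₁.inj l' l j h' hl⟩
    by_cases hli : l = i
    · refine ⟨1, .inl ⟨rfl, h6.2.mono fun z hz k => ?_⟩, ?_⟩
      · obtain ⟨l', a, -⟩ := (hz j).1 k
        exact (h10 l' a).1 ((h10 l' a).2.trans hli)
      · refine IsTheta.trans ?_ h8.symm
        simpa only [Pi.one_apply, mul_one, σ, hli, ne_eq, not_true, and_false, if_false] using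
          he.isTheta h7
    · refine ⟨fun z => φ' z l, .inr ⟨φ', l, h4, rfl, h6.2.mono fun z hz => (hz j).trans
        ⟨fun ⟨l', a, c⟩ => (h10 l' a).2 ▸ c, fun c => ⟨l, by rw [update_of_ne hli, hl], c⟩⟩⟩, ?_⟩
      refine IsTheta.trans ?_ h8.symm
      simpa only [σ, hlA, ne_eq, hli, not_false_eq_true, and_self, if_true] using
        (he.isTheta h7).mul (isTheta_refl (fun z => φ' z l) (𝓝 b))
  · have h1 := ((hE n X X' π C E hπ hC.closed).2 E' hT b φ P.nu hP.1).1 h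
    obtain ⟨l, hl, -⟩ := (hP.1.2.self_of_nhds j).1 hbj
    refine ⟨_, exists_eqn h1 P.inj hl, ?_⟩
    have h9 := (exists_eqn hP.1 P.inj hl).isTheta hε
    refine IsTheta.trans ?_ ⟨h9.1.comp_tendsto ht, h9.2.comp_tendsto ht⟩
    have h2 : e =Θ[𝓝 b] (1 : X'.M → ℂ) := he.isTheta (.inl ⟨rfl,
      (hC.closed.preimage hπ.cont).isOpen_compl.mem_nhds h⟩)
    exact (h2.mul (isTheta_refl (fun z => φ (π z) l) (𝓝 b))).trans
      (EventuallyEq.isTheta (Eventually.of_forall fun z => one_mul _))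

theorem stBdyTr (hA : StAdapt) (hE : StTrE) : StBdyTr := by
  intro n k D X X' π C E E' O Oc Ob Oc' Ob' J J₁ hD hO hs hB hC hJ hπ hT hc hb
  have key : ∀ b, π b ∈ Ob.S → ∃ ε : ℕ → X'.M → ℂ, (∀ j ∈ J, X'.Eqn (E'.E j) b (ε j)) ∧
      Ob'.N b =Θ[𝓝 b] fun z => |Oc'.N b z| + ∑ j ∈ J, ‖ε j z‖ := by
    intro b h
    have ht : Tendsto π (𝓝 b) (𝓝 (π b)) := hπ.cont.continuousAt
    have h' : π b ∈ Oc.S ∩ E.cap J := hB.1 ▸ h
    obtain ⟨ε, h1, h2⟩ := hB.2 _ h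
    obtain ⟨e, f, a1, a2, a3, a4⟩ := hc.eq b h'.1
    obtain ⟨e₁, f₁, b1, b2, b3, b4⟩ := hb.eq b h
    have h3 : ∀ j, ∃ ε' : X'.M → ℂ, j ∈ J → X'.Eqn (E'.E j) b ε' ∧
        (fun z => e z * ε' z) =Θ[𝓝 b] (ε j ∘ π) := by
      intro j
      by_cases hj : j ∈ J
      · exact (eqn_up hA hE hD hO hC hπ hT (hs h'.1) a1 (hJ hj) (h'.2 j hj) (h1 j hj)).imp
          fun _ h _ => h
      · exact ⟨0, fun h => (hj h).elim⟩
    choose ε' hε' using h3
    refine ⟨ε', fun j hj => (hε' j hj).1, b3.trans (IsTheta.trans ?_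
      (sum_isTheta a3.symm fun j _ => isTheta_refl _ _))⟩
    have h4 : (fun z => ‖e z‖ * f₁ z) =Θ[𝓝 b] fun z => ‖e z‖ * (|f z| + ∑ j ∈ J, ‖ε' j z‖) := by
      have h5 := a1.isTheta b1
      refine (IsTheta.mul ⟨h5.1.norm_norm, h5.2.norm_norm⟩ (isTheta_refl f₁ _)).trans (b4.trans
        (IsTheta.trans ⟨h2.1.comp_tendsto ht, h2.2.comp_tendsto ht⟩ ?_))
      refine (sum_isTheta (u := fun j => ε j ∘ π) a4.symm fun j hj => (hε' j hj).2.symm).trans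
        (EventuallyEq.isTheta (Eventually.of_forall fun z => ?_))
      simp only [abs_mul, abs_norm, norm_mul, mul_add, Finset.mul_sum]
    have h6 : ∀ᶠ z in 𝓝 b, ContinuousAt (fun z => |f z| + ∑ j ∈ J, ‖ε' j z‖) z := by
      filter_upwards [a2, J.eventually_all.2 fun j hj => (hε' j hj).1.cont] with z c d
      exact c.abs.add (tendsto_finsetSum _ fun j hj => (d j hj).norm)
    exact ⟨a1.cancel b2 h6 h4.1, a1.cancel h6 b2 h4.2⟩
  refine ⟨Set.ext fun b => ⟨fun h => ?_, fun h => ?_⟩, fun b h => key b ((hb.supp b).1 h).1⟩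
  · obtain ⟨h1, h2⟩ := (hb.supp b).1 h
    obtain ⟨ε, h3, h4⟩ := key b h1
    have h5 := (ord1_sum h3).1 ((ord1_congr h4).1 h2)
    exact ⟨(hc.supp b).2 ⟨(hB.1 ▸ h1 : π b ∈ Oc.S ∩ E.cap J).1, h5.1⟩, h5.2⟩
  · obtain ⟨h1, h2⟩ := (hc.supp b).1 h.1
    have h3 : π b ∈ Ob.S := by
      rw [hB.1]
      refine ⟨h1, fun j hj => ?_⟩
      obtain ⟨p, hp⟩ := hC.ne
      have hr : j ≠ E.r := by
        rintro rfl
        have h4 := hC.lab hp _ (hJ hj)
        rw [E.emp _ le_rfl] at h4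
        exact h4
      have h4 := h.2 j hj
      rw [hT.old j hr] at h4
      exact closure_minimal (preimage_mono sdiff_subset) ((E.closed j).preimage hπ.cont) h4
    obtain ⟨ε, h4, h5⟩ := key b h3
    exact (hb.supp b).2 ⟨h3, (ord1_congr h5).2 ((ord1_sum h4).2 ⟨h2, h.2⟩)⟩

end Vale.Agent.P287Q.H1
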