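import Vale.Agent.P287Q.H1.KeyM

/-!
# Principalization: the companion relation survives the blow-up
-/

open Filter Topology Set Function Asymptotics

noncomputable section

namespace Vale.Agent.P287Q.H1

open Mf KeyS KeyM

namespace CompTr

variable {n k D : ℕ}

theorem T_cont {q : W n} (P : Pres n k q) (a : ℕ → ℕ) (m : ℕ) :
    ∀ᶠ z in 𝓝 q, ContinuousAt (P.T D a m) z := by
  filter_upwards [eventually_all.2 fun i => ev_cont (P.an i)] with z hz
  exact (pf_cont k D _ hz).add ((continuous_rt m).continuousAt.comp (nm_cont hz))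

theorem co_cont {X : Mf n} {p : X.M} {φ : X.M → W n} (h : X.Co p φ) {F : W n → ℝ}
    (hF : ∀ᶠ z in 𝓝 (φ p), ContinuousAt F z) : ∀ᶠ z in 𝓝 p, ContinuousAt (fun z => F (φ z)) z := by
  filter_upwards [X.ev _ _ h, (co_ev h).2 hF] with z z1 z2
  exact ContinuousAt.comp (g := F) z2 (co_tendsto z1)

/-- the order is maximal along the support of the companion -/
theorem van_near {X : Mf n} {E : Dv X} {O Oc : Obj X} {m : ℕ} {a : ℕ → ℕ} (hD : 0 < D)
    (hO : Lev E k D O) (hC : Comp E k D m a O Oc) {p : X.M} (hp : p ∈ O.S) {φ : X.M → W n}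
    {P : Pres n k (φ p)} (h : IsPres E k D a (O.N p) p φ P) :
    ∀ᶠ z in 𝓝 p, z ∈ Oc.S → Van (nm P.g) m (φ z) := by
  filter_upwards [near hO hp h] with z z1 hz
  obtain ⟨_, z1⟩ := z1 (hC.1 hz)
  obtain ⟨ψ, Q, q1, -, q2, -⟩ := hC.2 z (hC.1 hz)
  exact van_of hD q1 z1 (ord_of hO (hC.1 hz)) (q2.1 hz)

end CompTr

open CompTr

theorem stCompTr (hGen : StGen) (hUp : StUp) (hU : StTrU) : StCompTr := by
  intro n k D m X X' π C E E' O Oc O' Oc' J a hD hm hO hC hA hs hπ hE hT hTc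
  refine ⟨fun b hb => ?_, fun b hb => ?_⟩
  · obtain ⟨hc, ho⟩ := (hTc.supp b).1 hb
    have hp := hC.1 hc
    obtain ⟨φ, P, p1, -, -, p4⟩ := hC.2 _ hp
    obtain ⟨L, l1, l2, -⟩ := p4 hc
    obtain ⟨e, h, e1, e2, e3, e4⟩ := hT.eq b hp
    obtain ⟨e₁, h₁, f1, f2, f3, f4⟩ := hTc.eq b hc
    refine (hT.supp b).2 ⟨hp, ho.of_isBigO (e3.1.trans ((e1.cancel e2 f2 ?_).trans f3.2))⟩
    have a1 : P.f D a =O[𝓝 (φ (π b))] P.T D a m :=
      isBigO_add_left (Eventually.of_forall (Key2.f_nonneg P D a))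
        (Eventually.of_forall fun z => rt_nonneg _ (nm_nonneg _ _))
    have a2 : O.N (π b) =O[𝓝 (π b)] Oc.N (π b) :=
      (p1.2.1.trans ((co_isBigO p1.1.1).2 (a1.trans l2))).trans l1.2
    exact ((e4.1.trans (a2.comp_tendsto hπ.cont.continuousAt)).trans f4.2).trans
      ((f1.isTheta e1).norm_left.norm_right.mul (isTheta_refl h₁ _)).1
  obtain ⟨hp, ho⟩ := (hT.supp b).1 hb
  obtain ⟨φ, P, p1, p2, p3, p4⟩ := hC.2 _ hp
  have hle := hGen n k D m X E O a C J hD hO hA fun p hp =>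
    let ⟨φ, P, h1, h2, _⟩ := hC.2 p hp
    ⟨φ, P, h1, h2⟩
  obtain ⟨e, h, e1, e2, e3, e4⟩ := hUp n k D m X X' π C E E' O J a b φ P hD hO hA hπ hE hp p1 hle
    fun _ => (van_near hD hO hC hp p1).mono fun z z1 hz => z1 (hs hz)
  have e5 := hU n X X' π C O O' b e h hT hp e1 e2 e3
  have ho' := (ord1_congr e5).1 ho
  obtain ⟨φ', P', u1, u2, u3⟩ := e4.resolve_left fun hh => hh.self_of_nhds ho'
  have c := p1.1.1
  have c' := u1.1.1
  have tπ : Tendsto π (𝓝 b) (𝓝 (π b)) := hπ.cont.continuousAt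
  refine ⟨φ', P', u1.congr e5, mt u3 p2, ?_⟩
  by_cases hc : π b ∈ Oc.S
  · obtain ⟨L, l1, l2, l3⟩ := p4 hc
    obtain ⟨e₁, h₁, f1, f2, f3, f4⟩ := hTc.eq b hc
    obtain ⟨ψ, g1, g2, g3, -, g4⟩ := co_inv c'
    have hL : h₁ =ᶠ[𝓝 b] fun z => (h₁ ∘ ψ) (φ' z) := g3.mono fun z hz => by
      simp only [comp, hz]
    have k1 : (fun z => ‖e z‖ * h₁ z) =Θ[𝓝 b] fun z => L (φ (π z)) :=
      (((e1.isTheta f1).norm_left.norm_right.mul (isTheta_refl h₁ _)).trans f4).trans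
        (Key0.theta_comp l1 tπ)
    have k2 : (fun z => P.T D a m (φ (π z))) =Θ[𝓝 b]
        fun z => ‖e z‖ * P'.T D (nxt a E.r J m D) m (φ' z) := by
      have nn : ∀ {f : X'.M → ℝ}, (∀ z, 0 ≤ f z) → ∀ᶠ z in 𝓝 b, 0 ≤ f z := Eventually.of_forall
      have a1 : (fun z => P.f D a (φ (π z))) =Θ[𝓝 b]
          fun z => ‖e z‖ * P'.f D (nxt a E.r J m D) (φ' z) :=
        ((Key0.theta_comp p1.2 tπ).symm.trans e3.symm).trans ((isTheta_refl _ _).mul u1.2)
      have a2 : (fun z => rt m (nm P.g (φ (π z)))) =Θ[𝓝 b]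
          fun z => ‖e z‖ * rt m (nm P'.g (φ' z)) := by
        refine (rt_isTheta m (nn fun z => nm_nonneg _ _) (nn fun z =>
          mul_nonneg (pow_nonneg (norm_nonneg _) _) (nm_nonneg _ _)) u2.symm).trans
            (EventuallyEq.isTheta (Eventually.of_forall fun z => ?_))
        exact (rt_mul m (pow_nonneg (norm_nonneg _) _) (nm_nonneg _ _)).trans
          (by rw [pow_rt hm.ne' (norm_nonneg _)])
      refine (add_isTheta (nn fun z => Key2.f_nonneg _ _ _ _)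
        (nn fun z => rt_nonneg _ (nm_nonneg _ _))
        (nn fun z => mul_nonneg (norm_nonneg _) (Key2.f_nonneg _ _ _ _))
        (nn fun z => mul_nonneg (norm_nonneg _) (rt_nonneg _ (nm_nonneg _ _))) a1 a2).trans
          (EventuallyEq.isTheta (Eventually.of_forall fun z => (mul_add _ _ _).symm))
    have k3 : P'.T D (nxt a E.r J m D) m =O[𝓝 (φ' b)] (h₁ ∘ ψ) := by
      refine (co_isBigO c').1 ((e1.cancel (co_cont c' (T_cont P' _ m)) f2 ?_).trans hL.isTheta.1)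
      exact (k2.2.trans (((co_isBigO c).2 l2).comp_tendsto tπ)).trans k1.2
    have k4 : DomD (h₁ ∘ ψ) (P'.T D (nxt a E.r J m D) m) (φ' b) := by
      obtain ⟨cd, -, hcd⟩ := hA.snc
      refine stGirM n cd X X' π C E J b φ φ' e L _ _ _ hπ (hcd _) c c' e1 l3
        (IsBigO.trans ?_ k1.1) k2.1 ?_
      · exact (isBigO_refl _ _).mul hL.isTheta.2
      · filter_upwards [g4, g2.eventually f2] with w w1 w2
        exact w2.comp w1
    have k5 : Oc'.N b =Θ[𝓝 b] fun z => (h₁ ∘ ψ) (φ' z) := f3.trans hL.isTheta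
    refine ⟨?_, fun _ => ⟨_, k5, k3, k4⟩⟩
    rw [hTc.supp, ord1_van c' k5, van_L k3 k4, van_T _ hm, ← ord1_van c' u1.2]
    simp only [hc, ho', true_and]
  · have hb' : b ∉ Oc'.S := fun hb => hc ((hTc.supp b).1 hb).1
    refine ⟨iff_of_false hb' fun hv => hc (p3.2 ?_), fun hb => (hb' hb).elim⟩
    have nC : π b ∉ C := fun h => hc (hs h)
    have c₁ := hπ.off b nC φ c
    have e0 : e b ≠ 0 := fun h => nC (e1.zero.self_of_nhds.2 h)
    have a1 : (fun z => ‖e z‖ ^ m * nm P'.g (φ' z)) =O[𝓝 b] fun z => nm P'.g (φ' z) := by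
      simpa only [norm_pow] using (girM_unit (e := fun z => e z ^ m)
        (e1.cont.self_of_nhds.pow m) (pow_ne_zero m e0) fun z => nm P'.g (φ' z)).1
    exact (co_isBigO c₁).1 ((u2.2.trans (a1.trans ((co_isBigO c').2 hv))).trans
      ((co_theta c₁ c').1.pow m))

end Vale.Agent.P287Q.H1
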