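import Mathlib.Analysis.Analytic.Basic
import Mathlib.Analysis.Calculus.FDeriv.Analytic
import Mathlib.Analysis.Calculus.InverseFunctionTheorem.Analytic
import Mathlib.Analysis.SpecialFunctions.Pow.Real
import Mathlib.Analysis.Complex.Basic
import Mathlib.Topology.OpenPartialHomeomorph.Basic

/-!
# Principalization by blow-ups in smooth centres: definitions

A marked ideal is a size function, up to local comparability.
-/

open Filter Topology Set Function Asymptotics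

noncomputable section

namespace Vale.Agent.P287Q.H1

/-- coordinate space -/
abbrev W (n : ℕ) : Type := Fin n → ℂ

section loc

variable {n : ℕ}

/-- `θ` is a local isomorphism at `q` -/
def IsCo (θ : W n → W n) (q : W n) : Prop := AnalyticAt ℂ θ q ∧ Bijective (fderiv ℂ θ q)

/-- `f` vanishes at `q` to order at least `m` -/
def Van (f : W n → ℝ) (m : ℕ) (q : W n) : Prop := f =O[𝓝 q] fun z => ‖z - q‖ ^ m

/-- the projection which kills the first `k` coordinates -/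
def pr (k : ℕ) (z : W n) : W n := fun l => if l.val < k then 0 else z l

/-- `f` does not depend on the first `k` coordinates -/
def Ind (k : ℕ) (f : W n → ℂ) : Prop := ∀ z, f (pr k z) = f z

/-- the sum of the norms of a finite family -/
def nm {κ : Type} [Fintype κ] (g : κ → W n → ℂ) (z : W n) : ℝ := ∑ i, ‖g i z‖

/-- the `D`-th root -/
def rt (D : ℕ) (x : ℝ) : ℝ := x ^ ((D : ℝ)⁻¹)

/-- the monomial with exponents `μ` -/
def mon (μ : Fin n → ℕ) (z : W n) : ℂ := ∏ l, z l ^ μ l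

/-- the size function `|x| + (|y ^ μ| ∑ |g i|) ^ (1 / D)` -/
def pf (k D : ℕ) (μ : Fin n → ℕ) {κ : Type} [Fintype κ] (g : κ → W n → ℂ) (z : W n) : ℝ :=
  ‖z - pr k z‖ + rt D (‖mon μ z‖ * nm g z)

/-- the exponents of the coordinates, given the exponents `a` of the labels -/
def ex (a : ℕ → ℕ) (nu : Fin n → Option ℕ) (l : Fin n) : ℕ := (nu l).elim 0 a

/-- partial derivative -/
def pd (l : Fin n) (f : W n → ℂ) : W n → ℂ := fun z => fderiv ℂ f z (Pi.single l 1)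

/-- the size of `f` with mark `d` together with all its derivatives -/
def szD : ℕ → (W n → ℂ) → W n → ℝ
  | 0, _, _ => 0
  | d + 1, f, z => rt (d + 1) ‖f z‖ + ∑ l, szD d (pd l f) z

/-- `L` is of Lipschitz type near `q` -/
def Lip (L : W n → ℝ) (q : W n) : Prop :=
  (fun p : W n × W n => L p.2) =O[𝓝 (q, q)] fun p => |L p.1| + ‖p.2 - p.1‖

/-- `L` is dominated by the differential closure of `T` near `q` -/
def DomD (L T : W n → ℝ) (q : W n) : Prop :=
  ∃ U ∈ 𝓝 q, ∃ r₀ : ℝ, 0 < r₀ ∧ ∀ K : ℝ, ∃ C : ℝ, ∀ z ∈ U, ∀ r : ℝ, 0 < r → r ≤ r₀ →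
    (∀ w ∈ Metric.ball z r, |T w| ≤ K * r) → |L z| ≤ C * r

/-- `L` is comparable near `q` with the size of a finite analytic family with mark `D` -/
def Sz (D : ℕ) (L : W n → ℝ) (q : W n) : Prop :=
  ∃ (κ : Type) (_ : Fintype κ) (g : κ → W n → ℂ), (∀ i, AnalyticAt ℂ (g i) q) ∧
    L =Θ[𝓝 q] fun z => rt D (nm g z)

/-- the chart `i` of the blow-up of the subspace `z l = 0`, `l ∈ A` -/
def σ (A : Finset (Fin n)) (i : Fin n) (z : W n) : W n :=
  fun l => if l ∈ A ∧ l ≠ i then z i * z l else z l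

/-- the coordinate subspace -/
def Zs (A : Finset (Fin n)) : Set (W n) := {z | ∀ l ∈ A, z l = 0}

/-- two coordinates never have the same label -/
def Inj (nu : Fin n → Option ℕ) : Prop := ∀ l l' j, nu l = some j → nu l' = some j → l = l'

/-- the hyperplane with label `j` -/
def hyp (nu : Fin n → Option ℕ) (j : ℕ) : Set (W n) := {z | ∃ l, nu l = some j ∧ z l = 0}

/-- a presentation of level `k` at `q`: labels and a finite family -/
structure Pres (n k : ℕ) (q : W n) : Type 1 where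
  /-- the label of a coordinate -/
  nu : Fin n → Option ℕ
  /-- the index set -/
  κ : Type
  [fin : Fintype κ]
  /-- the family -/
  g : κ → W n → ℂ
  le : k ≤ n
  free : ∀ l : Fin n, l.val < k → nu l = none
  inj : Inj nu
  an : ∀ i, AnalyticAt ℂ (g i) q
  ind : ∀ i, Ind k (g i)

attribute [instance] Pres.fin

/-- the size function of a presentation, for the exponents `a` of the labels -/
def Pres.f {k : ℕ} {q : W n} (P : Pres n k q) (D : ℕ) (a : ℕ → ℕ) : W n → ℝ :=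
  pf k D (ex a P.nu) P.g

/-- the size function together with the residual family with mark `m` -/
def Pres.T {k : ℕ} {q : W n} (P : Pres n k q) (D : ℕ) (a : ℕ → ℕ) (m : ℕ) (z : W n) : ℝ :=
  P.f D a z + rt m (nm P.g z)

/-- the differential closure of `P.T` -/
def Pres.L {k : ℕ} {q : W n} (P : Pres n k q) (D : ℕ) (a : ℕ → ℕ) (m : ℕ) (z : W n) : ℝ :=
  ‖z - pr k z‖ + ∑ i, szD D (fun w => mon (ex a P.nu) w * P.g i w) z + ∑ i, szD m (P.g i) z

/-- `Φ` is a local isomorphism at `q` which matches the labelled hyperplanes -/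
structure LIso (nu nu' : Fin n → Option ℕ) (Φ : W n → W n) (q : W n) : Prop where
  co : IsCo Φ q
  lab : ∀ᶠ z in 𝓝 q, ∀ j, Φ z ∈ hyp nu' j ↔ z ∈ hyp nu j

end loc

/-- a complex manifold with a set of local isomorphisms; `Co p φ` says that `φ` is a system
of local coordinates at `p` -/
structure Mf (n : ℕ) : Type 1 where
  /-- the points -/
  M : Type
  [top : TopologicalSpace M]
  /-- local coordinates -/
  Co : M → (M → W n) → Prop
  exi : ∀ p, ∃ φ, Co p φ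
  ev : ∀ p φ, Co p φ → ∀ᶠ b in 𝓝 p, Co b φ
  hom : ∀ p φ, Co p φ → ∃ e : OpenPartialHomeomorph M (W n), p ∈ e.source ∧ φ =ᶠ[𝓝 p] e
  tr : ∀ p φ φ', Co p φ → Co p φ' → ∃ θ, IsCo θ (φ p) ∧ φ' =ᶠ[𝓝 p] θ ∘ φ
  sat : ∀ p φ φ' θ, Co p φ → IsCo θ (φ p) → φ' =ᶠ[𝓝 p] θ ∘ φ → Co p φ'
  /-- the local isomorphisms which have to be respected -/
  Γ : Set (OpenPartialHomeomorph M M)
  symm : ∀ γ ∈ Γ, γ.symm ∈ Γ
  hol : ∀ γ ∈ Γ, ∀ p ∈ γ.source, ∀ φ, Co (γ p) φ → Co p (φ ∘ γ)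
  /-- the region which contains all supports; it is compact up to the local isomorphisms -/
  R : Set M
  cpt : ∃ K : Set M, IsCompact K ∧ ∀ p ∈ R, p ∈ K ∨ ∃ γ ∈ Γ, p ∈ γ.source ∧ γ p ∈ K

attribute [instance] Mf.top

variable {n : ℕ}

/-- labelled divisors; the labels in use are smaller than `r` -/
structure Dv (X : Mf n) where
  /-- the next label -/
  r : ℕ
  /-- the divisors -/
  E : ℕ → Set X.M
  emp : ∀ j, r ≤ j → E j = ∅
  closed : ∀ j, IsClosed (E j)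
  inv : ∀ γ ∈ X.Γ, ∀ p ∈ γ.source, ∀ j, p ∈ E j → γ p ∈ E j

/-- forget the labels below `r₀` -/
def Dv.mask {X : Mf n} (E : Dv X) (r₀ : ℕ) : Dv X where
  r := E.r
  E j := if j < r₀ then ∅ else E.E j
  emp j hj := by
    split_ifs
    · rfl
    · exact E.emp j hj
  closed j := by
    split_ifs
    · exact isClosed_empty
    · exact E.closed j
  inv γ hγ p hp j h := by
    split_ifs at h ⊢
    · exact h
    · exact E.inv γ hγ p hp j h

/-- the intersection of the divisors with label in `J` -/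
def Dv.cap {X : Mf n} (E : Dv X) (J : Finset ℕ) : Set X.M := {p | ∀ j ∈ J, p ∈ E.E j}

/-- a support and a size function near each of its points -/
structure Obj (X : Mf n) where
  /-- the support -/
  S : Set X.M
  /-- the size function near a point -/
  N : X.M → X.M → ℝ

namespace Mf

variable (X : Mf n)

/-- the set is invariant under the local isomorphisms -/
def Inv (C : Set X.M) : Prop := ∀ γ ∈ X.Γ, ∀ p ∈ γ.source, p ∈ C → γ p ∈ C

/-- `f` vanishes at `p` to order at least one -/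
def Ord1 (f : X.M → ℝ) (p : X.M) : Prop :=
  ∃ φ, X.Co p φ ∧ f =O[𝓝 p] fun z => ‖φ z - φ p‖

/-- `e` is a local equation of the smooth hypersurface `Y` at `b` (`1` if `b ∉ Y`) -/
def Eqn (Y : Set X.M) (b : X.M) (e : X.M → ℂ) : Prop :=
  (e = 1 ∧ ∀ᶠ z in 𝓝 b, z ∉ Y) ∨
    ∃ φ i, X.Co b φ ∧ e = (fun z => φ z i) ∧ ∀ᶠ z in 𝓝 b, z ∈ Y ↔ φ z i = 0

variable {X}

/-- the coordinates `φ` with the labels `nu` describe the divisors near `p` -/
def Adapt (E : Dv X) (p : X.M) (φ : X.M → W n) (nu : Fin n → Option ℕ) : Prop :=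
  X.Co p φ ∧ ∀ᶠ z in 𝓝 p, ∀ j, z ∈ E.E j ↔ φ z ∈ hyp nu j

/-- `P` is a presentation of `f` at `p` in the coordinates `φ`, for the exponents `a` -/
def IsPres (E : Dv X) (k D : ℕ) (a : ℕ → ℕ) (f : X.M → ℝ) (p : X.M) (φ : X.M → W n)
    (P : Pres n k (φ p)) : Prop :=
  Adapt E p φ P.nu ∧ f =Θ[𝓝 p] fun z => P.f D a (φ z)

/-- an object of level `k` with mark `D` -/
structure Lev (E : Dv X) (k D : ℕ) (O : Obj X) : Prop where
  closed : IsClosed O.S
  reg : O.S ⊆ X.R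
  supp : ∀ p ∈ O.S, ∀ᶠ b in 𝓝 p, b ∈ O.S ↔ X.Ord1 (O.N p) b
  cmp : ∀ p ∈ O.S, ∀ᶠ b in 𝓝 p, b ∈ O.S → O.N b =Θ[𝓝 b] O.N p
  pres : ∀ p ∈ O.S, ∃ φ P, IsPres E k D 0 (O.N p) p φ P
  inv : X.Inv O.S
  invN : ∀ γ ∈ X.Γ, ∀ p ∈ γ.source, p ∈ O.S → (O.N (γ p) ∘ γ) =Θ[𝓝 p] O.N p

/-- near `p` the set `C` is a submanifold of codimension `c` which is transversal to the divisors
with label outside `J` -/
def Snc (E : Dv X) (c : ℕ) (J : Finset ℕ) (C : Set X.M) (p : X.M) : Prop :=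
  ∃ (φ : X.M → W n) (A : Finset (Fin n)) (nu : Fin n → Option ℕ), X.Co p φ ∧ A.card = c ∧
    (∀ᶠ z in 𝓝 p, z ∈ C ↔ φ z ∈ Zs A) ∧ (∀ l ∈ A, nu l = none) ∧ Inj nu ∧
    ∀ᶠ z in 𝓝 p, ∀ j ∉ J, z ∈ E.E j ↔ φ z ∈ hyp nu j

/-- admissible centres; `J` is the set of the labels of the divisors which contain the centre -/
structure Adm (E : Dv X) (O : Obj X) (C : Set X.M) (J : Finset ℕ) : Prop where
  ne : C.Nonempty
  closed : IsClosed C
  sub : C ⊆ O.S
  inv : X.Inv C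
  lab : C ⊆ E.cap J
  snc : ∃ c, 0 < c ∧ ∀ p ∈ C, Snc E c J C p

/-- `π` is the blow-up of `C` (the properties which are used in the algorithm) -/
structure IsBl {X' : Mf n} (π : X'.M → X.M) (C : Set X.M) : Prop where
  cont : Continuous π
  off : ∀ b, π b ∉ C → ∀ φ, X.Co (π b) φ → X'.Co b (φ ∘ π)
  ovr : ∀ b, π b ∈ C → ∀ φ A, X.Co (π b) φ → (∀ᶠ z in 𝓝 (π b), z ∈ C ↔ φ z ∈ Zs A) →
    ∃ i ∈ A, ∃ φ', X'.Co b φ' ∧ φ ∘ π =ᶠ[𝓝 b] σ A i ∘ φ'
  cov : ∀ γ' ∈ X'.Γ, ∃ γ ∈ X.Γ, ∀ b ∈ γ'.source, π b ∈ γ.source ∧ π (γ' b) = γ (π b)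
  reg : π ⁻¹' X.R ⊆ X'.R

/-- the divisors after the blow-up -/
structure TrE {X' : Mf n} (π : X'.M → X.M) (C : Set X.M) (E : Dv X) (E' : Dv X') : Prop where
  r : E'.r = E.r + 1
  new : E'.E E.r = π ⁻¹' C
  old : ∀ j, j ≠ E.r → E'.E j = closure (π ⁻¹' (E.E j \ C))

/-- the controlled transform of an object -/
structure Tr {X' : Mf n} (π : X'.M → X.M) (C : Set X.M) (O : Obj X) (O' : Obj X') : Prop where
  supp : ∀ b, b ∈ O'.S ↔ π b ∈ O.S ∧ X'.Ord1 (O'.N b) b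
  eq : ∀ b, π b ∈ O.S → ∃ (e : X'.M → ℂ) (h : X'.M → ℝ), X'.Eqn (π ⁻¹' C) b e ∧
    (∀ᶠ z in 𝓝 b, ContinuousAt h z) ∧ O'.N b =Θ[𝓝 b] h ∧
    (fun z => ‖e z‖ * h z) =Θ[𝓝 b] (O.N (π b) ∘ π)

end Mf

open Mf

/-- properties of states -/
abbrev Pred (n : ℕ) : Type 1 := ∀ X : Mf n, Dv X → Obj X → Prop

/-- the property `Q` survives the admissible blow-ups -/
def Surv (k D : ℕ) (Q : Pred n) : Prop :=
  ∀ (X : Mf n) (E : Dv X) (O : Obj X) (C : Set X.M) (J : Finset ℕ), Q X E O → Lev E k D O →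
    Adm E O C J → ∃ (X' : Mf n) (π : X'.M → X.M), IsBl π C ∧
      ∀ (E' : Dv X') (O' : Obj X'), TrE π C E E' → Tr π C O O' → Lev E' k D O' → Q X' E' O'

/-- the end -/
def Done (Q : Pred n) : Prop := ∃ (X : Mf n) (E : Dv X) (O : Obj X), Q X E O ∧ O.S = ∅

/-- the residual family for the exponents `a` has order at most `m` on the support -/
def Bd {X : Mf n} (E : Dv X) (k D : ℕ) (a : ℕ → ℕ) (O : Obj X) (m : ℕ) : Prop :=
  ∀ p ∈ O.S, ∃ φ P, IsPres E k D a (O.N p) p φ P ∧ ¬ Van (nm P.g) (m + 1) (φ p)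

/-- the family has finite order on the support -/
def NZ {X : Mf n} (E : Dv X) (k D : ℕ) (O : Obj X) : Prop :=
  ∀ p ∈ O.S, ∃ φ P m, IsPres E k D 0 (O.N p) p φ P ∧ ¬ Van (nm P.g) (m + 1) (φ p)

/-- resolution of the objects of level `k` -/
def Res (n k : ℕ) : Prop :=
  ∀ (D : ℕ) (Q : Pred n), 0 < D → Surv k D Q →
    ∀ (X : Mf n) (E : Dv X) (O : Obj X), Q X E O → Lev E k D O → Done Q

/-- resolution of the objects of level `k` which vanish nowhere identically -/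
def ResNZ (n k : ℕ) : Prop :=
  ∀ (D : ℕ) (Q : Pred n), 0 < D → Surv k D Q →
    ∀ (X : Mf n) (E : Dv X) (O : Obj X), Q X E O → Lev E k D O → NZ E k D O → Done Q

/-- resolution of the objects of level `k` with residual order at most `m` -/
def ResBd (n k m : ℕ) : Prop :=
  ∀ (D : ℕ) (Q : Pred n), 0 < D → Surv k D Q →
    ∀ (X : Mf n) (E : Dv X) (O : Obj X) (a : ℕ → ℕ), Q X E O → Lev E k D O → Bd E k D a O m →
      Done Q

/-- `Oc` is a companion of `O` for the order `m` -/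
def Comp {X : Mf n} (E : Dv X) (k D m : ℕ) (a : ℕ → ℕ) (O Oc : Obj X) : Prop :=
  Oc.S ⊆ O.S ∧ ∀ p ∈ O.S, ∃ φ P, IsPres E k D a (O.N p) p φ P ∧ ¬ Van (nm P.g) (m + 1) (φ p) ∧
    (p ∈ Oc.S ↔ Van (nm P.g) m (φ p)) ∧ (p ∈ Oc.S → ∃ L : W n → ℝ, Oc.N p =Θ[𝓝 p] (L ∘ φ) ∧
      P.T D a m =O[𝓝 (φ p)] L ∧ DomD L (P.T D a m) (φ p))

/-- `Ob` is `Oc` together with the divisors with label in `J` -/
def Bdy {X : Mf n} (E : Dv X) (J : Finset ℕ) (Oc Ob : Obj X) : Prop :=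
  Ob.S = Oc.S ∩ E.cap J ∧ ∀ p ∈ Ob.S, ∃ ε : ℕ → X.M → ℂ, (∀ j ∈ J, X.Eqn (E.E j) p (ε j)) ∧
    Ob.N p =Θ[𝓝 p] fun z => |Oc.N p z| + ∑ j ∈ J, ‖ε j z‖

end Vale.Agent.P287Q.H1
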