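import Vale.Agent.P287Q.H1.St
import Vale.Agent.P287Q.H1.Bas

/-!
# Principalization by blow-ups in smooth centres: the elementary steps
-/

open Filter Topology Set Function Asymptotics

noncomputable section

set_option linter.unusedSectionVars false

namespace Vale.Agent.P287Q.H1

open Mf

variable {n : ℕ}

theorem stDiv : StDiv := fun _ _ _ _ _ hf _ h => by
  obtain ⟨C, h⟩ := h.bound
  exact div_crd hf (C := C) (h.mono fun z hz => by rwa [norm_pow, norm_norm] at hz)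

theorem van_crd {f : W n → ℂ} {q : W n} {i : Fin n} (hf : AnalyticAt ℂ f q)
    (h : ∀ᶠ z in 𝓝 q, z i = 0 → f z = 0) : f =O[𝓝 q] fun z => z i := by
  by_cases h0 : q i = 0
  · obtain ⟨g, hg, e⟩ := div_of_ord h0 hf (k := 1) (by
      filter_upwards [h, hf.eventually_analyticAt] with w a b c
      exact ord_one b.differentiableAt (a c))
    have h6 := (isBigO_refl (fun w : W n => w i) (𝓝 q)).mul (hg.continuousAt.tendsto.isBigO_one ℂ)
    exact h6.congr' (e.mono fun w hw => by simpa only [pow_one] using hw.symm)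
      (Eventually.of_forall fun w => mul_one _)
  · exact isBigO_of_ne (an_crd i q).continuousAt hf.continuousAt h0

theorem stHyp : StHyp := fun n θ q i j hθ h => by
  refine ⟨van_crd ((an_crd j _).comp hθ.1) (h.mono fun _ k => k.2), ?_⟩
  obtain ⟨ψ, h1, h2, h3, h4⟩ := hθ.inv
  have h5 : Tendsto ψ (𝓝 (θ q)) (𝓝 q) := by
    have := h1.tendsto
    rwa [h2] at this
  have h6 := van_crd (i := j) ((an_crd i _).comp h1.1) (by
    filter_upwards [h5.eventually h, h4] with w a b c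
    exact a.1 (by rwa [b]))
  exact (h6.comp_tendsto hθ.tendsto).congr' (h3.mono fun z hz => congrFun hz i) EventuallyEq.rfl

/-- the equation of the hyperplane with label `j` -/
def sl (nu : Fin n → Option ℕ) (j : ℕ) (z : W n) : ℂ := ∏ l with nu l = some j, z l

theorem sl_of_lab {nu : Fin n → Option ℕ} (h : Inj nu) {l : Fin n} {j : ℕ} (hl : nu l = some j)
    (z : W n) : sl nu j z = z l :=
  Finset.prod_eq_single_of_mem l (by simp [hl]) fun l' h1 h2 =>
    (h2 (h l' l j (Finset.mem_filter.1 h1).2 hl)).elim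

theorem sl_of_not {nu : Fin n → Option ℕ} {j : ℕ} (h : ∀ l, nu l ≠ some j) (z : W n) :
    sl nu j z = 1 :=
  Finset.prod_eq_one fun l hl => (h l (Finset.mem_filter.1 hl).2).elim

theorem sl_an (nu : Fin n → Option ℕ) (j : ℕ) (q : W n) : AnalyticAt ℂ (sl nu j) q :=
  Finset.analyticAt_fun_prod _ fun l _ => an_crd l q

theorem sl_eq_zero {nu : Fin n → Option ℕ} {j : ℕ} {z : W n} : sl nu j z = 0 ↔ z ∈ hyp nu j := by
  simp [sl, hyp, Finset.prod_eq_zero_iff]

theorem mon_eq_sl (a : ℕ → ℕ) (nu : Fin n → Option ℕ) {T : Finset ℕ}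
    (hT : ∀ l j, nu l = some j → j ∈ T) (z : W n) :
    mon (ex a nu) z = ∏ j ∈ T, sl nu j z ^ a j := by
  simp only [sl, ← Finset.prod_pow, Finset.prod_filter]
  rw [Finset.prod_comm]
  refine Finset.prod_congr rfl fun l _ => ?_
  rcases e : nu l with _ | j
  · simp [ex, e]
  · rw [Finset.prod_eq_single_of_mem j (hT l j e) fun j' _ h => by simp [Ne.symm h]]
    simp [ex, e]

theorem exists_lab (nu : Fin n → Option ℕ) : ∃ T : Finset ℕ, ∀ l j, nu l = some j → j ∈ T :=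
  ⟨Finset.univ.image fun l => (nu l).getD 0, fun l j h =>
    Finset.mem_image.2 ⟨l, Finset.mem_univ l, by simp [h]⟩⟩

theorem LIso.sl {nu nu' : Fin n → Option ℕ} {Φ : W n → W n} {q : W n} (h : LIso nu nu' Φ q)
    (h1 : Inj nu) (h2 : Inj nu') (j : ℕ) : (fun z => sl nu' j (Φ z)) =Θ[𝓝 q] sl nu j := by
  have e : ∀ᶠ z in 𝓝 q, H1.sl nu' j (Φ z) = 0 ↔ H1.sl nu j z = 0 :=
    h.lab.mono fun z hz => by rw [sl_eq_zero, sl_eq_zero, hz j]
  have c1 : ContinuousAt (fun z => H1.sl nu' j (Φ z)) q :=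
    ((sl_an nu' j _).comp h.co.1).continuousAt
  by_cases h0 : H1.sl nu j q = 0
  swap
  · exact ⟨isBigO_of_ne (sl_an nu j q).continuousAt c1 h0, isBigO_of_ne c1
      (sl_an nu j q).continuousAt fun k => h0 (e.self_of_nhds.1 k)⟩
  obtain ⟨l, hl, -⟩ := sl_eq_zero.1 h0
  obtain ⟨l', hl', -⟩ := sl_eq_zero.1 (e.self_of_nhds.2 h0)
  simp only [sl_of_lab h1 hl, sl_of_lab h2 hl'] at e
  have k := stHyp n Φ q l l' h.co e
  simpa only [← sl_of_lab h1 hl, ← sl_of_lab h2 hl'] using k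

theorem stMon : StMon := fun n nu nu' Φ q a h h1 h2 => by
  obtain ⟨T, hT⟩ := exists_lab nu
  obtain ⟨T', hT'⟩ := exists_lab nu'
  have e1 := mon_eq_sl a nu (T := T ∪ T') fun l j k => Finset.mem_union_left _ (hT l j k)
  have e2 := mon_eq_sl a nu' (T := T ∪ T') fun l j k => Finset.mem_union_right _ (hT' l j k)
  simp only [funext e1, e2]
  exact ⟨IsBigO.finsetProd fun j _ => (h.sl h1 h2 j).1.pow _,
    IsBigO.finsetProd fun j _ => (h.sl h1 h2 j).2.pow _⟩

theorem stCan : StCan := fun n μ f g q hf hg h => by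
  obtain ⟨C, h⟩ := h.bound
  refine IsBigO.of_bound C (le_of_off (hf.mono fun _ k => k.norm)
    (hg.mono fun _ k => continuousAt_const.mul k.norm) (h.mono fun z hz h0 => ?_))
  rw [norm_mul, norm_mul, norm_norm, mul_left_comm] at hz
  exact le_of_mul_le_mul_left hz (norm_pos_iff.2 (mon_ne_zero μ fun l _ => h0 l))

section ord

variable {E : Type*} [NormedAddCommGroup E] [NormedSpace ℂ E] {f g : E → ℂ} {a : E}

theorem an_form (k : ℕ) (f : E → ℂ) (a u : E) : AnalyticAt ℂ (fun v => dl v k f a) u :=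
  AnalyticAt.comp (g := iteratedFDeriv ℂ k f a) (f := fun v : E => fun _ : Fin k => v)
    (iteratedFDeriv ℂ k f a).analyticAt (AnalyticAt.pi fun _ => analyticAt_id)

/-- the order is additive -/
theorem not_ord_mul (hf : AnalyticAt ℂ f a) (hg : AnalyticAt ℂ g a) {k l : ℕ} (h1 : Ord f a k)
    (h2 : ¬ Ord f a (k + 1)) (h3 : Ord g a l) (h4 : ¬ Ord g a (l + 1)) :
    ¬ Ord (fun z => f z * g z) a (k + l + 1) := by
  intro h
  obtain ⟨v, hv⟩ := exists_dl hf h1 h2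
  obtain ⟨u, hu⟩ := exists_dl hg h3 h4
  refine hu (AnalyticOnNhd.eqOn_zero_of_preconnected_of_eventuallyEq_zero (U := univ)
    (fun u _ => an_form l g a u) isPreconnected_univ (mem_univ v) ?_ (mem_univ u))
  filter_upwards [(an_form k f a v).continuousAt.eventually_ne hv] with w hw
  have t1 := (h1.tendsto_lead hf w).mul (h3.tendsto_lead hg w)
  have hm : AnalyticAt ℂ (fun z => f z * g z) a := hf.mul hg
  have t2 := (h.mono (Nat.le_succ _)).tendsto_lead hm w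
  rw [(ord_iff hm).1 h _ (Nat.lt_succ_self _) w, zero_div] at t2
  have t3 := tendsto_nhds_unique (t1.congr fun t => by rw [div_mul_div_comm, ← pow_add]) t2
  have f1 : (k.factorial : ℂ) ≠ 0 := by exact_mod_cast Nat.factorial_ne_zero k
  have f2 : (l.factorial : ℂ) ≠ 0 := by exact_mod_cast Nat.factorial_ne_zero l
  simpa [hw, f1, f2] using t3

theorem not_ord_pow (hf : AnalyticAt ℂ f a) {k : ℕ} (h1 : Ord f a k) (h2 : ¬ Ord f a (k + 1))
    (m : ℕ) : ¬ Ord (fun z => f z ^ m) a (k * m + 1) := by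
  induction m with
  | zero => exact fun h => by simpa using h.eq_zero (Nat.succ_ne_zero _)
  | succ m ih =>
    simpa only [pow_succ, Nat.mul_succ] using
      not_ord_mul (f := fun z => f z ^ m) (hf.pow m) hf (h1.pow m) ih h1 h2

end ord

open Classical in
theorem ord_prod (μ : Fin n → ℕ) (q : W n) (S : Finset (Fin n)) :
    Ord (fun z : W n => ∏ l ∈ S, z l ^ μ l) q (∑ l ∈ S with q l = 0, μ l) ∧
      ¬ Ord (fun z : W n => ∏ l ∈ S, z l ^ μ l) q (∑ l ∈ S with q l = 0, μ l + 1) := by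
  induction S using Finset.induction_on with
  | empty => exact ⟨ord_zero continuousAt_const, fun h => by
      simpa using h.eq_zero (Nat.succ_ne_zero _)⟩
  | insert i S hi ih =>
    have an : AnalyticAt ℂ (fun z : W n => ∏ l ∈ S, z l ^ μ l) q :=
      Finset.analyticAt_fun_prod _ fun l _ => (an_crd l q).pow _
    obtain ⟨k, k1, k2, k3⟩ : ∃ k, Ord (fun z : W n => z i) q k ∧ ¬ Ord (fun z : W n => z i) q (k + 1) ∧
        ∑ l ∈ insert i S with q l = 0, μ l = k * μ i + ∑ l ∈ S with q l = 0, μ l := by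
      rw [Finset.filter_insert]
      split_ifs with h
      · refine ⟨1, ord_one (an_crd i q).differentiableAt h, fun k => ?_, by
          rw [Finset.sum_insert (by simp [hi]), one_mul]⟩
        have h1 := ((ord_two_iff (an_crd i q)).1 k).2
        have h2 : fderiv ℂ (fun z : W n => z i) q = ContinuousLinearMap.proj i :=
          (ContinuousLinearMap.proj (R := ℂ) (φ := fun _ : Fin n => ℂ) i).fderiv
        have h3 := congrArg (fun L : W n →L[ℂ] ℂ => L (Pi.single i 1)) (h2.symm.trans h1)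
        simp at h3
      · exact ⟨0, ord_zero (an_crd i q).continuousAt, fun k => h (k.eq_zero one_ne_zero), by simp⟩
    simp only [Finset.prod_insert hi, k3]
    exact ⟨(k1.pow _).mul ih.1, not_ord_mul ((an_crd i q).pow _) an (k1.pow _)
      (not_ord_pow (an_crd i q) k1 k2 _) ih.1 ih.2⟩

theorem nm_mul {κ : Type} [Fintype κ] (f : W n → ℂ) (g : κ → W n → ℂ) (z : W n) :
    nm (fun i w => f w * g i w) z = ‖f z‖ * nm g z := by
  simp [nm, Finset.mul_sum]

theorem stOrd : StOrd := fun n μ κ _ g q d hg => by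
  obtain ⟨h1, h2⟩ := ord_prod μ q Finset.univ
  simp only [← nm_mul, van_nm_iff]
  refine forall_congr' fun i => ⟨fun h => ?_, fun h => (h1.mul h).mono (by omega)⟩
  by_contra h3
  obtain ⟨e, e1, e2⟩ := exists_ord (hg i) fun k => h3 (ord_of_zero k _)
  have h4 : e < _ := not_le.1 fun k => h3 (e1.mono k)
  exact not_ord_mul (mon_an μ q) (hg i) h1 h2 e1 e2 (h.mono (by omega))

theorem stUsc : StUsc := fun _ _ _ _ _ hg =>
  ⟨fun _ => not_van_eventually hg, fun h => (zero_of_van hg h).mono fun _ => nm_eq_zero.2⟩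

theorem stOrdBl : StOrdBl := fun _ _ _ _ _ _ _ _ _ hi hb hg hg' h e h' =>
  van_nm_iff.2 fun t => wt_ord hb (hg t) (hg' t) (e t)
    (van_nm_iff.1 (h.self_of_nhds ((σ_mem_Zs hi).2 hb)) t) (van_nm_iff.1 h' t)

namespace Mf

variable {X : Mf n}

theorem Inv.iff {Y : Set X.M} (h : X.Inv Y) {γ : OpenPartialHomeomorph X.M X.M} (hγ : γ ∈ X.Γ)
    {p : X.M} (hp : p ∈ γ.source) : γ p ∈ Y ↔ p ∈ Y :=
  ⟨fun k => γ.left_inv hp ▸ h _ (X.symm γ hγ) _ (γ.map_source hp) k, h γ hγ p hp⟩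

theorem inv_E (E : Dv X) (j : ℕ) : X.Inv (E.E j) := fun γ hγ p hp => E.inv γ hγ p hp j

theorem Adapt.gam {E : Dv X} {φ : X.M → W n} {nu : Fin n → Option ℕ}
    {γ : OpenPartialHomeomorph X.M X.M} (hγ : γ ∈ X.Γ) {p : X.M} (hp : p ∈ γ.source)
    (h : Adapt E (γ p) φ nu) : Adapt E p (φ ∘ γ) nu := by
  refine ⟨X.hol γ hγ p hp φ h.1, ?_⟩
  filter_upwards [(γ.continuousAt hp).eventually h.2, γ.open_source.mem_nhds hp] with z a b j
  exact ((inv_E E j).iff hγ b).symm.trans (a j)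

theorem Eqn.gam {Y : Set X.M} {e : X.M → ℂ} (hY : X.Inv Y) {γ : OpenPartialHomeomorph X.M X.M}
    (hγ : γ ∈ X.Γ) {p : X.M} (hp : p ∈ γ.source) (h : X.Eqn Y (γ p) e) : X.Eqn Y p (e ∘ γ) := by
  rcases h with ⟨rfl, h⟩ | ⟨φ, i, h1, rfl, h⟩
  · refine .inl ⟨rfl, ?_⟩
    filter_upwards [(γ.continuousAt hp).eventually h, γ.open_source.mem_nhds hp] with z a b c
    exact a ((hY.iff hγ b).2 c)
  · refine .inr ⟨φ ∘ γ, i, X.hol γ hγ p hp φ h1, rfl, ?_⟩
    filter_upwards [(γ.continuousAt hp).eventually h, γ.open_source.mem_nhds hp] with z a b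
    exact (hY.iff hγ b).symm.trans a

theorem Eqn.ord1 {Y : Set X.M} {e : X.M → ℂ} {b : X.M} (h : X.Eqn Y b e) :
    X.Ord1 (fun z => ‖e z‖) b ↔ b ∈ Y := by
  refine ⟨fun k => h.zero.self_of_nhds.2 (norm_eq_zero.1 k.eq_zero), fun k => ?_⟩
  have h0 := h.zero.self_of_nhds.1 k
  rcases h with ⟨rfl, h⟩ | ⟨φ, i, h1, rfl, h⟩
  · exact (one_ne_zero h0).elim
  · refine ⟨φ, h1, isBigO_of_le' (Eventually.of_forall fun _ => norm_nonneg _)
      (Eventually.of_forall fun z => ?_)⟩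
    simpa [h0] using norm_le_pi_norm (φ z - φ b) i

theorem ord1_gam {f : X.M → ℝ} {γ : OpenPartialHomeomorph X.M X.M} (hγ : γ ∈ X.Γ) {p : X.M}
    (hp : p ∈ γ.source) (h : X.Ord1 f (γ p)) : X.Ord1 (f ∘ γ) p := by
  obtain ⟨φ, h1, h2⟩ := h
  exact ⟨φ ∘ γ, X.hol γ hγ p hp φ h1, h2.comp_tendsto (γ.continuousAt hp)⟩

variable {E : Dv X} {k D : ℕ} {a : ℕ → ℕ} {f : X.M → ℝ} {p : X.M} {φ : X.M → W n}

theorem IsPres.ev {P : Pres n k (φ p)} (h : IsPres E k D a f p φ P) :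
    ∀ᶠ b in 𝓝 p, ∃ h, IsPres E k D a f b φ (P.mv h) := by
  filter_upwards [h.1.ev, theta_ev h.2, (co_tendsto h.1.1).eventually
    (eventually_all.2 fun i => (P.an i).eventually_analyticAt)] with b h1 h2 h3 using ⟨h3, h1, h2⟩

theorem IsPres.congr {P : Pres n k (φ p)} (h : IsPres E k D a f p φ P) {f' : X.M → ℝ}
    (e : f' =Θ[𝓝 p] f) : IsPres E k D a f' p φ P := ⟨h.1, e.trans h.2⟩

theorem IsPres.gam {γ : OpenPartialHomeomorph X.M X.M} (hγ : γ ∈ X.Γ) (hp : p ∈ γ.source)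
    {P : Pres n k (φ (γ p))} (h : IsPres E k D a f (γ p) φ P) :
    IsPres E k D a (f ∘ γ) p (φ ∘ γ) P :=
  ⟨h.1.gam hγ hp, h.2.1.comp_tendsto (γ.continuousAt hp), h.2.2.comp_tendsto (γ.continuousAt hp)⟩

end Mf

theorem stEqn : StEqn := fun _ _ _ _ e h =>
  ⟨fun _ => h.isTheta, h.ev.mono fun _ k => ⟨e, k, isTheta_rfl⟩,
    fun _ hγ hY _ hp e => Eqn.gam hY hγ hp (e ▸ h), fun _ _ => h.cancel, h.ord1⟩

theorem stPres : StPres := fun _ _ _ _ _ _ _ _ _ P hD h =>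
  ⟨h.ev, (h.ord1 hD.ne').self_of_nhds, fun _ hγ _ hp e => by
    subst e
    exact ⟨P.an, h.gam hγ hp⟩⟩

/-- a bound which holds locally on the support and is invariant holds uniformly -/
theorem exists_unif {X : Mf n} {S : Set X.M} (hS : IsClosed S) (hR : S ⊆ X.R) (hI : X.Inv S)
    {B : ℕ → X.M → Prop} (mono : ∀ m m' p, m ≤ m' → B m p → B m' p)
    (loc : ∀ p ∈ S, ∃ m, ∀ᶠ b in 𝓝 p, b ∈ S → B m b)
    (inv : ∀ γ ∈ X.Γ, ∀ p ∈ γ.source, p ∈ S → ∀ m, B m (γ p) → B m p) :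
    ∃ m, ∀ p ∈ S, B m p := by
  obtain ⟨K, hK, h⟩ := X.cpt
  obtain ⟨m, hm⟩ : ∃ m, ∀ p ∈ K ∩ S, p ∈ S → B m p := by
    refine (hK.inter_right hS).induction_on (p := fun s => ∃ m, ∀ p ∈ s, p ∈ S → B m p)
      ⟨0, fun _ h => h.elim⟩ (fun s t hst ⟨m, hm⟩ => ⟨m, fun p hp => hm p (hst hp)⟩) ?_ ?_
    · rintro s t ⟨m, hm⟩ ⟨m', hm'⟩
      refine ⟨max m m', fun p hp hp' => ?_⟩
      rcases hp with hp | hp
      · exact mono _ _ _ (le_max_left _ _) (hm p hp hp')
      · exact mono _ _ _ (le_max_right _ _) (hm' p hp hp')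
    · intro p hp
      obtain ⟨m, hm⟩ := loc p hp.2
      exact ⟨_, mem_nhdsWithin_of_mem_nhds hm, m, fun _ h => h⟩
  refine ⟨m, fun p hp => ?_⟩
  rcases h p (hR hp) with k | ⟨γ, hγ, k1, k2⟩
  · exact hm p ⟨k, hp⟩ hp
  · exact inv γ hγ p k1 hp m (hm _ ⟨k2, hI γ hγ p k1 hp⟩ (hI γ hγ p k1 hp))

theorem stNZ : StNZ := fun n k D X E O _ hL hN => by
  refine exists_unif hL.closed hL.reg hL.inv (B := fun m p => ∃ φ P,
    IsPres E k D 0 (O.N p) p φ P ∧ ¬ Van (nm P.g) (m + 1) (φ p)) ?_ ?_ ?_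
  · rintro m m' p hm ⟨φ, P, h1, h2⟩
    exact ⟨φ, P, h1, fun h => h2 (h.mono (by omega))⟩
  · intro p hp
    obtain ⟨φ, P, m, h1, h2⟩ := hN p hp
    refine ⟨m, ?_⟩
    filter_upwards [h1.ev, hL.cmp p hp, (co_tendsto h1.1.1).eventually (not_van_eventually P.an h2)]
      with b ⟨h, a1⟩ a2 a3 hb using ⟨φ, P.mv h, a1.congr (a2 hb), a3⟩
  · rintro γ hγ p hp hS m ⟨φ, P, h1, h2⟩
    exact ⟨φ ∘ γ, P, (h1.gam hγ hp).congr (hL.invN γ hγ p hp hS).symm, h2⟩

end Vale.Agent.P287Q.H1
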