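import Vale.Agent.P287Q.H1.St
import Vale.Agent.P287Q.H1.Bas

/-!
# P287, resolution: the transform of a presentation in a chart of the blow-up
-/

open Filter Topology Set Function Asymptotics

noncomputable section

namespace Vale.Agent.P287Q.H1

variable {n k : ℕ} {A : Finset (Fin n)} {i : Fin n}

theorem trip_pr (A : Finset (Fin n)) (hk : k ≤ i.val) (z : W n) :
    σ A i (pr k z) = pr k (σ A i z) := by
  funext l
  simp only [σ, pr, if_neg (not_lt.2 hk)]
  split_ifs <;> simp

theorem trip_sub (hk : k ≤ i.val) (hA : ∀ l : Fin n, l.val < k → l ∈ A) (z : W n) :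
    σ A i z - pr k (σ A i z) = z i • (z - pr k z) := by
  funext l
  by_cases h : l.val < k
  · have h1 : l ≠ i := fun e => absurd (e ▸ h) (not_lt.2 hk)
    simp [σ, pr, h, hA l h, h1]
  · simp [pr, h]

theorem trip_mon (hi : i ∈ A) (μ : Fin n → ℕ) (z : W n) :
    mon μ (σ A i z) = z i ^ (∑ l ∈ A, μ l) * ∏ l ∈ Finset.univ.erase i, z l ^ μ l := by
  have h1 : ∀ l, σ A i z l ^ μ l = z i ^ (if l ∈ A.erase i then μ l else 0) * z l ^ μ l := by
    intro l
    by_cases h : l ∈ A ∧ l ≠ i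
    · simp [σ, h.1, h.2, mul_pow]
    · rw [if_neg (fun e => h (Finset.mem_erase.1 e).symm), pow_zero, one_mul]
      simp only [σ, if_neg h]
  rw [mon, Finset.prod_congr rfl fun l _ => h1 l, Finset.prod_mul_distrib,
    Finset.prod_pow_eq_pow_sum, Finset.sum_ite_mem, Finset.univ_inter,
    ← Finset.mul_prod_erase _ _ (Finset.mem_univ i), ← Finset.add_sum_erase _ _ hi, pow_add]
  ring

theorem trip_sum {nu : Fin n → Option ℕ} {J : Finset ℕ} {q : W n} (i : Fin n) (h : Fit k nu J A q)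
    (hn : Inj nu) (a : ℕ → ℕ) : ∑ j ∈ J, a j = ∑ l ∈ A, ex a nu l := by
  have : Nonempty (Fin n) := ⟨i⟩
  choose! e he using h.sur
  refine Finset.sum_of_injOn e (fun j hj j' hj' e1 => ?_) (fun j hj => ?_) (fun l hl h1 => ?_)
    fun j hj => by simp [ex, he j hj]
  · exact Option.some.inj ((he j hj).symm.trans (e1 ▸ he j' hj'))
  · exact (h.mem _ j (he j hj)).2 hj
  · rcases e1 : nu l with _ | j
    · simp [ex, e1]
    · have hj := (h.mem l j e1).1 hl
      exact (h1 ⟨j, hj, hn _ _ j (he j hj) e1⟩).elim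

theorem trip_inj {nu : Fin n → Option ℕ} {r : ℕ} (hn : Inj nu) (hr : ∀ l, nu l ≠ some r)
    (i : Fin n) : Inj (update nu i (some r)) := by
  intro l l' j h1 h2
  by_cases e : l = i <;> by_cases e' : l' = i
  · rw [e, e']
  · rw [e, update_self] at h1
    rw [update_of_ne e', ← h1] at h2
    exact (hr _ h2).elim
  · rw [e', update_self] at h2
    rw [update_of_ne e, ← h2] at h1
    exact (hr _ h1).elim
  · rw [update_of_ne e] at h1
    rw [update_of_ne e'] at h2
    exact hn _ _ _ h1 h2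

theorem trip_ex {nu : Fin n → Option ℕ} {r : ℕ} (hr : ∀ l, nu l ≠ some r) (a : ℕ → ℕ) (c : ℕ)
    (i : Fin n) : ex (update a r c) (update nu i (some r)) = update (ex a nu) i c := by
  funext l
  by_cases e : l = i
  · simp [ex, e]
  · rcases e1 : nu l with _ | j
    · simp [ex, e, e1]
    · have : j ≠ r := fun e2 => hr l (e2 ▸ e1)
      simp [ex, e, e1, this]

theorem trip_upd (μ : Fin n → ℕ) (i : Fin n) (c : ℕ) (z : W n) :
    mon (update μ i c) z = z i ^ c * ∏ l ∈ Finset.univ.erase i, z l ^ μ l := by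
  rw [mon, ← Finset.mul_prod_erase _ _ (Finset.mem_univ i), update_self]
  exact congrArg _ (Finset.prod_congr rfl fun l hl => by
    rw [update_of_ne (Finset.ne_of_mem_erase hl)])

/-- the weak transform of a function which does not depend on the first coordinates -/
theorem trip_wt {b : W n} {m : ℕ} {g : W n → ℂ} (hk : k ≤ i.val) (hb : b i = 0)
    (hA : ∀ l : Fin n, l.val < k → l ∈ A) (hg : AnalyticAt ℂ g (σ A i b)) (hI : Ind k g)
    (h : ∀ᶠ z in 𝓝 (σ A i b), z ∈ Zs A → Ord g z m) :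
    ∃ g', AnalyticAt ℂ g' b ∧ Ind k g' ∧ ∀ᶠ z in 𝓝 b, g (σ A i z) = z i ^ m * g' z := by
  have e : sg A i (pr k b) = σ A i b := by
    rw [← σ_eq, trip_pr A hk, pr_eq_self]
    exact fun l hl => sg_zero hb (hA l hl)
  have e1 : ∀ z : W n, pr k z i = z i := fun z => if_neg (not_lt.2 hk)
  obtain ⟨g', h1, h2⟩ := exists_wt (f := g) (A := A) (i := i) (b := pr k b) ((e1 b).trans hb)
    (e ▸ hg) (w := m) (e ▸ h)
  refine ⟨fun z => g' (pr k z), h1.comp (pr_an k b), fun z => congrArg g' (pr_idem k z), ?_⟩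
  filter_upwards [(pr_an k b).continuousAt.eventually h2] with z hz
  rwa [← σ_eq, trip_pr A hk, hI, e1] at hz

theorem stTrip : StTrip := by
  intro n k D m r a q P J A i b hD hi hk hb hq hF hr hle hV
  subst hq
  choose g' h1 h2 h3 using fun t => trip_wt hk hb hF.low (P.an t) (P.ind t)
    (hV.mono fun z hz h => van_nm_iff.1 (hz h) t)
  have h4 : ∀ᶠ z in 𝓝 b, ‖z i‖ ^ m * nm g' z = nm P.g (σ A i z) :=
    (eventually_all.2 h3).mono fun z hz => by
      simp only [nm, hz, norm_mul, norm_pow, Finset.mul_sum]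
  refine ⟨⟨update P.nu i (some r), P.κ, g', P.le, fun l hl => ?_, trip_inj P.inj hr i, h1, h2⟩,
    rfl, ?_, h4, fun h => van_nm_iff.2 fun t => ?_⟩
  · rw [update_of_ne fun e : l = i => absurd (e ▸ hl) (not_lt.2 hk), P.free l hl]
  · filter_upwards [h4] with z hz
    have e : z i ^ D * mon (update (ex a P.nu) i (∑ j ∈ J, a j + m - D)) z =
        mon (ex a P.nu) (σ A i z) * z i ^ m := by
      rw [trip_upd, trip_mon hi, ← trip_sum i hF P.inj, ← mul_assoc, ← pow_add,
        Nat.add_sub_cancel' hle, pow_add]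
      ring
    have e' := congrArg norm e
    rw [norm_mul, norm_mul, norm_pow, norm_pow] at e'
    simp only [Pres.f, pf, nxt, trip_ex hr]
    rw [trip_sub hk hF.low, norm_smul, mul_add, ← hz, ← mul_assoc, ← e', mul_assoc,
      rt_mul D (pow_nonneg (norm_nonneg _) D) (mul_nonneg (norm_nonneg _) (nm_nonneg _ _)),
      pow_rt hD.ne' (norm_nonneg _)]
  · exact wt_ord hb (P.an t) (h1 t) (h3 t)
      (van_nm_iff.1 (hV.self_of_nhds ((σ_mem_Zs hi).2 hb)) t) (van_nm_iff.1 h t)

end Vale.Agent.P287Q.H1
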