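import Vale.Agent.P287Q.H1.Easy
import Vale.Agent.P287Q.H1.Trip

/-!
# Principalization: the new exponent is not negative, and the bound for the order survives
-/

open Filter Topology Set Function Asymptotics

noncomputable section

namespace Vale.Agent.P287Q.H1

open Mf

variable {n : ℕ}

/-- generic points of a coordinate subspace -/
theorem freq_Zs {A : Finset (Fin n)} {q : W n} (hq : q ∈ Zs A) :
    ∃ᶠ w in 𝓝 q, ∀ l, w l = 0 ↔ l ∈ A := by
  let ρ : W n → W n := fun z l => if l ∈ A then 0 else z l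
  have h1 : Continuous ρ := continuous_pi fun l => by
    by_cases h : l ∈ A
    · simpa only [ρ, if_pos h] using continuous_const
    · simpa only [ρ, if_neg h] using continuous_apply l
  have h2 : ρ q = q := funext fun l => by
    by_cases h : l ∈ A
    · exact (if_pos h).trans (hq l h).symm
    · exact if_neg h
  have h3 : Tendsto ρ (𝓝[{z : W n | ∀ l, z l ≠ 0}] q) (𝓝 q) := by
    have := h1.tendsto q
    rw [h2] at this
    exact this.mono_left nhdsWithin_le_nhds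
  have := off_neBot q
  refine h3.frequently (Eventually.frequently ?_)
  filter_upwards [self_mem_nhdsWithin] with z hz l
  by_cases h : l ∈ A
  · simp [ρ, h]
  · simp [ρ, h, hz l]

/-- vanishing does not depend on the chart -/
theorem gen_van_co {X : Mf n} {p : X.M} {φ φ' : X.M → W n} (h : X.Co p φ) (h' : X.Co p φ')
    {F F' : W n → ℝ} (e : (fun z => F' (φ' z)) =O[𝓝 p] fun z => F (φ z)) {m : ℕ}
    (k : Van F m (φ p)) : Van F' m (φ' p) :=
  (co_isBigO h').1 ((e.trans ((co_isBigO h).2 k)).trans ((co_theta h' h).pow m).1)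

theorem stGen_ad (hA : StAdapt) : StGen := fun n k D m X E O a C J hD hL hC hB => by
  classical
  obtain ⟨p, hp⟩ := hC.ne
  obtain ⟨c, hc, hS⟩ := hC.snc
  obtain ⟨φ, P, h1, h2⟩ := hB p (hC.sub hp)
  have h3 : ∀ᶠ z in 𝓝 p, z ∈ C → pr k (φ z) = φ z := by
    filter_upwards [hL.supp p (hC.sub hp), h1.ord1 hD.ne'] with z a1 a2 hz
    exact (a2.1 (a1.1 (hC.sub hz))).1
  obtain ⟨φ₁, P₁, A, k1, k2, k3, k4⟩ := hA n k D c X E a _ p φ P C J hD h1 hp h3 hC.lab (hS p hp)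
  have k5 : ¬ Van (nm P₁.g) (m + 1) (φ₁ p) := fun h =>
    h2 (gen_van_co k1.1.1 h1.1.1 k2.symm.isBigO h)
  have k6 : ∀ᶠ w in 𝓝 (φ₁ p), w ∈ Zs A → Van (fun z => ‖mon (ex a P₁.nu) z‖ * nm P₁.g z) D w :=
    (co_ev k1.1.1).1 (by
      filter_upwards [hL.supp p (hC.sub hp), k1.ord1 hD.ne', k3] with z a1 a2 a3 hz
      exact (a2.1 (a1.1 (hC.sub (a3.2 hz)))).2)
  obtain ⟨w, w1, w2, w3, w4⟩ := ((freq_Zs (k3.self_of_nhds.1 hp)).and_eventually
    (k6.and ((not_van_eventually P₁.an k5).and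
      (eventually_all.2 fun i => (P₁.an i).eventually_analyticAt)))).exists
  have w5 := (stOrd n _ _ _ w D w4).1 (w2 fun l hl => (w1 l).2 hl)
  obtain ⟨-, A₀, -, -, s1, -⟩ := hS p hp
  obtain ⟨i, -⟩ := Finset.card_pos.1 (s1 ▸ hc)
  have w6 : (Finset.univ.filter fun l => w l = 0) = A := by
    ext l
    simp [w1 l]
  rw [trip_sum i k4 P₁.inj a]
  by_contra hlt
  refine w3 (w5.mono ?_)
  have w7 : ∑ l with w l = 0, ex a P₁.nu l = ∑ l ∈ A, ex a P₁.nu l := by rw [w6]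
  omega

theorem stBdTr (hU : StUp) (hT : StTrU) (hG : StGen) (hK : StKeyM) : StBdTr :=
  fun n k D m X X' π C E E' O O' J a hD hL hC hπ hE hO hB hV b hb => by
  obtain ⟨b1, b2⟩ := (hO.supp b).1 hb
  obtain ⟨φ, P, h1, h2⟩ := hB _ b1
  have h3 : π b ∈ C → ∀ᶠ z in 𝓝 (π b), z ∈ C → Van (nm P.g) m (φ z) := fun _ => by
    filter_upwards [h1.ev, hL.cmp _ b1, hL.supp _ b1] with z ⟨an, a1⟩ a2 a3 hz
    obtain ⟨φ', P', c1, c2⟩ := hV z hz
    exact ((hK n k D X E a _ z φ φ' _ P' hD a1 (c1.congr (a2 (hC.sub hz)).symm)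
      (a3.1 (hC.sub hz))).1 m).2 c2
  obtain ⟨e, h, u1, u2, u3, u4⟩ := hU n k D m X X' π C E E' O J a b φ P hD hL hC hπ hE b1 h1
    (hG n k D m X E O a C J hD hL hC hB) h3
  have u5 := hT n X X' π C O O' b e h hO b1 u1 u2 u3
  rcases u4 with u4 | ⟨φ', P', v1, -, v3⟩
  · exact (u4.self_of_nhds ((ord1_congr u5).1 b2)).elim
  · exact ⟨φ', P', v1.congr u5, fun k => h2 (v3 k)⟩

end Vale.Agent.P287Q.H1
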