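import Vale.Agent.P287Q.H1.An1

/-!
# P287, resolution: the image of a ball under a chart of a blow-up contains a ball
-/

open Filter Topology Set Metric

noncomputable section

namespace Vale.Agent.P287Q.H1.Gir0

variable {ι : Type} [Fintype ι]

/-- the image of the ball of radius `r` contains a ball of radius `c r |z i|` -/
theorem ball (p : ι → Prop) [DecidablePred p] {i : ι} (hi : ¬ p i) {R r : ℝ} {z w : ι → ℂ}
    (hz : ‖z‖ ≤ R) (h0 : z i ≠ 0) (h1 : ‖z i‖ ≤ 1) (hr : 0 < r) (hr1 : r ≤ 1)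
    (hw : ‖w - fun l => if p l then z i * z l else z l‖ ≤ r * ‖z i‖ / (2 * (R + 1))) :
    ∃ w' : ι → ℂ, (fun l => if p l then w' i * w' l else w' l) = w ∧ ‖w' - z‖ ≤ r ∧
      ‖w' i‖ ≤ 2 * ‖z i‖ ∧ ‖z i‖ ≤ 2 * ‖w' i‖ := by
  have R0 : 0 ≤ R := (norm_nonneg _).trans hz
  have z0 : 0 < ‖z i‖ := norm_pos_iff.2 h0
  set δ : ℝ := r * ‖z i‖ / (2 * (R + 1)) with hδ
  have e : δ * (2 * (R + 1)) = r * ‖z i‖ := div_mul_cancel₀ _ (by positivity)
  have d0 : 0 < δ := by positivity
  have k : ∀ l, ‖w l - if p l then z i * z l else z l‖ ≤ δ := fun l =>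
    (norm_le_pi_norm (w - fun l => if p l then z i * z l else z l) l).trans hw
  have ki : ‖w i - z i‖ ≤ δ := by simpa [hi] using k i
  have d1 : 2 * δ ≤ ‖z i‖ := by nlinarith
  have a1 : ‖w i‖ ≤ ‖z i‖ + δ := by
    have := norm_add_le (z i) (w i - z i)
    rw [add_sub_cancel] at this; linarith
  have a2 : ‖z i‖ ≤ ‖w i‖ + δ := by
    have := norm_sub_le (w i) (w i - z i)
    rw [sub_sub_cancel] at this; linarith
  have w0 : 0 < ‖w i‖ := by linarith
  have w1 : w i ≠ 0 := norm_pos_iff.1 w0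
  refine ⟨fun l => if p l then w l / w i else w l, ?_, ?_, ?_, ?_⟩
  · funext l
    by_cases h : p l
    · simp only [h, hi, if_true, if_false]; field_simp
    · simp only [h, if_false]
  · refine (pi_norm_le_iff_of_nonneg hr.le).2 fun l => ?_
    have kl := k l
    by_cases h : p l
    · simp only [h, if_true, Pi.sub_apply] at kl ⊢
      have e1 : w l / w i - z l = ((w l - z i * z l) - z l * (w i - z i)) / w i := by
        field_simp; ring
      have zl : ‖z l‖ ≤ R := (norm_le_pi_norm z l).trans hz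
      rw [e1, norm_div, div_le_iff₀ w0]
      refine (norm_sub_le _ _).trans ?_
      rw [norm_mul]
      have : ‖z l‖ * ‖w i - z i‖ ≤ R * δ := by gcongr
      nlinarith
    · simp only [h, if_false, Pi.sub_apply] at kl ⊢
      nlinarith
  · simp only [hi, if_false]; linarith
  · simp only [hi, if_false]; linarith

end Vale.Agent.P287Q.H1.Gir0
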