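import Vale.Agent.P287Q.H1.Defs
import Vale.Agent.P287Q.H1.Gir0
import Vale.Agent.P287Q.H1.Adapt0

/-!
# P287, resolution: domination by the differential closure; the lemma of Giraud
-/

open Filter Topology Set Function Asymptotics Metric

noncomputable section

namespace Vale.Agent.P287Q.H1

variable {n : ℕ} {L L' T T' S M : W n → ℝ} {q : W n}

/-- a neighbourhood contains the small balls around the points of a smaller neighbourhood -/
theorem gir_nhds {V : Set (W n)} (hV : V ∈ 𝓝 q) :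
    ∃ ε : ℝ, 0 < ε ∧ ∀ z ∈ ball q ε, ∀ r ≤ ε, ball z r ⊆ V := by
  obtain ⟨ε, hε, h⟩ := Metric.mem_nhds_iff.1 hV
  refine ⟨ε / 2, half_pos hε, fun z hz r hr w hw => h ?_⟩
  rw [mem_ball] at hz hw ⊢
  linarith [dist_triangle w z q]

theorem DomD.refl (T : W n → ℝ) (q : W n) : DomD T T q :=
  ⟨univ, univ_mem, 1, one_pos, fun K => ⟨K, fun z _ _ hr _ h => h z (mem_ball_self hr)⟩⟩

theorem DomD.congr (h : DomD L T q) (hL : L' =O[𝓝 q] L) (hT : T =O[𝓝 q] T') : DomD L' T' q := by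
  obtain ⟨U, hU, r₀, hr, h⟩ := h
  obtain ⟨a, a0, ha⟩ := hL.exists_pos
  obtain ⟨c, c0, hc⟩ := hT.exists_pos
  obtain ⟨ε, hε, hV⟩ := gir_nhds hc.bound
  refine ⟨_, inter_mem (inter_mem hU ha.bound) (ball_mem_nhds q hε), min r₀ ε, lt_min hr hε,
    fun K => ?_⟩
  obtain ⟨C, hC⟩ := h (c * K)
  refine ⟨a * C, fun z hz r r0 r1 hw => ?_⟩
  have h1 := hC z hz.1.1 r r0 (r1.trans (min_le_left _ _)) fun w w1 => by
    have h2 : |T w| ≤ c * |T' w| := hV z hz.2 r (r1.trans (min_le_right _ _)) w1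
    rw [mul_assoc]
    exact h2.trans (mul_le_mul_of_nonneg_left (hw w w1) c0.le)
  have h2 : |L' z| ≤ a * |L z| := hz.1.2
  rw [mul_assoc]
  exact h2.trans (mul_le_mul_of_nonneg_left h1 a0.le)

theorem DomD.of_isBigO (h : L =O[𝓝 q] T) : DomD L T q :=
  (DomD.refl T q).congr h (isBigO_refl _ _)

theorem DomD.left (h : DomD L T q) (hL : L' =O[𝓝 q] L) : DomD L' T q :=
  h.congr hL (isBigO_refl _ _)

theorem DomD.right (h : DomD L T q) (hT : T =O[𝓝 q] T') : DomD L T' q :=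
  h.congr (isBigO_refl _ _) hT

theorem DomD.eventually (h : DomD L T q) : ∀ᶠ b in 𝓝 q, DomD L T b := by
  obtain ⟨U, hU, h⟩ := h
  exact (eventually_eventually_nhds.2 hU).mono fun b hb => ⟨U, hb, h⟩

theorem DomD.trans (h : DomD L T q) (h' : DomD T S q) : DomD L S q := by
  obtain ⟨U, hU, r₀, hr, h⟩ := h
  obtain ⟨U', hU', r₁, hr', h'⟩ := h'
  obtain ⟨ε, hε, hV⟩ := gir_nhds hU'
  refine ⟨_, inter_mem hU (ball_mem_nhds q hε), min (min r₀ r₁) ε, lt_min (lt_min hr hr') hε,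
    fun K => ?_⟩
  obtain ⟨C', hC'⟩ := h' (2 * K)
  obtain ⟨C, hC⟩ := h C'
  refine ⟨C / 2, fun z hz r r0 r1 hw => ?_⟩
  simp only [le_min_iff] at r1
  have h1 := hC z hz.1 (r / 2) (half_pos r0) (by linarith) fun w w1 =>
    hC' w (hV z hz.2 (r / 2) (by linarith) w1) (r / 2) (half_pos r0) (by linarith) fun u u1 => by
      have := hw u (by rw [mem_ball] at w1 u1 ⊢; linarith [dist_triangle u w z])
      linarith
  linarith

theorem DomD.add (h : DomD L T q) (h' : DomD L' T q) : DomD (fun z => L z + L' z) T q := by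
  obtain ⟨U, hU, r₀, hr, h⟩ := h
  obtain ⟨U', hU', r₁, hr', h'⟩ := h'
  refine ⟨_, inter_mem hU hU', min r₀ r₁, lt_min hr hr', fun K => ?_⟩
  obtain ⟨C', hC'⟩ := h' K
  obtain ⟨C, hC⟩ := h K
  refine ⟨C + C', fun z hz r r0 r1 hw => (abs_add_le _ _).trans ?_⟩
  have h1 := hC z hz.1 r r0 (r1.trans (min_le_left _ _)) hw
  have h2 := hC' z hz.2 r r0 (r1.trans (min_le_right _ _)) hw
  linarith

theorem DomD.sum {κ : Type*} (s : Finset κ) {F : κ → W n → ℝ} (h : ∀ i ∈ s, DomD (F i) T q) :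
    DomD (fun z => ∑ i ∈ s, F i z) T q := by
  classical
  induction s using Finset.induction_on with
  | empty => exact DomD.of_isBigO (by simpa using isBigO_zero (E' := ℝ) T (𝓝 q))
  | insert i s hi ih =>
    simp only [Finset.sum_insert hi]
    exact (h i (Finset.mem_insert_self _ _)).add
      (ih fun j hj => h j (Finset.mem_insert_of_mem hj))

/-- the estimate at the points where a majorant of Lipschitz type is small -/
theorem DomD.small (h : DomD L T q) (hT : T =O[𝓝 q] M) (hM : Lip M q) :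
    ∃ C r₀ : ℝ, 0 < r₀ ∧ ∀ᶠ z in 𝓝 q, ∀ r, 0 < r → r ≤ r₀ → |M z| ≤ r → |L z| ≤ C * r := by
  obtain ⟨U, hU, r₀, hr, h⟩ := h.right hT
  obtain ⟨c, c0, hc⟩ := hM.exists_pos
  obtain ⟨ε, hε, hV⟩ := Metric.mem_nhds_iff.1 hc.bound
  obtain ⟨C, hC⟩ := h (c * 2)
  refine ⟨C, min r₀ (ε / 2), lt_min hr (half_pos hε), ?_⟩
  filter_upwards [hU, ball_mem_nhds q (half_pos hε)] with z z1 z2 r r0 r1 hz
  rw [le_min_iff] at r1
  refine hC z z1 r r0 r1.1 fun w w1 => ?_
  have h1 : |M w| ≤ c * |(|M z| + ‖w - z‖)| := hV (a := (z, w)) (by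
    rw [mem_ball] at z2 w1
    rw [mem_ball, Prod.dist_eq, max_lt_iff]
    exact ⟨by linarith, by linarith [dist_triangle w z q]⟩)
  rw [abs_of_nonneg (a := |M z| + ‖w - z‖) (by positivity)] at h1
  rw [mem_ball_iff_norm] at w1
  rw [mul_assoc]
  exact h1.trans (mul_le_mul_of_nonneg_left (by linarith) c0.le)

theorem Lip.bdd (hM : Lip M q) : ∃ B : ℝ, 0 < B ∧ ∀ᶠ z in 𝓝 q, |M z| ≤ B := by
  obtain ⟨c, c0, hc⟩ := hM.exists_pos
  have h1 : Tendsto (fun z : W n => (q, z)) (𝓝 q) (𝓝 (q, q)) :=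
    (continuous_const.prodMk continuous_id).tendsto q
  refine ⟨c * (|M q| + 1), by positivity, ?_⟩
  filter_upwards [h1.eventually hc.bound, ball_mem_nhds q one_pos] with z hz z1
  have h2 : |M z| ≤ c * |(|M q| + ‖z - q‖)| := hz
  rw [abs_of_nonneg (a := |M q| + ‖z - q‖) (by positivity)] at h2
  rw [mem_ball_iff_norm] at z1
  exact h2.trans (mul_le_mul_of_nonneg_left (by linarith) c0.le)

theorem DomD.bdd (h : DomD L T q) {B : ℝ} (hT : ∀ᶠ z in 𝓝 q, |T z| ≤ B) :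
    ∃ B' : ℝ, ∀ᶠ z in 𝓝 q, |L z| ≤ B' := by
  obtain ⟨U, hU, r₀, hr, h⟩ := h
  obtain ⟨ε, hε, hV⟩ := gir_nhds hT
  have r0 : 0 < min r₀ ε := lt_min hr hε
  obtain ⟨C, hC⟩ := h (B / min r₀ ε)
  refine ⟨C * min r₀ ε, ?_⟩
  filter_upwards [hU, ball_mem_nhds q hε] with z z1 z2
  refine hC z z1 _ r0 (min_le_left _ _) fun w w1 => ?_
  rw [div_mul_cancel₀ _ r0.ne']
  exact hV z z2 _ (min_le_right _ _) w1

/-- `L` is bounded by every majorant of `T` of Lipschitz type -/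
theorem DomD.isBigO (h : DomD L T q) (hT : T =O[𝓝 q] M) (hM : Lip M q) : L =O[𝓝 q] M := by
  obtain ⟨C, r₀, hr, h1⟩ := h.small hT hM
  obtain ⟨B, -, hB⟩ := hM.bdd
  obtain ⟨c, c0, hc⟩ := hT.exists_pos
  obtain ⟨B', hB'⟩ := h.bdd (B := c * B) (by
    filter_upwards [hc.bound, hB] with z z1 z2
    exact z1.trans (mul_le_mul_of_nonneg_left z2 c0.le))
  refine IsBigO.of_bound (|C| + |B'| / r₀) ?_
  filter_upwards [h1, hB'] with z z1 z2
  rw [Real.norm_eq_abs, Real.norm_eq_abs, add_mul]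
  have p1 : 0 ≤ |C| * |M z| := by positivity
  have p2 : 0 ≤ |B'| / r₀ * |M z| := by positivity
  by_cases hz : |M z| < r₀
  · have h2 : |L z| ≤ |C| * |M z| := by
      have h3 : Tendsto (fun r : ℝ => |C| * r) (𝓝[>] |M z|) (𝓝 (|C| * |M z|)) :=
        ((continuous_const.mul continuous_id).tendsto _).mono_left nhdsWithin_le_nhds
      refine ge_of_tendsto h3 ?_
      filter_upwards [Ioo_mem_nhdsGT hz] with r hr'
      have r0 : 0 < r := (abs_nonneg _).trans_lt hr'.1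
      exact (z1 r r0 hr'.2.le hr'.1.le).trans (mul_le_mul_of_nonneg_right (le_abs_self C) r0.le)
    linarith
  · have h2 : |B'| ≤ |B'| / r₀ * |M z| := by
      rw [div_mul_eq_mul_div, le_div_iff₀ hr]
      exact mul_le_mul_of_nonneg_left (not_lt.1 hz) (abs_nonneg _)
    linarith [le_abs_self B']

theorem lip_norm (b q : W n) : Lip (fun z => ‖z - b‖) q :=
  IsBigO.of_bound 1 (Eventually.of_forall fun p => by
    rw [one_mul, norm_norm, Real.norm_of_nonneg (by positivity), abs_norm]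
    simpa using norm_add_le (p.1 - b) (p.2 - p.1))

/-- vanishing to order one is inherited -/
theorem DomD.ord (h : DomD L T q) (hT : T =O[𝓝 q] fun z => ‖z - q‖) :
    L =O[𝓝 q] fun z => ‖z - q‖ := h.isBigO hT (lip_norm q q)

/-- change of coordinates -/
theorem DomD.comp {θ : W n → W n} (hθ : IsCo θ q) (h : DomD L T (θ q)) :
    DomD (L ∘ θ) (T ∘ θ) q := by
  obtain ⟨U, hU, r₀, hr, h⟩ := h
  obtain ⟨ψ, ψa, h1, h2⟩ := ift hθ.1 hθ.2.1
  obtain ⟨k, V, hV, hk⟩ := (ψa.contDiffAt (n := 1)).exists_lipschitzOnWith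
  obtain ⟨ε, hε, hE⟩ := gir_nhds (inter_mem hV h2)
  have k0 : (0 : ℝ) < k + 1 := by positivity
  refine ⟨_, inter_mem (inter_mem (hθ.1.continuousAt hU) h1)
    (hθ.1.continuousAt (ball_mem_nhds _ hε)), min r₀ ε, lt_min hr hε, fun K => ?_⟩
  obtain ⟨C, hC⟩ := h (K * (k + 1))
  refine ⟨C / (k + 1), fun z hz r r0 r1 hw => ?_⟩
  rw [le_min_iff] at r1
  have r2 : 0 < r / (k + 1) := by positivity
  have r3 : r / (k + 1) ≤ r := div_le_self r0.le (by linarith [k.coe_nonneg])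
  have h3 := hC (θ z) hz.1.1 _ r2 (r3.trans r1.1) fun w w1 => by
    have a1 := hE _ hz.2 _ (r3.trans r1.2) w1
    have a2 := hE _ hz.2 _ (r3.trans r1.2) (mem_ball_self r2)
    have a3 := hk.dist_le_mul _ a1.1 _ a2.1
    have a4 : ψ (θ z) = z := hz.1.2
    have a5 : θ (ψ w) = w := a1.2
    rw [a4] at a3
    rw [mem_ball, lt_div_iff₀ k0] at w1
    have a6 := hw (ψ w) (by
      rw [mem_ball]; nlinarith [dist_nonneg (x := w) (y := θ z)])
    rw [comp_apply, a5] at a6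
    refine a6.trans (le_of_eq ?_)
    field_simp
  refine h3.trans (le_of_eq ?_)
  field_simp

theorem gir_cont (A : Finset (Fin n)) (i : Fin n) : Continuous (σ A i : W n → W n) :=
  continuous_pi fun l => by
    unfold σ
    split_ifs
    · exact (continuous_apply i).mul (continuous_apply l)
    · exact continuous_apply l

theorem gir_neBot (i : Fin n) (z : W n) : (𝓝[{w : W n | w i ≠ 0}] z).NeBot := by
  have d : Dense (Set.pi univ fun _ : Fin n => ({0}ᶜ : Set ℂ)) :=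
    dense_pi univ fun _ _ => dense_compl_singleton 0
  have d' : Dense {w : W n | w i ≠ 0} := by
    refine Dense.mono ?_ d
    exact fun w hw => hw i trivial
  exact mem_closure_iff_nhdsWithin_neBot.1 (d' z)

/-- **The lemma of Giraud**: domination survives the controlled transform -/
theorem DomD.giraud {A : Finset (Fin n)} {i : Fin n} {b : W n} (hb : b i = 0)
    (h : DomD L T (σ A i b)) (hc : ∀ᶠ z in 𝓝 b, ContinuousAt L' z)
    (hL : (fun z => ‖z i‖ * L' z) =O[𝓝 b] (L ∘ σ A i))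
    (hT : (T ∘ σ A i) =O[𝓝 b] fun z => ‖z i‖ * T' z) : DomD L' T' b := by
  obtain ⟨U, hU, r₀, hr, h⟩ := h
  obtain ⟨a, a0, ha⟩ := hL.exists_pos
  obtain ⟨c, c0, hc'⟩ := hT.exists_pos
  have h1 : ∀ᶠ z in 𝓝 b, ‖z i‖ < 1 :=
    (continuous_apply i).norm.continuousAt.eventually_lt continuousAt_const (by simp [hb])
  have h2 : ∀ᶠ z in 𝓝 b, ‖z‖ < ‖b‖ + 1 :=
    continuous_norm.continuousAt.eventually_lt continuousAt_const (lt_add_one _)
  obtain ⟨ε, hε, hV⟩ := gir_nhds (((hc.and hc'.bound).and (ha.bound.and (h1.and h2))).and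
    ((gir_cont A i).continuousAt hU))
  set R : ℝ := ‖b‖ + 1 with hR
  have R0 : 0 < R := by positivity
  refine ⟨_, ball_mem_nhds b hε, min (min r₀ 1) ε, lt_min (lt_min hr one_pos) hε, fun K => ?_⟩
  obtain ⟨C, hC⟩ := h (c * 2 * |K| * (8 * (R + 1)))
  refine ⟨a * |C|, fun z hz r r0 r1 hw => ?_⟩
  simp only [le_min_iff] at r1
  have V := hV z hz r r1.2
  have := gir_neBot i z
  refine le_of_tendsto ((V (mem_ball_self r0)).1.1.1.tendsto.abs.mono_left
    (nhdsWithin_le_nhds (s := {w : W n | w i ≠ 0}))) ?_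
  filter_upwards [mem_nhdsWithin_of_mem_nhds (ball_mem_nhds z (half_pos r0)),
    self_mem_nhdsWithin] with u hu u0
  have u1 : u ∈ ball z r := ball_subset_ball (by linarith) hu
  obtain ⟨⟨-, b1, b2, b3⟩, b4⟩ := V u1
  have u2 : 0 < ‖u i‖ := norm_pos_iff.2 u0
  set δ : ℝ := r / 4 * ‖u i‖ / (2 * (R + 1)) with hδ
  have d0 : 0 < δ := by positivity
  have e : δ * (8 * (R + 1)) = r * ‖u i‖ := by rw [hδ]; field_simp; ring
  have d1 : δ ≤ r * ‖u i‖ := by nlinarith
  have h3 := hC (σ A i u) b4 δ d0 (by nlinarith) fun w w1 => by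
    obtain ⟨w', e1, e2, e3, -⟩ := Gir0.ball (fun l => l ∈ A ∧ l ≠ i) (i := i) (by simp) b3.le u0
      b2.le (r := r / 4) (by linarith) (by linarith) (mem_ball_iff_norm.1 w1).le
    have e4 : w' ∈ ball z r := by
      rw [mem_ball] at hu ⊢
      rw [← dist_eq_norm] at e2
      linarith [dist_triangle w' u z]
    have e5 : |T (σ A i w')| ≤ c * |‖w' i‖ * T' w'| := (V e4).1.1.2
    have e6 : σ A i w' = w := e1
    rw [e6, abs_mul, abs_norm] at e5
    have e7 : |T' w'| ≤ |K| * r :=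
      (hw w' e4).trans (mul_le_mul_of_nonneg_right (le_abs_self K) r0.le)
    refine e5.trans ?_
    calc c * (‖w' i‖ * |T' w'|) ≤ c * (2 * ‖u i‖ * (|K| * r)) := by gcongr
      _ = c * 2 * |K| * (r * ‖u i‖) := by ring
      _ = _ := by rw [← e]; ring
  have h4 : |‖u i‖ * L' u| ≤ a * |L (σ A i u)| := b1
  rw [abs_mul, abs_norm] at h4
  have h5 : |L (σ A i u)| ≤ |C| * (r * ‖u i‖) :=
    h3.trans (mul_le_mul (le_abs_self C) d1 d0.le (abs_nonneg _))
  refine le_of_mul_le_mul_left (h4.trans ?_) u2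
  calc a * |L (σ A i u)| ≤ a * (|C| * (r * ‖u i‖)) := by gcongr
    _ = _ := by ring

/-- the same for a function which is comparable with a continuous one -/
theorem DomD.giraud' {A : Finset (Fin n)} {i : Fin n} {b : W n} (hb : b i = 0)
    (h : DomD L T (σ A i b)) {g : W n → ℝ} (hc : ∀ᶠ z in 𝓝 b, ContinuousAt g z)
    (hg : L' =O[𝓝 b] g) (hL : (fun z => ‖z i‖ * g z) =O[𝓝 b] (L ∘ σ A i))
    (hT : (T ∘ σ A i) =O[𝓝 b] fun z => ‖z i‖ * T' z) : DomD L' T' b :=
  (h.giraud hb hc hL hT).left hg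

/-- the pointwise bound survives the controlled transform -/
theorem gir_isBigO {i : Fin n} {b : W n} {f g : W n → ℝ} (hf : ∀ᶠ z in 𝓝 b, ContinuousAt f z)
    (hg : ∀ᶠ z in 𝓝 b, ContinuousAt g z)
    (h : (fun z => ‖z i‖ * f z) =O[𝓝 b] fun z => ‖z i‖ * g z) : f =O[𝓝 b] g := by
  obtain ⟨c, hc⟩ := h.bound
  refine IsBigO.of_bound c ?_
  filter_upwards [hf, hg, hc.eventually_nhds] with z h1 h2 h3
  have := gir_neBot i z
  refine le_of_tendsto_of_tendsto (h1.tendsto.norm.mono_left nhdsWithin_le_nhds)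
    ((h2.tendsto.norm.const_mul c).mono_left nhdsWithin_le_nhds)
    (b := 𝓝[{w : W n | w i ≠ 0}] z) ?_
  filter_upwards [mem_nhdsWithin_of_mem_nhds h3, self_mem_nhdsWithin] with u hu u0
  rw [norm_mul, norm_mul, norm_norm, mul_left_comm] at hu
  exact le_of_mul_le_mul_left hu (norm_pos_iff.2 u0)

end Vale.Agent.P287Q.H1
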