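import Vale.Agent.P287Q.H1.St
import Vale.Agent.P287Q.H1.Gir
import Vale.Agent.P287Q.H1.Bas

/-!
# P287, resolution: the lemma of Giraud in arbitrary charts
-/

open Filter Topology Set Function Asymptotics

noncomputable section

namespace Vale.Agent.P287Q.H1

open Mf

variable {n : ℕ} {L L' T T' : W n → ℝ} {q : W n}

theorem Lip.comp {θ : W n → W n} (hθ : AnalyticAt ℂ θ q) (h : Lip L (θ q)) : Lip (L ∘ θ) q := by
  have h1 : Tendsto (fun p : W n × W n => p.1) (𝓝 (q, q)) (𝓝 q) := continuous_fst.tendsto _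
  have h2 : Tendsto (fun p : W n × W n => p.2) (𝓝 (q, q)) (𝓝 q) := continuous_snd.tendsto _
  have h3 : Tendsto (fun p : W n × W n => (θ p.1, θ p.2)) (𝓝 (q, q)) (𝓝 (θ q, θ q)) :=
    (hθ.continuousAt.tendsto.comp h1).prodMk_nhds (hθ.continuousAt.tendsto.comp h2)
  refine (IsBigO.comp_tendsto h h3).trans (IsBigO.add ?_ ((lip_pair hθ h2 h1).trans ?_))
  · exact isBigO_add_left (Eventually.of_forall fun _ => abs_nonneg _)
      (Eventually.of_forall fun _ => norm_nonneg _)
  · exact isBigO_add_right (Eventually.of_forall fun _ => abs_nonneg _)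
      (Eventually.of_forall fun _ => norm_nonneg _)

theorem Lip.eventually (h : Lip L q) : ∀ᶠ z in 𝓝 q, Lip L z :=
  ((continuous_id.prodMk continuous_id).tendsto q).eventually (bigO_ev h)

theorem DomD.of_comp {θ : W n → W n} (hθ : IsCo θ q) (h : DomD (L ∘ θ) (T ∘ θ) q) :
    DomD L T (θ q) := by
  obtain ⟨ψ, h1, h2, -, h4⟩ := hθ.inv
  have h5 := DomD.comp h1 (L := L ∘ θ) (T := T ∘ θ) (by rwa [h2])
  refine h5.congr (EventuallyEq.isBigO ?_) (EventuallyEq.isBigO ?_)
  · exact h4.mono fun w hw => (congrArg L hw).symm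
  · exact h4.mono fun w hw => congrArg T hw

theorem stDom : StDom := fun _ _ _ _ =>
  ⟨fun h _ _ => h.congr, DomD.eventually,
    fun h k => by simpa only [Van, pow_one] using h.ord (by simpa only [Van, pow_one] using k),
    fun h _ h1 _ h2 => h.isBigO h2 h1, fun _ _ h1 h2 h => DomD.comp h1 (h2 ▸ h),
    fun _ _ h1 h2 h => Lip.comp h1.1 (h2 ▸ h), Lip.eventually⟩

/-- outside the exceptional hyperplane the chart is a local isomorphism -/
theorem girM_co (A : Finset (Fin n)) {i : Fin n} {b : W n} (hb : b i ≠ 0) : IsCo (σ A i) b := by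
  refine isCo_of_left (ψ := fun w l => if l ∈ A ∧ l ≠ i then w l / w i else w l) (σ_an A i b)
    (AnalyticAt.pi fun l => ?_) ?_
  · split_ifs
    · exact (an_crd l _).div (an_crd i _) (by rwa [σ_eq, sg_self])
    · exact an_crd l _
  · filter_upwards [(continuous_apply i).continuousAt.eventually_ne hb] with z hz
    funext l
    split_ifs with h
    · rw [σ_eq, sg_self, sg_of_mem z h.1 h.2, mul_div_cancel_left₀ _ hz]
    · simp only [σ, if_neg h]

/-- a continuous factor without zero does not matter -/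
theorem girM_unit {α : Type*} [TopologicalSpace α] {a : α} {e : α → ℂ} (h : ContinuousAt e a)
    (h0 : e a ≠ 0) (f : α → ℝ) : (fun z => ‖e z‖ * f z) =Θ[𝓝 a] f := by
  have h1 : e =Θ[𝓝 a] fun _ => (1 : ℂ) :=
    ⟨isBigO_of_ne continuousAt_const h one_ne_zero, isBigO_of_ne h continuousAt_const h0⟩
  simpa using (h1.norm_left.norm_right).mul (isTheta_refl f _)

/-- the lemma of Giraud at every point of the chart -/
theorem girM_all {A : Finset (Fin n)} {i : Fin n} {b : W n} (h : DomD L T (σ A i b))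
    (hL : (fun z => ‖z i‖ * L' z) =O[𝓝 b] (L ∘ σ A i))
    (hT : (T ∘ σ A i) =O[𝓝 b] fun z => ‖z i‖ * T' z) (hc : ∀ᶠ z in 𝓝 b, ContinuousAt L' z) :
    DomD L' T' b := by
  by_cases hb : b i = 0
  · exact h.giraud hb hc hL hT
  · exact (h.comp (girM_co A hb)).congr
      ((girM_unit (an_crd i b).continuousAt hb L').2.trans hL)
      (hT.trans (girM_unit (an_crd i b).continuousAt hb T').1)

theorem stGir : StGir := fun _ _ _ _ _ _ _ _ _ => girM_all

theorem stGirM : StGirM := by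
  intro n c X X' π C E J b φ φ' e L T L' T' hπ hC h1 h2 he h hL hT hc
  have hπb : Tendsto π (𝓝 b) (𝓝 (π b)) := hπ.cont.tendsto b
  by_cases hb : π b ∈ C
  · obtain ⟨φ₀, A, -, a1, -, a2, -⟩ := hC hb
    obtain ⟨i, hi, φ₁, b1, b2⟩ := hπ.ovr b hb φ₀ A a1 a2
    obtain ⟨θ, c1, c2⟩ := X.tr _ φ₀ φ a1 h1
    obtain ⟨θ₁, d1, d2⟩ := X'.tr _ φ₁ φ' b1 h2
    have e0 : φ₀ (π b) = σ A i (φ₁ b) := b2.self_of_nhds
    have e1 : φ (π b) = θ (φ₀ (π b)) := c2.self_of_nhds
    have e2 : φ' b = θ₁ (φ₁ b) := d2.self_of_nhds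
    have e3 : ∀ᶠ z in 𝓝 b, φ (π z) = θ (σ A i (φ₁ z)) := by
      filter_upwards [hπb.eventually c2, b2] with z z1 z2
      exact z1.trans (congrArg θ z2)
    have e4 : X'.Eqn (π ⁻¹' C) b fun z => φ₁ z i := .inr ⟨φ₁, i, b1, rfl, by
      filter_upwards [hπb.eventually a2, b2] with z z1 z2
      rw [mem_preimage, z1, ← σ_mem_Zs hi]
      exact iff_of_eq (congrArg (· ∈ Zs A) z2)⟩
    have e5 := (he.isTheta e4).norm_left.norm_right
    rw [e2] at hc ⊢
    rw [e1] at h
    have h3 := h.comp c1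
    rw [e0] at h3
    refine DomD.of_comp d1 (girM_all h3 ((co_isBigO b1).1 ?_) ((co_isBigO b1).1 ?_) ?_)
    · refine IsBigO.congr' ((e5.2.mul (isBigO_refl _ _)).trans hL) ?_ ?_
      · exact d2.mono fun z hz => congrArg (fun w => ‖φ₁ z i‖ * L' w) hz
      · exact e3.mono fun z hz => congrArg L hz
    · refine IsBigO.congr' (hT.trans (e5.1.mul (isBigO_refl _ _))) ?_ ?_
      · exact e3.mono fun z hz => congrArg T hz
      · exact d2.mono fun z hz => congrArg (fun w => ‖φ₁ z i‖ * T' w) hz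
    · filter_upwards [d1.tendsto.eventually hc, d1.1.eventually_analyticAt] with z z1 z2
      exact z1.comp z2.continuousAt
  · obtain ⟨θ, c1, c2⟩ := X'.tr _ φ' _ h2 (hπ.off b hb φ h1)
    have e1 : φ (π b) = θ (φ' b) := c2.self_of_nhds
    have e2 : e b ≠ 0 := fun k => hb (he.zero.self_of_nhds.2 k)
    have e3 := he.cont.self_of_nhds
    rw [e1] at h
    refine (h.comp c1).congr ((co_isBigO h2).1 ?_) ((co_isBigO h2).1 ?_)
    · exact ((girM_unit e3 e2 _).2.trans hL).congr' EventuallyEq.rfl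
        (c2.mono fun z hz => congrArg L hz)
    · exact (hT.trans (girM_unit e3 e2 _).1).congr' (c2.mono fun z hz => congrArg T hz)
        EventuallyEq.rfl

end Vale.Agent.P287Q.H1
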