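import Vale.Agent.P277Z.Hir.LB

/-!
# P287, resolution: two presentations of a size function, in the model space
-/

open Filter Topology Set Function Asymptotics

noncomputable section

set_option linter.unusedSectionVars false

namespace Vale.Agent.P287Q.H1.Key0

open Vale.Agent.P277Z.Hir.L (IsCo)

variable {ι : Type} [Fintype ι] [DecidableEq ι]

/-- the coordinates in `T` are replaced by zero -/
def pr (T : Finset ι) (z : ι → ℂ) : ι → ℂ := fun l => if l ∈ T then 0 else z l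

/-- the size of the coordinates in `T` -/
def nx (T : Finset ι) (z : ι → ℂ) : ℝ := ∑ l ∈ T, ‖z l‖

theorem nx_nonneg (T : Finset ι) (z : ι → ℂ) : 0 ≤ nx T z :=
  Finset.sum_nonneg fun _ _ => norm_nonneg _

theorem pr_pr (T : Finset ι) (z : ι → ℂ) : pr T (pr T z) = pr T z := by
  funext l; simp only [pr]; split_ifs <;> rfl

theorem nx_pr (T : Finset ι) (z : ι → ℂ) : nx T (pr T z) = 0 :=
  Finset.sum_eq_zero fun l hl => by simp [pr, hl]

theorem pr_self {T : Finset ι} {q : ι → ℂ} (hq : ∀ l ∈ T, q l = 0) : pr T q = q := by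
  funext l; simp only [pr]; split_ifs with h
  · exact (hq l h).symm
  · rfl

theorem pr_congr {T : Finset ι} {z w : ι → ℂ} (h : ∀ l ∉ T, z l = w l) : pr T z = pr T w := by
  funext l; simp only [pr]; split_ifs with h'
  · rfl
  · exact h l h'

theorem an_pr (T : Finset ι) (q : ι → ℂ) : AnalyticAt ℂ (pr T) q := by
  refine analyticAt_pi_iff.2 fun l => ?_
  by_cases h : l ∈ T
  · simpa only [pr, h, if_true] using analyticAt_const
  · simp only [pr, h, if_false]
    exact (ContinuousLinearMap.proj (R := ℂ) (φ := fun _ : ι => ℂ) l).analyticAt q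

theorem norm_sub_pr (T : Finset ι) (z : ι → ℂ) : ‖z - pr T z‖ ≤ nx T z := by
  refine (pi_norm_le_iff_of_nonneg (nx_nonneg T z)).2 fun l => ?_
  by_cases h : l ∈ T
  · simp only [pr, h, Pi.sub_apply, if_true, sub_zero]
    exact Finset.single_le_sum (f := fun l => ‖z l‖) (fun _ _ => norm_nonneg _) h
  · simpa [pr, h] using nx_nonneg T z

theorem nx_le (T : Finset ι) (z : ι → ℂ) : nx T z ≤ T.card * ‖z - pr T z‖ := by
  rw [nx, ← nsmul_eq_mul]
  refine Finset.sum_le_card_nsmul _ _ _ fun l hl => ?_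
  simpa [pr, hl] using norm_le_pi_norm (z - pr T z) l

theorem nx_isBigO {X : Type*} {F : Filter X} {T : Finset ι} {β : X → ι → ℂ} {ρ : X → ℝ}
    (h : ∀ l ∈ T, (fun z => β z l) =O[F] ρ) : (fun z => nx T (β z)) =O[F] ρ :=
  (IsBigO.sum (s := T) fun l hl => (h l hl).norm_left).congr_left fun z => by
    simp only [Finset.sum_apply, nx]

theorem isBigO_nx {X : Type*} {F : Filter X} {T : Finset ι} (β : X → ι → ℂ) {l : ι} (hl : l ∈ T) :
    (fun z => β z l) =O[F] fun z => nx T (β z) :=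
  IsBigO.of_bound 1 (Eventually.of_forall fun z => by
    rw [one_mul, Real.norm_of_nonneg (nx_nonneg _ _)]
    exact Finset.single_le_sum (f := fun l => ‖β z l‖) (fun _ _ => norm_nonneg _) hl)

theorem le_add_left' {X : Type*} {F : Filter X} {f g : X → ℝ} (hf : ∀ z, 0 ≤ f z)
    (hg : ∀ z, 0 ≤ g z) : f =O[F] fun z => f z + g z :=
  IsBigO.of_bound 1 (Eventually.of_forall fun z => by
    rw [one_mul, Real.norm_of_nonneg (hf z), Real.norm_of_nonneg (add_nonneg (hf z) (hg z))]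
    exact le_add_of_nonneg_right (hg z))

theorem le_add_right' {X : Type*} {F : Filter X} {f g : X → ℝ} (hf : ∀ z, 0 ≤ f z)
    (hg : ∀ z, 0 ≤ g z) : g =O[F] fun z => f z + g z := by
  simpa only [add_comm] using le_add_left' (F := F) hg hf

/-- an analytic map is Lipschitz near the point -/
theorem lip {X : Type*} {F : Filter X} {Φ : (ι → ℂ) → ι → ℂ} {q : ι → ℂ} (h : AnalyticAt ℂ Φ q)
    {a b : X → ι → ℂ} (ha : Tendsto a F (𝓝 q)) (hb : Tendsto b F (𝓝 q)) :
    (fun z => Φ (a z) - Φ (b z)) =O[F] fun z => a z - b z := by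
  have h1 := h.hasStrictFDerivAt.isBigO_sub
  exact h1.comp_tendsto (k := fun z => (a z, b z)) (ha.prodMk_nhds hb)

/-- a coordinate system is bi-Lipschitz near the point -/
theorem lip' {X : Type*} {F : Filter X} {Φ : (ι → ℂ) → ι → ℂ} {q : ι → ℂ} (h : IsCo Φ q)
    {a b : X → ι → ℂ} (ha : Tendsto a F (𝓝 q)) (hb : Tendsto b F (𝓝 q)) :
    (fun z => a z - b z) =O[F] fun z => Φ (a z) - Φ (b z) := by
  obtain ⟨Ψ, h1, -, h3, -⟩ := h.exists_inv
  have h4 := lip h1.1 (h.1.continuousAt.tendsto.comp ha) (h.1.continuousAt.tendsto.comp hb)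
  refine h4.congr' ?_ EventuallyEq.rfl
  filter_upwards [ha.eventually h3, hb.eventually h3] with z e1 e2
  simp only [comp_apply, e1, e2]

/-- the retraction onto `{v_T = 0}` along the fibres of the other coordinates -/
theorem exists_ret {v : (ι → ℂ) → ι → ℂ} {q : ι → ℂ} (hv : IsCo v q) {T : Finset ι}
    (hq : ∀ l ∈ T, v q l = 0) : ∃ p : (ι → ℂ) → ι → ℂ, AnalyticAt ℂ p q ∧ p q = q ∧
      ∀ᶠ z in 𝓝 q, v (p z) = pr T (v z) := by
  obtain ⟨Ψ, h1, h2, -, h4⟩ := hv.exists_inv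
  have e : pr T (v q) = v q := pr_self hq
  have a1 : AnalyticAt ℂ (fun z => pr T (v z)) q := (an_pr T _).comp hv.1
  refine ⟨fun z => Ψ (pr T (v z)), AnalyticAt.comp (g := Ψ) (by rw [e]; exact h1.1) a1,
    by simp only [e, h2], ?_⟩
  have t1 : Tendsto (fun z => pr T (v z)) (𝓝 q) (𝓝 (v q)) := by
    have := a1.continuousAt.tendsto
    rwa [e] at this
  exact t1.eventually h4

/-- **MOVE**: the coordinates in `T` may be replaced by others which are bounded by `ρ` -/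
theorem move {v β : (ι → ℂ) → ι → ℂ} {q : ι → ℂ} (hv : IsCo v q) (hβ : IsCo β q) {T : Finset ι}
    (hq : ∀ l ∈ T, v q l = 0) (he : ∀ z, ∀ l ∉ T, β z l = v z l) {ρ σ : (ι → ℂ) → ℝ}
    (hσ : ∀ z, 0 ≤ σ z) (h : ρ =Θ[𝓝 q] fun z => nx T (v z) + σ (pr T (v z)))
    (hb : ∀ l ∈ T, (fun z => β z l) =O[𝓝 q] ρ) :
    ρ =Θ[𝓝 q] fun z => nx T (β z) + σ (pr T (v z)) := by
  obtain ⟨p, p1, p2, p3⟩ := exists_ret hv hq
  have tp : Tendsto p (𝓝 q) (𝓝 q) := by
    have := p1.continuousAt.tendsto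
    rwa [p2] at this
  have s0 : ∀ z, 0 ≤ σ (pr T (v z)) := fun z => hσ _
  have k1 : (fun z => ρ (p z)) =O[𝓝 q] fun z => σ (pr T (v z)) := by
    refine (h.1.comp_tendsto tp).congr' EventuallyEq.rfl ?_
    filter_upwards [p3] with z hz
    simp only [comp_apply, hz, pr_pr, nx_pr, zero_add]
  have k2 : (fun z => β z - β (p z)) =O[𝓝 q] fun z => nx T (β z) + σ (pr T (v z)) := by
    refine isBigO_pi.2 fun l => ?_
    by_cases hl : l ∈ T
    · refine IsBigO.sub ((isBigO_nx β hl).trans (le_add_left' (fun z => nx_nonneg _ _) s0)) ?_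
      exact (((hb l hl).comp_tendsto tp).trans k1).trans
        (le_add_right' (fun z => nx_nonneg _ _) s0)
    · refine (isBigO_zero _ _).congr' ?_ EventuallyEq.rfl
      filter_upwards [p3] with z hz
      simp only [Pi.sub_apply, he _ l hl, hz, pr, hl, if_false, sub_self]
  have k3 : (fun z => nx T (v z)) =O[𝓝 q] fun z => nx T (β z) + σ (pr T (v z)) := by
    have a := (lip hv.1 tendsto_id tp).trans ((lip' hβ tendsto_id tp).trans k2)
    refine nx_isBigO fun l hl => (isBigO_pi.1 a l).congr' ?_ EventuallyEq.rfl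
    filter_upwards [p3] with z hz
    simp only [id, Pi.sub_apply, hz, pr, hl, if_true, sub_zero]
  refine ⟨h.1.trans (k3.add (le_add_right' (fun z => nx_nonneg _ _) s0)), ?_⟩
  exact (nx_isBigO hb).add ((le_add_right' (fun z => nx_nonneg _ _) s0).trans h.2)

theorem theta_comp {X Y : Type*} {F : Filter X} {G : Filter Y} {f g : X → ℝ} (h : f =Θ[F] g)
    {k : Y → X} (hk : Tendsto k G F) : (fun z => f (k z)) =Θ[G] fun z => g (k z) :=
  ⟨h.1.comp_tendsto hk, h.2.comp_tendsto hk⟩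

/-- a pencil of endomorphisms through a bijective one -/
theorem pen {V : Type*} [AddCommGroup V] [Module ℂ V] [FiniteDimensional ℂ V] (a b : V →ₗ[ℂ] V)
    (ha : Bijective a) : {t : ℂ | t ≠ 0 ∧ ¬ Bijective (a + t • b)}.Finite := by
  obtain ⟨u, rfl⟩ := (Module.End.isUnit_iff a).2 ha
  have h1 := Module.End.finite_spectrum (K := ℂ) (-((↑u⁻¹ : Module.End ℂ V) * b))
  refine (h1.preimage (f := fun t : ℂ => t⁻¹) (inv_injective.injOn)).subset fun t ht => ?_
  rw [mem_preimage, spectrum.mem_iff]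
  intro h
  refine ht.2 ((Module.End.isUnit_iff _).1 ?_)
  have e : (u : Module.End ℂ V) + t • b = t • ((u : Module.End ℂ V) *
      (algebraMap ℂ (Module.End ℂ V) t⁻¹ - -((↑u⁻¹ : Module.End ℂ V) * b))) := by
    rw [sub_neg_eq_add, mul_add, ← mul_assoc, Units.mul_inv, one_mul, smul_add,
      Algebra.algebraMap_eq_smul_one, mul_smul_comm, mul_one, smul_smul, mul_inv_cancel₀ ht.1,
      one_smul]
  rw [e, Algebra.smul_def]
  exact ((IsUnit.mk0 t ht.1).map _).mul (u.isUnit.mul h)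

theorem pen' {v w : (ι → ℂ) → ι → ℂ} {q : ι → ℂ} (hv : IsCo v q) (hw : AnalyticAt ℂ w q) :
    {t : ℂ | t ≠ 0 ∧ ¬ IsCo (fun z => v z + t • w z) q}.Finite := by
  refine (pen (fderiv ℂ v q).toLinearMap (fderiv ℂ w q).toLinearMap hv.2).subset fun t ht =>
    ⟨ht.1, fun h => ht.2 ⟨hv.1.add (hw.const_smul (c := t)), ?_⟩⟩
  have e := (hv.1.differentiableAt.hasFDerivAt.add
    (hw.differentiableAt.hasFDerivAt.const_smul t)).fderiv
  have e' : fderiv ℂ (fun z => v z + t • w z) q = fderiv ℂ v q + t • fderiv ℂ w q := e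
  rw [e']
  exact h

/-- the functions `w · (e l)` at the places `l ∈ T`, zero elsewhere -/
def put {T T' : Finset ι} (e : T ≃ T') (w : ι → ℂ) : ι → ℂ :=
  fun l => if h : l ∈ T then w (e ⟨l, h⟩) else 0

theorem an_put {T T' : Finset ι} (e : T ≃ T') {w : (ι → ℂ) → ι → ℂ} {q : ι → ℂ}
    (hw : AnalyticAt ℂ w q) : AnalyticAt ℂ (fun z => put e (w z)) q := by
  refine analyticAt_pi_iff.2 fun l => ?_
  by_cases h : l ∈ T
  · simpa only [put, h, dif_pos] using analyticAt_pi_iff.1 hw _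
  · simpa only [put, h, dif_neg, not_false_eq_true] using analyticAt_const

/-- **KEY**: two presentations of `ρ` are compared by the map `p` -/
theorem key {u v : (ι → ℂ) → ι → ℂ} {q : ι → ℂ} (hu : IsCo u q) (hv : IsCo v q) {T T' : Finset ι}
    (hc : T.card = T'.card) (hq : ∀ l ∈ T, u q l = 0) (hq' : ∀ l ∈ T', v q l = 0)
    {ρ σ σ' : (ι → ℂ) → ℝ} (hσ : ∀ z, 0 ≤ σ z) (hσ' : ∀ z, 0 ≤ σ' z)
    (h : ρ =Θ[𝓝 q] fun z => nx T (u z) + σ (pr T (u z)))
    (h' : ρ =Θ[𝓝 q] fun z => nx T' (v z) + σ' (pr T' (v z))) :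
    ∃ p : (ι → ℂ) → ι → ℂ, AnalyticAt ℂ p q ∧ p q = q ∧
      (∀ᶠ z in 𝓝 q, pr T' (v (p z)) = pr T' (v z)) ∧ (fun z => p z - z) =O[𝓝 q] ρ ∧
      (fun z => nx T (u (p z))) =O[𝓝 q] ρ ∧
      (fun z => σ' (pr T' (v z))) =Θ[𝓝 q] fun z => σ (pr T (u (p z))) := by
  let e : T ≃ T' := Finset.equivOfCardEq hc
  obtain ⟨t, ht⟩ : ∃ t : ℂ, t ∉ ({0} ∪ {t : ℂ | t ≠ 0 ∧ ¬ IsCo (fun z => u z + t • put e (v z)) q}) ∪
      (fun t : ℂ => t⁻¹) ⁻¹' {t : ℂ | t ≠ 0 ∧ ¬ IsCo (fun z => v z + t • put e.symm (u z)) q} :=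
    (((finite_singleton _).union (pen' hu (an_put e hv.1))).union
      ((pen' hv (an_put e.symm hu.1)).preimage inv_injective.injOn)).infinite_compl.nonempty
  simp only [mem_union, mem_singleton_iff, mem_ofPred_eq, mem_preimage, not_or, not_and,
    not_not] at ht
  obtain ⟨⟨t0, t1⟩, t2⟩ := ht
  have hα := t1 t0
  have hβ := t2 (inv_ne_zero t0)
  set α : (ι → ℂ) → ι → ℂ := fun z => u z + t • put e (v z) with hαd
  set β : (ι → ℂ) → ι → ℂ := fun z => v z + t⁻¹ • put e.symm (u z) with hβd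
  have s0 : ∀ z, 0 ≤ σ (pr T (u z)) := fun z => hσ _
  have s0' : ∀ z, 0 ≤ σ' (pr T' (v z)) := fun z => hσ' _
  have bu : ∀ l ∈ T, (fun z => u z l) =O[𝓝 q] ρ := fun l hl =>
    ((isBigO_nx u hl).trans (le_add_left' (fun z => nx_nonneg _ _) s0)).trans h.2
  have bv : ∀ l ∈ T', (fun z => v z l) =O[𝓝 q] ρ := fun l hl =>
    ((isBigO_nx v hl).trans (le_add_left' (fun z => nx_nonneg _ _) s0')).trans h'.2
  have α1 : ∀ z, ∀ l ∉ T, α z l = u z l := fun z l hl => by simp [hαd, put, hl]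
  have β1 : ∀ z, ∀ l ∉ T', β z l = v z l := fun z l hl => by simp [hβd, put, hl]
  have α2 : ∀ z l (hl : l ∈ T), α z l = u z l + t * v z (e ⟨l, hl⟩) := fun z l hl => by
    simp [hαd, put, hl]
  have β2 : ∀ z l (hl : l ∈ T'), β z l = v z l + t⁻¹ * u z (e.symm ⟨l, hl⟩) := fun z l hl => by
    simp [hβd, put, hl]
  have bα : ∀ l ∈ T, (fun z => α z l) =O[𝓝 q] ρ := fun l hl => by
    simp only [α2 _ l hl]
    exact (bu l hl).add ((bv _ (e ⟨l, hl⟩).2).const_mul_left t)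
  have bβ : ∀ l ∈ T', (fun z => β z l) =O[𝓝 q] ρ := fun l hl => by
    simp only [β2 _ l hl]
    exact (bv l hl).add ((bu _ (e.symm ⟨l, hl⟩).2).const_mul_left t⁻¹)
  have m1 := move hu hα hq α1 hσ h bα
  have m2 := move hv hβ hq' β1 hσ' h' bβ
  obtain ⟨p, p1, p2, p3⟩ := exists_ret hβ (T := T') fun l hl => by
    rw [β2 _ l hl, hq' l hl, hq _ (e.symm ⟨l, hl⟩).2, mul_zero, add_zero]
  have tp : Tendsto p (𝓝 q) (𝓝 q) := by
    have := p1.continuousAt.tendsto
    rwa [p2] at this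
  have p4 : ∀ᶠ z in 𝓝 q, pr T' (v (p z)) = pr T' (v z) := by
    filter_upwards [p3] with z hz
    refine pr_congr fun l hl => ?_
    rw [← β1 _ l hl, hz, ← β1 _ l hl]
    simp only [pr, hl, if_false]
  have p5 : ∀ᶠ z in 𝓝 q, nx T (α (p z)) = 0 := by
    filter_upwards [p3] with z hz
    refine Finset.sum_eq_zero fun l hl => norm_eq_zero.2 ?_
    have a := congrFun hz (e ⟨l, hl⟩)
    rw [β2 _ _ (e ⟨l, hl⟩).2] at a
    simp only [pr, (e ⟨l, hl⟩).2, if_true, Subtype.coe_eta, Equiv.symm_apply_apply] at a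
    rw [α2 _ l hl]
    have : u (p z) l + t * v (p z) (e ⟨l, hl⟩) = t * (v (p z) (e ⟨l, hl⟩) + t⁻¹ * u (p z) l) := by
      field_simp; ring
    rw [this, a, mul_zero]
  have k1 : (fun z => ρ (p z)) =Θ[𝓝 q] fun z => σ (pr T (u (p z))) := by
    refine (theta_comp m1 tp).trans_eventuallyEq ?_
    filter_upwards [p5] with z hz
    simp only [hz, zero_add]
  have k2 : (fun z => ρ (p z)) =Θ[𝓝 q] fun z => σ' (pr T' (v z)) := by
    refine (theta_comp m2 tp).trans_eventuallyEq ?_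
    filter_upwards [p3, p4] with z hz hz'
    simp only [hz, hz', nx_pr, zero_add]
  have k3 : (fun z => ρ (p z)) =O[𝓝 q] ρ :=
    (k2.1.trans (le_add_right' (fun z => nx_nonneg _ _) s0')).trans h'.2
  refine ⟨p, p1, p2, p4, ?_, ((nx_isBigO bu).comp_tendsto tp).trans k3, k2.symm.trans k1⟩
  refine (lip' hβ tp tendsto_id).trans (IsBigO.trans ?_ (nx_isBigO bβ))
  refine IsBigO.of_bound 1 ?_
  filter_upwards [p3] with z hz
  rw [hz, one_mul, Real.norm_of_nonneg (nx_nonneg _ _), norm_sub_rev]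
  exact norm_sub_pr _ _

end Vale.Agent.P287Q.H1.Key0
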