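import Vale.Agent.P287Q.H1.Key0

/-!
# P287, resolution: the residual part of two presentations, in the model space
-/

open Filter Topology Set Function Asymptotics

noncomputable section

set_option linter.unusedSectionVars false

namespace Vale.Agent.P287Q.H1.Key0

open Vale.Agent.P277Z.Hir.L (IsCo)

variable {ι : Type} [Fintype ι] [DecidableEq ι]

theorem root {X : Type*} {F : Filter X} {f g : X → ℝ} (hg : ∀ z, 0 ≤ g z) (h : f =O[F] g) {r : ℝ}
    (hr : 0 ≤ r) : (fun z => f z ^ r) =O[F] fun z => g z ^ r :=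
  h.rpow hr (Eventually.of_forall hg)

theorem unroot {X : Type*} {F : Filter X} {f g : X → ℝ} (hf : ∀ z, 0 ≤ f z) (hg : ∀ z, 0 ≤ g z)
    {r : ℝ} (hr : 0 < r) (h : (fun z => f z ^ r) =O[F] fun z => g z ^ r) : f =O[F] g := by
  have h1 := root (fun z => Real.rpow_nonneg (hg z) r) h (inv_nonneg.2 hr.le)
  simpa only [Real.rpow_rpow_inv (hf _) hr.ne', Real.rpow_rpow_inv (hg _) hr.ne'] using h1

/-- a common factor which is nonzero on a dense set may be cancelled -/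
theorem cancel {X : Type*} [TopologicalSpace X] {x : X} {m G G' : X → ℝ}
    (hm : ∀ᶠ z in 𝓝 x, z ∈ closure {y | m y ≠ 0}) (hG : ∀ᶠ z in 𝓝 x, ContinuousAt G z)
    (hG' : ∀ᶠ z in 𝓝 x, ContinuousAt G' z)
    (h : (fun z => m z * G' z) =O[𝓝 x] fun z => m z * G z) : G' =O[𝓝 x] G := by
  obtain ⟨C, hC⟩ := h.bound
  refine IsBigO.of_bound C ?_
  filter_upwards [hC.eventually_nhds, hm, hG, hG'] with z h1 h2 h3 h4
  by_contra h5
  have h6 : ∀ᶠ y in 𝓝 z, C * ‖G y‖ < ‖G' y‖ :=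
    (continuousAt_const.mul h3.norm).eventually_lt h4.norm (not_le.1 h5)
  obtain ⟨y, ⟨y1, y2⟩, y3⟩ := mem_closure_iff_nhds.1 h2 _ (h1.and h6)
  rw [norm_mul, norm_mul, mul_left_comm] at y1
  exact absurd (le_of_mul_le_mul_left y1 (norm_pos_iff.2 y3)) (not_le.2 y2)

/-- the complement of finitely many coordinate hyperplanes is dense -/
theorem dense_co {v : (ι → ℂ) → ι → ℂ} {q : ι → ℂ} (hv : IsCo v q) :
    ∀ᶠ z in 𝓝 q, z ∈ closure {y | ∀ l, v y l ≠ 0} := by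
  filter_upwards [hv.eventually] with z hz
  obtain ⟨Ψ, h1, h2, -, h4⟩ := hz.exists_inv
  have d : Dense (Set.pi univ fun _ : ι => ({0}ᶜ : Set ℂ)) :=
    dense_pi univ fun _ _ => dense_compl_singleton 0
  refine mem_closure_iff_nhds.2 fun U hU => ?_
  have t : Tendsto Ψ (𝓝 (v z)) (𝓝 z) := by
    have := h1.1.continuousAt.tendsto
    rwa [h2] at this
  obtain ⟨w, w1, w2⟩ := d.inter_nhds_nonempty (h4.and (t.eventually hU))
  exact ⟨Ψ w, w2.2, fun l => by rw [w2.1]; exact w1 l trivial⟩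

/-- quasi-Lipschitz functions -/
def QL (μ : (ι → ℂ) → ℝ) (q : ι → ℂ) : Prop :=
  ∃ C : ℝ, ∀ᶠ p in 𝓝 (q, q), μ p.2 ≤ C * (μ p.1 + ‖p.2 - p.1‖)

theorem QL.comp {X : Type*} {F : Filter X} {μ : (ι → ℂ) → ℝ} {q : ι → ℂ} (h : QL μ q)
    (h0 : ∀ z, 0 ≤ μ z) {a b : X → ι → ℂ} (ha : Tendsto a F (𝓝 q)) (hb : Tendsto b F (𝓝 q))
    {ν : X → ℝ} (h1 : (fun z => μ (a z)) =O[F] ν) (h2 : (fun z => b z - a z) =O[F] ν) :
    (fun z => μ (b z)) =O[F] ν := by
  obtain ⟨C, hC⟩ := h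
  refine IsBigO.trans (IsBigO.of_bound C ?_) (h1.add h2.norm_left)
  filter_upwards [(ha.prodMk_nhds hb).eventually hC] with z hz
  rwa [Real.norm_of_nonneg (h0 _), Real.norm_of_nonneg (add_nonneg (h0 _) (norm_nonneg _))]

/-- **UNIQ**: the residual parts `G`, `G'` of two presentations are compared by `p` -/
theorem uniq {u v : (ι → ℂ) → ι → ℂ} {q : ι → ℂ} (hu : IsCo u q) (hv : IsCo v q) {T T' : Finset ι}
    (hc : T.card = T'.card) (hq : ∀ l ∈ T, u q l = 0) (hq' : ∀ l ∈ T', v q l = 0)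
    {ρ m m' G G' : (ι → ℂ) → ℝ} {r : ℝ} (hr : 0 < r) (m0 : ∀ z, 0 ≤ m z) (m0' : ∀ z, 0 ≤ m' z)
    (G0 : ∀ z, 0 ≤ G z) (G0' : ∀ z, 0 ≤ G' z) (mp : ∀ z, m (pr T z) = m z)
    (mp' : ∀ z, m' (pr T' z) = m' z) (mm : (fun z => m (u z)) =Θ[𝓝 q] fun z => m' (v z))
    (mn : ∀ z, (∀ l, z l ≠ 0) → m' z ≠ 0) (cG : ∀ᶠ z in 𝓝 (u q), ContinuousAt G z)
    (cG' : ∀ᶠ z in 𝓝 (v q), ContinuousAt G' z)
    (h : ρ =Θ[𝓝 q] fun z => nx T (u z) + (m (u z) * G (pr T (u z))) ^ r)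
    (h' : ρ =Θ[𝓝 q] fun z => nx T' (v z) + (m' (v z) * G' (pr T' (v z))) ^ r) :
    ∃ p : (ι → ℂ) → ι → ℂ, AnalyticAt ℂ p q ∧ p q = q ∧ (∀ᶠ z in 𝓝 q, u (p z) = pr T (u (p z))) ∧
      (fun z => p z - z) =O[𝓝 q] ρ ∧
      (fun z => G' (pr T' (v z))) =O[𝓝 q] fun z => G (pr T (u (p z))) := by
  obtain ⟨p, p1, p2, p3, p4, p5, p6⟩ := key hu hv hc hq hq' (ρ := ρ)
    (σ := fun z => (m z * G z) ^ r) (σ' := fun z => (m' z * G' z) ^ r)
    (fun z => Real.rpow_nonneg (mul_nonneg (m0 _) (G0 _)) _)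
    (fun z => Real.rpow_nonneg (mul_nonneg (m0' _) (G0' _)) _)
    (by simpa only [mp] using h) (by simpa only [mp'] using h')
  have tp : Tendsto p (𝓝 q) (𝓝 q) := by
    have := p1.continuousAt.tendsto
    rwa [p2] at this
  have k1 := unroot (fun z => mul_nonneg (m0' _) (G0' _)) (fun z => mul_nonneg (m0 _) (G0 _)) hr p6.1
  have k2 : (fun z => m (pr T (u (p z)))) =O[𝓝 q] fun z => m' (v z) := by
    refine (mm.1.comp_tendsto tp).congr' (Eventually.of_forall fun z => (mp _).symm) ?_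
    filter_upwards [p3] with z hz
    rw [comp_apply, ← mp', hz, mp']
  have a1 : AnalyticAt ℂ (fun z => pr T (u (p z))) q :=
    (an_pr T _).comp (AnalyticAt.comp (g := u) (by rw [p2]; exact hu.1) p1)
  have a2 : AnalyticAt ℂ (fun z => pr T' (v z)) q := (an_pr T' _).comp hv.1
  have e1 : pr T (u (p q)) = u q := by rw [p2, pr_self hq]
  have e2 : pr T' (v q) = v q := pr_self hq'
  have k3 : (fun z => G' (pr T' (v z))) =O[𝓝 q] fun z => G (pr T (u (p z))) := by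
    refine cancel (m := fun z => m' (v z)) ?_ ?_ ?_ ?_
    · filter_upwards [dense_co hv] with z hz
      exact closure_mono (fun y hy => mn _ hy) hz
    · filter_upwards [a1.eventually_analyticAt, a1.continuousAt.eventually (e1 ▸ cG)] with z h1 h2
      exact ContinuousAt.comp (g := G) h2 h1.continuousAt
    · filter_upwards [a2.eventually_analyticAt, a2.continuousAt.eventually (e2 ▸ cG')] with z h1 h2
      exact ContinuousAt.comp (g := G') h2 h1.continuousAt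
    · simp only [mp'] at k1
      exact k1.trans (k2.mul (isBigO_refl _ _))
  obtain ⟨s, s1, s2, s3⟩ := exists_ret hu hq
  have ts : Tendsto s (𝓝 q) (𝓝 q) := by
    have := s1.continuousAt.tendsto
    rwa [s2] at this
  refine ⟨fun z => s (p z), AnalyticAt.comp (g := s) (by rw [p2]; exact s1) p1,
    by simp only [p2, s2], ?_, ?_, ?_⟩
  · filter_upwards [tp.eventually s3] with z hz
    rw [hz, pr_pr]
  · have b1 : (fun z => s (p z) - p z) =O[𝓝 q] ρ := by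
      refine (lip' hu (ts.comp tp) tp).trans (IsBigO.trans (IsBigO.of_bound 1 ?_) p5)
      filter_upwards [tp.eventually s3] with z hz
      rw [comp_apply, hz, one_mul, Real.norm_of_nonneg (nx_nonneg _ _), norm_sub_rev]
      exact norm_sub_pr _ _
    exact (b1.add p4).congr_left fun z => sub_add_sub_cancel _ _ _
  · refine k3.congr' EventuallyEq.rfl ?_
    filter_upwards [tp.eventually s3] with z hz
    rw [hz, pr_pr]

/-- the order of the residual part does not depend on the presentation -/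
theorem ord_of {q : ι → ℂ} {p : (ι → ℂ) → ι → ℂ} (p1 : AnalyticAt ℂ p q) (p2 : p q = q)
    {H H' : (ι → ℂ) → ℝ} (h : H' =O[𝓝 q] fun z => H (p z)) {o : ℕ}
    (ho : H =O[𝓝 q] fun z => ‖z - q‖ ^ o) : H' =O[𝓝 q] fun z => ‖z - q‖ ^ o := by
  have tp : Tendsto p (𝓝 q) (𝓝 q) := by
    have := p1.continuousAt.tendsto
    rwa [p2] at this
  have a := (lip p1 tendsto_id (tendsto_const_nhds (x := q))).norm_norm.pow o
  simp only [id, p2] at a
  exact h.trans ((ho.comp_tendsto tp).trans a)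

/-- the companions dominate each other -/
theorem dom_of {q : ι → ℂ} {p : (ι → ℂ) → ι → ℂ} (p1 : AnalyticAt ℂ p q) (p2 : p q = q)
    {ρ H H' μ : (ι → ℂ) → ℝ} (p4 : (fun z => p z - z) =O[𝓝 q] ρ) (H0 : ∀ z, 0 ≤ H z)
    (h : H' =O[𝓝 q] fun z => H (p z)) {s : ℝ} (hs : 0 ≤ s) (μ0 : ∀ z, 0 ≤ μ z) (hμ : QL μ q)
    (h1 : ρ =O[𝓝 q] μ) (h2 : (fun z => H z ^ s) =O[𝓝 q] μ) : (fun z => H' z ^ s) =O[𝓝 q] μ := by
  have tp : Tendsto p (𝓝 q) (𝓝 q) := by
    have := p1.continuousAt.tendsto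
    rwa [p2] at this
  refine (root (fun z => H0 _) h hs).trans ((h2.comp_tendsto tp).trans ?_)
  exact hμ.comp μ0 tendsto_id tp (isBigO_refl _ _) (p4.trans h1)

end Vale.Agent.P287Q.H1.Key0
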