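import Vale.Agent.P287Q.H1.Key1
import Vale.Agent.P287Q.H1.Defs

/-!
# P287, resolution: independence of the presentation
-/

open Filter Topology Set Function Asymptotics

noncomputable section

namespace Vale.Agent.P287Q.H1.Key2

variable {n : ℕ}

/-- a function which vanishes on a coordinate hyperplane is bounded by the coordinate -/
theorem van_le {v : W n → W n} {q : W n} (hv : IsCo v q) {l : Fin n} (hq : v q l = 0)
    {f : W n → ℂ} (hf : AnalyticAt ℂ f q) (h : ∀ᶠ z in 𝓝 q, v z l = 0 → f z = 0) :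
    f =O[𝓝 q] fun z => v z l := by
  obtain ⟨p, p1, p2, p3⟩ := Key0.exists_ret hv (T := {l}) (by simpa using hq)
  have tp : Tendsto p (𝓝 q) (𝓝 q) := by
    have := p1.continuousAt.tendsto
    rwa [p2] at this
  have a : (fun z => f z - f (p z)) =O[𝓝 q] fun z => z - p z :=
    hf.hasStrictFDerivAt.isBigO_sub.comp_tendsto (k := fun z => (z, p z))
      (tendsto_id.prodMk_nhds tp)
  refine (a.congr' ?_ EventuallyEq.rfl).trans ((Key0.lip' hv tendsto_id tp).trans ?_)
  · filter_upwards [p3, tp.eventually h] with z h1 h2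
    rw [h2 (by rw [h1]; simp [Key0.pr]), sub_zero]
  · refine IsBigO.of_bound 1 ?_
    filter_upwards [p3] with z h1
    rw [h1, one_mul]
    simpa [Key0.nx] using Key0.norm_sub_pr {l} (v z)

/-- the equation of the hyperplane with label `j` -/
def eqn (nu : Fin n → Option ℕ) (j : ℕ) (z : W n) : ℂ :=
  ∏ l ∈ Finset.univ.filter (fun l => nu l = some j), z l

theorem eqn_zero {nu : Fin n → Option ℕ} {j : ℕ} {z : W n} : eqn nu j z = 0 ↔ z ∈ hyp nu j := by
  simp [eqn, Finset.prod_eq_zero_iff, hyp]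

theorem eqn_of {nu : Fin n → Option ℕ} (h : Inj nu) {j : ℕ} {l : Fin n} (hl : nu l = some j)
    (z : W n) : eqn nu j z = z l := by
  have : Finset.univ.filter (fun l => nu l = some j) = {l} := by
    ext l'
    simp only [Finset.mem_filter, Finset.mem_univ, true_and, Finset.mem_singleton]
    exact ⟨fun h' => h l' l j h' hl, fun h' => h' ▸ hl⟩
  rw [eqn, this, Finset.prod_singleton]

theorem an_eqn (nu : Fin n → Option ℕ) (j : ℕ) {u : W n → W n} {q : W n} (hu : AnalyticAt ℂ u q) :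
    AnalyticAt ℂ (fun z => eqn nu j (u z)) q :=
  Finset.analyticAt_fun_prod _ fun l _ => analyticAt_pi_iff.1 hu l

theorem eqn_le {u v : W n → W n} {q : W n} (hu : AnalyticAt ℂ u q) (hv : IsCo v q)
    {nu nu' : Fin n → Option ℕ} (hi : Inj nu') {j : ℕ}
    (h : ∀ᶠ z in 𝓝 q, v z ∈ hyp nu' j → u z ∈ hyp nu j) :
    (fun z => eqn nu j (u z)) =O[𝓝 q] fun z => eqn nu' j (v z) := by
  by_cases hq : v q ∈ hyp nu' j
  · obtain ⟨l, h1, h2⟩ := hq
    simp only [eqn_of hi h1]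
    refine van_le hv h2 (an_eqn nu j hu) ?_
    filter_upwards [h] with z hz h3 using eqn_zero.2 (hz ⟨l, h1, h3⟩)
  · refine ((an_eqn nu j hu).continuousAt.tendsto.isBigO_one ℂ).trans ?_
    exact (isBigO_const_of_tendsto (c := (1 : ℂ)) tendsto_const_nhds one_ne_zero).trans
      (isBigO_const_left_iff_pos_le_norm one_ne_zero |>.2 (by
        have h0 : 0 < ‖eqn nu' j (v q)‖ := norm_pos_iff.2 fun e => hq (eqn_zero.1 e)
        refine ⟨‖eqn nu' j (v q)‖ / 2, half_pos h0, ?_⟩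
        exact ((an_eqn nu' j hv.1).continuousAt.norm.eventually
          (lt_mem_nhds (half_lt_self h0))).mono fun z hz => le_of_lt hz))

theorem mon_eq (a : ℕ → ℕ) (nu : Fin n → Option ℕ) {R : Finset ℕ}
    (hR : ∀ l j, nu l = some j → j ∈ R) (z : W n) :
    mon (ex a nu) z = ∏ j ∈ R, eqn nu j z ^ a j := by
  have e : ∀ l, z l ^ ex a nu l = ∏ j ∈ R, if nu l = some j then z l ^ a j else 1 := fun l => by
    rcases h : nu l with _ | j
    · simp [ex, h]
    · simp only [ex, h, Option.elim_some, Option.some.injEq]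
      rw [Finset.prod_ite_eq, if_pos (hR l j h)]
  simp only [mon, e, eqn]
  rw [Finset.prod_comm]
  refine Finset.prod_congr rfl fun j _ => ?_
  rw [← Finset.prod_pow, Finset.prod_filter]

/-- the monomials of two adapted charts are comparable -/
theorem mon_le {u v : W n → W n} {q : W n} (hu : AnalyticAt ℂ u q) (hv : IsCo v q)
    {nu nu' : Fin n → Option ℕ} (hi : Inj nu') (a : ℕ → ℕ)
    (h : ∀ᶠ z in 𝓝 q, ∀ j, v z ∈ hyp nu' j → u z ∈ hyp nu j) :
    (fun z => mon (ex a nu) (u z)) =O[𝓝 q] fun z => mon (ex a nu') (v z) := by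
  let R : Finset ℕ := (Finset.univ.biUnion fun l => (nu l).toFinset) ∪
    Finset.univ.biUnion fun l => (nu' l).toFinset
  have h1 : ∀ l j, nu l = some j → j ∈ R := fun l j e => by
    simp only [R, Finset.mem_union, Finset.mem_biUnion, Finset.mem_univ, true_and]
    exact .inl ⟨l, by simp [e]⟩
  have h2 : ∀ l j, nu' l = some j → j ∈ R := fun l j e => by
    simp only [R, Finset.mem_union, Finset.mem_biUnion, Finset.mem_univ, true_and]
    exact .inr ⟨l, by simp [e]⟩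
  simp only [mon_eq a nu h1, mon_eq a nu' h2]
  exact IsBigO.finsetProd fun j _ => (eqn_le hu hv hi (h.mono fun z hz => hz j)).pow _

/-- the first `k` indices -/
def fk (n k : ℕ) : Finset (Fin n) := Finset.univ.filter fun l => l.val < k

theorem mem_fk {k : ℕ} {l : Fin n} : l ∈ fk n k ↔ l.val < k := by simp [fk]

theorem pr_eq (k : ℕ) (z : W n) : Key0.pr (fk n k) z = pr k z := by
  funext l; simp only [Key0.pr, pr, mem_fk]

theorem nx_theta {X : Type*} (F : Filter X) (k : ℕ) (u : X → W n) {s : X → ℝ} (hs : ∀ z, 0 ≤ s z) :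
    (fun z => ‖u z - pr k (u z)‖ + s z) =Θ[F] fun z => Key0.nx (fk n k) (u z) + s z := by
  have n0 : ∀ z, 0 ≤ Key0.nx (fk n k) (u z) := fun z => Key0.nx_nonneg _ _
  refine ⟨IsBigO.add (IsBigO.trans (IsBigO.of_bound 1 (Eventually.of_forall fun z => ?_))
    (Key0.le_add_left' n0 hs)) (Key0.le_add_right' n0 hs), IsBigO.add (IsBigO.trans
    (IsBigO.of_bound (fk n k).card (Eventually.of_forall fun z => ?_))
    (Key0.le_add_left' (fun z => norm_nonneg _) hs))
    (Key0.le_add_right' (fun z => norm_nonneg _) hs)⟩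
  · rw [one_mul, norm_norm, Real.norm_of_nonneg (n0 z), ← pr_eq]
    exact Key0.norm_sub_pr _ _
  · rw [norm_norm, Real.norm_of_nonneg (n0 z), ← pr_eq]
    exact Key0.nx_le _ _

theorem nm_nonneg {κ : Type} [Fintype κ] (g : κ → W n → ℂ) (z : W n) : 0 ≤ nm g z :=
  Finset.sum_nonneg fun _ _ => norm_nonneg _

theorem nm_pr {k : ℕ} {q : W n} (P : Pres n k q) (z : W n) : nm P.g (pr k z) = nm P.g z :=
  Finset.sum_congr rfl fun i _ => by rw [P.ind i z]

theorem mon_pr {k : ℕ} {q : W n} (P : Pres n k q) (a : ℕ → ℕ) (z : W n) :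
    mon (ex a P.nu) (pr k z) = mon (ex a P.nu) z :=
  Finset.prod_congr rfl fun l _ => by
    by_cases h : l.val < k
    · simp [ex, P.free l h]
    · simp [pr, h]

theorem nm_cont {k : ℕ} {q : W n} (P : Pres n k q) : ∀ᶠ z in 𝓝 q, ContinuousAt (nm P.g) z := by
  filter_upwards [eventually_all.2 fun i => (P.an i).eventually_analyticAt] with z hz
  exact tendsto_finsetSum _ fun i _ => (hz i).continuousAt.norm

theorem f_nonneg {k : ℕ} {q : W n} (P : Pres n k q) (D : ℕ) (a : ℕ → ℕ) (z : W n) :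
    0 ≤ P.f D a z :=
  add_nonneg (norm_nonneg _) (Real.rpow_nonneg (mul_nonneg (norm_nonneg _) (nm_nonneg _ _)) _)

/-- **KEY**: the residual families of two presentations -/
theorem key {k D : ℕ} (hD : 0 < D) {a : ℕ → ℕ} {q : W n} {Φ : W n → W n} (P : Pres n k q)
    (P' : Pres n k (Φ q)) (hΦ : LIso P.nu P'.nu Φ q) (hq : pr k q = q) (hq' : pr k (Φ q) = Φ q)
    (h : (fun z => P'.f D a (Φ z)) =Θ[𝓝 q] P.f D a) :
    ∃ p : W n → W n, AnalyticAt ℂ p q ∧ p q = q ∧ (fun z => p z - z) =O[𝓝 q] P.f D a ∧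
      (fun z => nm P'.g (Φ z)) =O[𝓝 q] fun z => nm P.g (p z) := by
  have i0 : IsCo (id : W n → W n) q := Vale.Agent.P277Z.Hir.L.isCo_id
  have z0 : ∀ {w : W n}, pr k w = w → ∀ l ∈ fk n k, w l = 0 := fun {w} e l hl => by
    rw [← e]; simp only [pr, mem_fk.1 hl, if_true]
  obtain ⟨p, p1, p2, -, p4, p5⟩ := Key0.uniq (u := id) (v := Φ) (q := q) i0 hΦ.co (T := fk n k)
    (T' := fk n k) rfl (z0 hq) (z0 hq') (ρ := P.f D a) (m := fun z => ‖mon (ex a P.nu) z‖)
    (m' := fun z => ‖mon (ex a P'.nu) z‖) (G := nm P.g) (G' := nm P'.g) (r := (D : ℝ)⁻¹)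
    (inv_pos.2 (Nat.cast_pos.2 hD)) (fun _ => norm_nonneg _) (fun _ => norm_nonneg _)
    (nm_nonneg _) (nm_nonneg _) (fun z => by rw [pr_eq, mon_pr]) (fun z => by rw [pr_eq, mon_pr])
    ⟨(mon_le analyticAt_id hΦ.co P'.inj a (hΦ.lab.mono fun z hz j => (hz j).1)).norm_norm,
      (mon_le hΦ.co.1 i0 P.inj a (hΦ.lab.mono fun z hz j => (hz j).2)).norm_norm⟩
    (fun z hz => norm_ne_zero_iff.2 (Finset.prod_ne_zero_iff.2 fun l _ => pow_ne_zero _ (hz l)))
    (nm_cont P) (nm_cont P')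
    (by
      simp only [pr_eq, nm_pr, id]
      exact nx_theta _ k id fun z => Real.rpow_nonneg (mul_nonneg (norm_nonneg _) (nm_nonneg _ _)) _)
    (by
      simp only [pr_eq, nm_pr]
      exact h.symm.trans (nx_theta _ k Φ fun z =>
        Real.rpow_nonneg (mul_nonneg (norm_nonneg _) (nm_nonneg _ _)) _))
  exact ⟨p, p1, p2, p4, by simpa only [pr_eq, nm_pr, id] using p5⟩

/-- the order of the residual family -/
theorem key_van {k D : ℕ} (hD : 0 < D) {a : ℕ → ℕ} {q : W n} {Φ : W n → W n} (P : Pres n k q)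
    (P' : Pres n k (Φ q)) (hΦ : LIso P.nu P'.nu Φ q) (hq : pr k q = q) (hq' : pr k (Φ q) = Φ q)
    (h : (fun z => P'.f D a (Φ z)) =Θ[𝓝 q] P.f D a) {m : ℕ} (hm : Van (nm P.g) m q) :
    Van (nm P'.g) m (Φ q) := by
  obtain ⟨p, p1, p2, -, p4⟩ := key hD P P' hΦ hq hq' h
  have h1 := Key0.ord_of p1 p2 p4 hm
  obtain ⟨Ψ, a1, a2, -, a4⟩ := Vale.Agent.P277Z.Hir.L.IsCo.exists_inv hΦ.co
  have t : Tendsto Ψ (𝓝 (Φ q)) (𝓝 q) := by
    have := a1.1.continuousAt.tendsto
    rwa [a2] at this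
  have b := (Key0.lip a1.1 tendsto_id (tendsto_const_nhds (x := Φ q))).norm_norm.pow m
  simp only [id, a2] at b
  refine ((h1.comp_tendsto t).congr' ?_ EventuallyEq.rfl).trans b
  filter_upwards [a4] with z hz
  simp only [comp_apply, hz]

theorem ql_of_lip {μ : W n → ℝ} {q : W n} (h : Lip μ q) (μ0 : ∀ z, 0 ≤ μ z) : Key0.QL μ q := by
  obtain ⟨C, hC⟩ := h.bound
  refine ⟨C, hC.mono fun p hp => ?_⟩
  rwa [Real.norm_of_nonneg (μ0 _), Real.norm_of_nonneg (add_nonneg (abs_nonneg _) (norm_nonneg _)),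
    abs_of_nonneg (μ0 _)] at hp

/-- the companion of the second presentation is bounded by every function of Lipschitz type which
bounds the companion of the first one -/
theorem key_dom {k D : ℕ} (hD : 0 < D) {a : ℕ → ℕ} {q : W n} {Φ : W n → W n} (P : Pres n k q)
    (P' : Pres n k (Φ q)) (hΦ : LIso P.nu P'.nu Φ q) (hq : pr k q = q) (hq' : pr k (Φ q) = Φ q)
    (h : (fun z => P'.f D a (Φ z)) =Θ[𝓝 q] P.f D a) {m : ℕ} {μ : W n → ℝ} (μ0 : ∀ z, 0 ≤ μ z)
    (hμ : Lip μ q) (hT : P.T D a m =O[𝓝 q] μ) : (fun z => P'.T D a m (Φ z)) =O[𝓝 q] μ := by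
  obtain ⟨p, p1, p2, p3, p4⟩ := key hD P P' hΦ hq hq' h
  have r0 : ∀ z, 0 ≤ rt m (nm P.g z) := fun z => Real.rpow_nonneg (nm_nonneg _ _) _
  have h1 : P.f D a =O[𝓝 q] μ := (Key0.le_add_left' (f_nonneg P D a) r0).trans hT
  have h2 := (Key0.le_add_right' (f_nonneg P D a) r0).trans hT
  exact (h.1.trans h1).add (Key0.dom_of p1 p2 p3 (nm_nonneg _) p4
    (inv_nonneg.2 (Nat.cast_nonneg m)) μ0 (ql_of_lip hμ μ0) h1 h2)

end Vale.Agent.P287Q.H1.Key2
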