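import Vale.Agent.P287Q.H1.Key2

/-!
# P287, resolution: functions of Lipschitz type
-/

open Filter Topology Set Function Asymptotics

noncomputable section

namespace Vale.Agent.P287Q.H1.Key2

variable {n : ℕ}

theorem tend_of {Φ : W n → W n} {q q' : W n} (h : AnalyticAt ℂ Φ q) (e : Φ q = q') :
    Tendsto Φ (𝓝 q) (𝓝 q') := e ▸ h.continuousAt.tendsto

theorem lip_comp {μ : W n → ℝ} {Φ : W n → W n} {q : W n} (h : Lip μ (Φ q))
    (hΦ : AnalyticAt ℂ Φ q) : Lip (fun z => μ (Φ z)) q := by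
  have t1 : Tendsto (fun p : W n × W n => p.1) (𝓝 (q, q)) (𝓝 q) := continuousAt_fst
  have t2 : Tendsto (fun p : W n × W n => p.2) (𝓝 (q, q)) (𝓝 q) := continuousAt_snd
  have t := hΦ.continuousAt.tendsto
  have a := IsBigO.comp_tendsto h (k := fun p : W n × W n => (Φ p.1, Φ p.2))
    ((t.comp t1).prodMk_nhds (t.comp t2))
  refine a.trans (IsBigO.add (Key0.le_add_left' (fun _ => abs_nonneg _) fun _ => norm_nonneg _) ?_)
  exact (Key0.lip hΦ t2 t1).norm_norm.trans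
    (Key0.le_add_right' (fun _ => abs_nonneg _) fun _ => norm_nonneg _)

theorem lip_dist (q b : W n) : Lip (fun z => ‖z - b‖) q :=
  IsBigO.of_bound 1 (Eventually.of_forall fun p => by
    rw [one_mul, norm_norm, abs_norm, Real.norm_of_nonneg (add_nonneg (norm_nonneg _) (norm_nonneg _))]
    calc ‖p.2 - b‖ = ‖(p.1 - b) + (p.2 - p.1)‖ := by congr 1; abel
      _ ≤ _ := norm_add_le _ _)

theorem DomD.ev {L T : W n → ℝ} {q : W n} (h : DomD L T q) : ∀ᶠ b in 𝓝 q, DomD L T b := by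
  obtain ⟨U, hU, h⟩ := h
  filter_upwards [eventually_mem_nhds_iff.2 hU] with b hb using ⟨U, hb, h⟩

/-- what is dominated by `T` is bounded by the majorants of Lipschitz type of `T` -/
theorem domD_le {L T μ : W n → ℝ} {q : W n} (h : DomD L T q) (μ0 : ∀ z, 0 ≤ μ z) (hμ : Lip μ q)
    (hT : T =O[𝓝 q] μ) : L =O[𝓝 q] μ := by
  obtain ⟨U, hU, r₀, hr₀, h⟩ := h
  obtain ⟨C₁, c1, h1⟩ := hT.exists_pos
  obtain ⟨C₂, h2⟩ := ql_of_lip hμ μ0
  have h3 : ∀ᶠ p : W n × W n in 𝓝 (q, q), |T p.2| ≤ C₁ * (max C₂ 0 * (μ p.1 + ‖p.2 - p.1‖)) := by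
    filter_upwards [h2, (continuousAt_snd : Tendsto (fun p : W n × W n => p.2) (𝓝 (q, q))
      (𝓝 q)).eventually h1.bound] with p a b
    rw [Real.norm_of_nonneg (μ0 _)] at b
    exact b.trans (mul_le_mul_of_nonneg_left (a.trans (mul_le_mul_of_nonneg_right (le_max_left _ _)
      (add_nonneg (μ0 _) (norm_nonneg _)))) c1.le)
  obtain ⟨ε, hε, h4⟩ := Metric.eventually_nhds_iff.1 h3
  set K := C₁ * max C₂ 0 with hK
  have K0 : 0 ≤ K := mul_nonneg c1.le (le_max_right _ _)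
  set δ := min r₀ (ε / 2) with hδ
  have δ0 : 0 < δ := lt_min hr₀ (half_pos hε)
  have h5 : ∀ z w : W n, dist z q < ε → dist w q < ε → |T w| ≤ K * (μ z + ‖w - z‖) :=
    fun z w a b => by
      rw [hK, mul_assoc]
      exact h4 (y := (z, w)) (by rw [Prod.dist_eq]; exact max_lt a b)
  have h6 : ∀ z : W n, dist z q < ε / 2 → ∀ r ≤ δ, ∀ w ∈ Metric.ball z r, dist w q < ε :=
    fun z hz r hr w hw => by
      have := dist_triangle w z q
      have := Metric.mem_ball.1 hw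
      have := min_le_right r₀ (ε / 2)
      linarith
  obtain ⟨A, hA⟩ := h (2 * K)
  obtain ⟨B, hB⟩ := h (K * (μ q + ε) / δ)
  refine IsBigO.of_bound (max (max A B) 0) ?_
  filter_upwards [hU, Metric.ball_mem_nhds q (half_pos hε)] with z z1 z2
  have z3 : dist z q < ε / 2 := z2
  rw [Real.norm_of_nonneg (μ0 _), Real.norm_eq_abs]
  have M0 : 0 ≤ max (max A B) 0 := le_max_right _ _
  by_cases hz : μ z < δ
  · refine le_of_forall_gt_imp_ge_of_dense fun c hc => ?_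
    obtain ⟨r, r1, r2, r3⟩ : ∃ r, μ z < r ∧ r ≤ δ ∧ max (max A B) 0 * r ≤ c := by
      have e1 : ∀ᶠ r in 𝓝[>] μ z, max (max A B) 0 * r < c :=
        nhdsWithin_le_nhds ((continuous_const.mul continuous_id).continuousAt.eventually
          (gt_mem_nhds hc))
      have e2 : ∀ᶠ r in 𝓝[>] μ z, r < δ := nhdsWithin_le_nhds (gt_mem_nhds hz)
      obtain ⟨r, a, b, c⟩ := (e1.and (e2.and self_mem_nhdsWithin)).exists
      exact ⟨r, c, b.le, a.le⟩
    have r0 : 0 < r := (μ0 z).trans_lt r1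
    refine (hA z z1 r r0 (r2.trans (min_le_left _ _)) fun w hw => ?_).trans
      ((mul_le_mul_of_nonneg_right ((le_max_left _ _).trans (le_max_left _ _)) r0.le).trans r3)
    have a := h5 z w (by linarith) (h6 z z3 r r2 w hw)
    have b : ‖w - z‖ < r := by rw [← dist_eq_norm]; exact hw
    nlinarith
  · refine (hB z z1 δ δ0 (min_le_left _ _) fun w hw => ?_).trans
      (mul_le_mul ((le_max_right _ _).trans (le_max_left _ _)) (not_lt.1 hz) δ0.le M0)
    have b := h6 z z3 δ le_rfl w hw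
    rw [div_mul_cancel₀ _ δ0.ne']
    refine (h5 q w (by simpa using hε) b).trans (mul_le_mul_of_nonneg_left ?_ K0)
    rw [dist_eq_norm] at b
    linarith

theorem an_pr (k : ℕ) (q : W n) : AnalyticAt ℂ (pr k) q := by
  have := Key0.an_pr (fk n k) q
  rwa [show Key0.pr (fk n k) = pr k from funext (pr_eq k)] at this

theorem pr_pr (k : ℕ) (z : W n) : pr k (pr k z) = pr k z := by
  rw [← pr_eq, ← pr_eq, Key0.pr_pr]

/-- **Q**: a size function of Lipschitz type which bounds `k` coordinates has level `k` -/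
theorem exists_pres {D k : ℕ} {L : W n → ℝ} {q : W n} (L0 : ∀ z, 0 ≤ L z) (hS : Sz D L q)
    (hL : Lip L q) {Ψ : W n → W n} (hΨ : IsCo Ψ q) (hk : k ≤ n) (hq : pr k (Ψ q) = Ψ q)
    (hx : (fun z => Ψ z - pr k (Ψ z)) =O[𝓝 q] L) {nu : Fin n → Option ℕ}
    (h1 : ∀ l : Fin n, l.val < k → nu l = none) (h2 : Inj nu) :
    ∃ P : Pres n k (Ψ q), P.nu = nu ∧ L =Θ[𝓝 q] fun z => P.f D 0 (Ψ z) := by
  obtain ⟨κ, _, g, g1, g2⟩ := hS
  obtain ⟨Φ, a1, a2, a3, a4⟩ := Vale.Agent.P277Z.Hir.L.IsCo.exists_inv hΨ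
  have b1 : AnalyticAt ℂ (fun w => Φ (pr k w)) (Ψ q) :=
    AnalyticAt.comp (g := Φ) (by rw [hq]; exact a1.1) (an_pr k _)
  have b2 : Φ (pr k (Ψ q)) = q := by rw [hq, a2]
  refine ⟨⟨nu, κ, fun i w => g i (Φ (pr k w)), hk, h1, h2, fun i =>
    AnalyticAt.comp (g := g i) (by rw [b2]; exact g1 i) b1, fun i z => by simp only [pr_pr]⟩,
    rfl, ?_⟩
  have tp : Tendsto (fun z => Φ (pr k (Ψ z))) (𝓝 q) (𝓝 q) := tend_of (b1.comp hΨ.1) b2
  have e : ∀ z, mon (ex 0 nu) z = 1 := fun z =>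
    Finset.prod_eq_one fun l _ => by rcases h : nu l with _ | j <;> simp [ex, h]
  have c1 : (fun z => Φ (pr k (Ψ z)) - z) =O[𝓝 q] fun z => Ψ z - pr k (Ψ z) := by
    have t1 : Tendsto (fun z => pr k (Ψ z)) (𝓝 q) (𝓝 (Ψ q)) := tend_of ((an_pr k _).comp hΨ.1) hq
    refine (IsBigO.congr' (Key0.lip a1.1 t1 hΨ.1.continuousAt.tendsto) ?_ EventuallyEq.rfl).trans
      (IsBigO.of_bound 1 (Eventually.of_forall fun z => by rw [one_mul, norm_sub_rev]))
    filter_upwards [a3] with z hz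
    rw [hz]
  have c2 := Key0.theta_comp g2 tp
  have r0 : ∀ z, 0 ≤ rt D (nm g (Φ (pr k (Ψ z)))) := fun z => Real.rpow_nonneg (nm_nonneg _ _) _
  have Q := ql_of_lip hL L0
  simp only [Pres.f, pf, e, norm_one, one_mul]
  change L =Θ[𝓝 q] fun z => ‖Ψ z - pr k (Ψ z)‖ + rt D (nm g (Φ (pr k (Ψ z))))
  refine ⟨Q.comp L0 tp tendsto_id (c2.1.trans (Key0.le_add_right' (fun _ => norm_nonneg _) r0))
    (c1.symm.norm_right.trans (Key0.le_add_left' (fun _ => norm_nonneg _) r0)),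
    hx.norm_left.add (c2.2.trans ?_)⟩
  exact Q.comp L0 tendsto_id tp (isBigO_refl _ _) (c1.trans hx)

end Vale.Agent.P287Q.H1.Key2
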