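import Vale.Agent.P287Q.H1.KeyS
import Vale.Agent.P287Q.H1.Easy
import Vale.Agent.P287Q.H1.GirM

/-!
# Principalization: independence of the presentation on manifolds, the companion
-/

open Filter Topology Set Function Asymptotics

noncomputable section

namespace Vale.Agent.P287Q.H1

open Mf KeyS

namespace KeyM

variable {n k D : ℕ} {X : Mf n} {E : Dv X} {a : ℕ → ℕ} {f : X.M → ℝ} {p : X.M}
  {φ φ' : X.M → W n}

/-- the transition map between two presentations -/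
theorem exists_tr {P : Pres n k (φ p)} {P' : Pres n k (φ' p)} (h : IsPres E k D a f p φ P)
    (h' : IsPres E k D a f p φ' P') : ∃ θ : W n → W n, θ (φ p) = φ' p ∧ φ' =ᶠ[𝓝 p] θ ∘ φ ∧
      LIso P.nu P'.nu θ (φ p) ∧ P.f D a =Θ[𝓝 (φ p)] (P'.f D a ∘ θ) := by
  obtain ⟨θ, h1, h2⟩ := X.tr p φ φ' h.1.1 h'.1.1
  refine ⟨θ, h2.eq_of_nhds.symm, h2, ⟨h1, (co_ev h.1.1).1 ?_⟩, (co_isTheta h.1.1).1 ?_⟩
  · filter_upwards [h.1.2, h'.1.2, h2] with z z1 z2 z3 j
    rw [← z1 j, z2 j, z3]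
    rfl
  · refine (h.2.symm.trans h'.2).trans (EventuallyEq.isTheta ?_)
    filter_upwards [h2] with z z3
    rw [z3]
    rfl

theorem pr_of (hD : 0 < D) {P : Pres n k (φ p)} (h : IsPres E k D a f p φ P) (ho : X.Ord1 f p) :
    pr k (φ p) = φ p := ((h.ord1 hD.ne').self_of_nhds.1 ho).1

theorem van_of (hD : 0 < D) {P : Pres n k (φ p)} {P' : Pres n k (φ' p)}
    (h : IsPres E k D a f p φ P) (h' : IsPres E k D a f p φ' P') (ho : X.Ord1 f p) {m : ℕ}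
    (hm : Van (nm P.g) m (φ p)) : Van (nm P'.g) m (φ' p) := by
  obtain ⟨θ, e, -, t1, t2⟩ := exists_tr h h'
  exact (stKey n k D a _ _ P P' θ hD e t1 t2 (pr_of hD h ho) (pr_of hD h' ho)).1 m hm

theorem L_le (hSat : StSat) (hD : 0 < D) {P : Pres n k (φ p)} {P' : Pres n k (φ' p)}
    (h : IsPres E k D a f p φ P) (h' : IsPres E k D a f p φ' P') (ho : X.Ord1 f p) {m : ℕ}
    (hm : 0 < m) : (P'.L D a m ∘ φ') =O[𝓝 p] (P.L D a m ∘ φ) := by
  obtain ⟨θ, e, t0, t1, t2⟩ := exists_tr h h'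
  obtain ⟨s1, -, s2, -⟩ := hSat n k _ P D m a hD hm
  obtain ⟨-, -, -, s3, -⟩ := hSat n k _ P' D m a hD hm
  have k1 := (stKey n k D a _ _ P P' θ hD e t1 t2 (pr_of hD h ho) (pr_of hD h' ho)).2 m hm _ s1 s2
  have k2 : DomD (P'.L D a m) (P'.T D a m) (θ (φ p)) := by rw [e]; exact s3
  refine (EventuallyEq.isTheta ?_).1.trans
    ((co_isBigO h.1.1).2 ((k2.comp t1.co).isBigO k1 s1))
  filter_upwards [t0] with z z3
  exact congrArg (P'.L D a m) z3

theorem van_T {q : W n} (P : Pres n k q) {m : ℕ} (hm : 0 < m) (b : W n) :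
    Van (P.T D a m) 1 b ↔ Van (P.f D a) 1 b ∧ Van (nm P.g) m b := by
  refine (add_isBigO_iff (Eventually.of_forall (Key2.f_nonneg P D a))
    (Eventually.of_forall fun z => rt_nonneg _ (nm_nonneg _ _))).trans (and_congr_right' ?_)
  rw [rt_isBigO_iff hm.ne' (Eventually.of_forall (nm_nonneg _))]
  simp only [pow_one, Van]

theorem van_L {L T : W n → ℝ} {b : W n} (h1 : T =O[𝓝 b] L) (h2 : DomD L T b) :
    Van L 1 b ↔ Van T 1 b :=
  ⟨fun h => h.of_isBigO h1, (stDom n L T b).2.2.1 h2⟩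

theorem ord_of {O : Obj X} (hO : Lev E k D O) (hp : p ∈ O.S) : X.Ord1 (O.N p) p :=
  (hO.supp p hp).self_of_nhds.1 hp

/-- a presentation at a point of the support is a presentation at the nearby points -/
theorem near {O : Obj X} (hO : Lev E k D O) (hp : p ∈ O.S) {P : Pres n k (φ p)}
    (h : IsPres E k D a (O.N p) p φ P) :
    ∀ᶠ b in 𝓝 p, b ∈ O.S → ∃ h, IsPres E k D a (O.N b) b φ (P.mv h) := by
  filter_upwards [h.ev, hO.cmp p hp] with b b1 b2 hb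
  exact b1.imp fun _ b1 => b1.congr (b2 hb)

theorem adapt_mask (h : X.Co p φ) : Adapt (E.mask E.r) p φ fun _ => none := by
  refine ⟨h, Eventually.of_forall fun z j => iff_of_false ?_ ?_⟩
  · change z ∉ if j < E.r then ∅ else E.E j
    split_ifs with hj
    · exact notMem_empty z
    · rw [E.emp j (not_lt.1 hj)]
      exact notMem_empty z
  · rintro ⟨l, hl, -⟩
    cases hl

end KeyM

open KeyM

theorem stKeyM (hSat : StSat) : StKeyM := fun _ _ _ _ _ _ _ _ _ _ _ _ hD h h' ho =>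
  ⟨fun _ => ⟨van_of hD h h' ho, van_of hD h' h ho⟩,
    fun _ hm _ => ⟨L_le hSat hD h' h ho hm, L_le hSat hD h h' ho hm⟩⟩

theorem stComp (hSat : StSat) (hMax : StMax) : StComp := by
  intro n k D m X E O a hD hm hO hB
  classical
  choose φ P h1 h2 using hB
  let Oc : Obj X := ⟨{p | ∃ h : p ∈ O.S, Van (nm (P p h).g) m (φ p h p)},
    fun p => if h : p ∈ O.S then (P p h).L D a m ∘ φ p h else 0⟩
  have sub : Oc.S ⊆ O.S := fun p hp => hp.1
  have hN : ∀ p (h : p ∈ O.S), Oc.N p = (P p h).L D a m ∘ φ p h := fun p h => dif_pos h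
  have hS : ∀ p (h : p ∈ O.S), p ∈ Oc.S ↔ Van (nm (P p h).g) m (φ p h p) := fun p h =>
    ⟨fun h' => h'.2, fun h' => ⟨h, h'⟩⟩
  have any : ∀ b ∈ O.S, ∀ ψ Q, IsPres E k D a (O.N b) b ψ Q →
      (b ∈ Oc.S ↔ Van (nm Q.g) m (ψ b)) ∧ Oc.N b =Θ[𝓝 b] (Q.L D a m ∘ ψ) := by
    intro b hb ψ Q hQ
    have ho := ord_of hO hb
    rw [hN b hb, hS b hb]
    exact ⟨⟨van_of hD (h1 b hb) hQ ho, van_of hD hQ (h1 b hb) ho⟩,
      L_le hSat hD hQ (h1 b hb) ho hm, L_le hSat hD (h1 b hb) hQ ho hm⟩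
  have loc : ∀ p (h : p ∈ O.S), ∀ᶠ b in 𝓝 p, b ∈ O.S →
      (b ∈ Oc.S ↔ Van (nm (P p h).g) m (φ p h b)) ∧ Oc.N b =Θ[𝓝 b] Oc.N p := by
    intro p h
    filter_upwards [near hO h (h1 p h)] with b b1 hb
    obtain ⟨b0, b1⟩ := b1 hb
    rw [hN p h]
    exact any b hb _ _ b1
  have gam : ∀ γ ∈ X.Γ, ∀ p ∈ γ.source, p ∈ O.S →
      (p ∈ Oc.S ↔ γ p ∈ Oc.S) ∧ Oc.N p =Θ[𝓝 p] (Oc.N (γ p) ∘ γ) := by
    intro γ hγ p hp h
    have h' := hO.inv γ hγ p hp h
    rw [hN _ h', hS _ h']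
    exact any p h _ _ (((h1 _ h').gam hγ hp).congr (hO.invN γ hγ p hp h).symm)
  refine ⟨Oc, ⟨sub, fun p hp => ⟨φ p hp, P p hp, h1 p hp, h2 p hp, hS p hp, fun _ => ?_⟩⟩,
    ?_, sub.trans hO.reg, fun p hp => ?_, fun p hp => ?_, fun p hp => ?_,
    fun γ hγ p hp h => (gam γ hγ p hp (sub h)).1.1 h,
    fun γ hγ p hp h => (gam γ hγ p hp (sub h)).2.symm⟩
  · obtain ⟨-, -, s2, s3, -⟩ := hSat n k _ (P p hp) D m a hD hm
    exact ⟨_, by rw [hN p hp], s2, s3⟩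
  · refine isOpen_compl_iff.1 (isOpen_iff_mem_nhds.2 fun p hp => ?_)
    by_cases h : p ∈ O.S
    · have := (co_ev (h1 p h).1.1).2 (not_van_eventually (P p h).an (mt (hS p h).2 hp))
      filter_upwards [loc p h, this] with b b1 b2 hb
      exact b2 ((b1 (sub hb)).1.1 hb)
    · filter_upwards [hO.closed.isOpen_compl.mem_nhds h] with b b1 hb
      exact b1 (sub hb)
  · have h := sub hp
    obtain ⟨-, -, s2, s3, -⟩ := hSat n k _ (P p h) D m a hD hm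
    have c := (h1 p h).1.1
    filter_upwards [loc p h, X.ev _ _ c, (co_ev c).2 (bigO_ev s2), (co_ev c).2 s3.eventually,
      hO.supp p h, theta_ev (h1 p h).2] with b b1 b2 b3 b4 b5 b6
    rw [ord1_van b2 (F := (P p h).L D a m) (by rw [hN p h]; exact isTheta_refl _ _), van_L b3 b4,
      van_T _ hm, ← ord1_van b2 b6, ← b5]
    exact ⟨fun hb => ⟨sub hb, (b1 (sub hb)).1.1 hb⟩, fun hb => (b1 hb.1).1.2 hb.2⟩
  · filter_upwards [loc p (sub hp)] with b b1 hb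
    exact (b1 (sub hb)).2
  · have h := sub hp
    obtain ⟨θ, P₁, t1, t2, t3⟩ := stLev hSat hMax n k _ (P p h) D m a hD hm
      (pr_of hD (h1 p h) (ord_of hO h)) ((hS p h).1 hp) (h2 p h)
    refine ⟨θ ∘ φ p h, P₁, ?_, ?_⟩
    · rw [t2]
      exact adapt_mask (co_comp (h1 p h).1.1 t1)
    · rw [hN p h]
      exact (co_isTheta (h1 p h).1.1).2 t3

end Vale.Agent.P287Q.H1
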