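import Vale.Agent.P287Q.H1.St
import Vale.Agent.P287Q.H1.Bas
import Vale.Agent.P287Q.H1.Gir
import Vale.Agent.P287Q.H1.Key3
import Vale.Agent.P287Q.H1.Adapt1

/-!
# Principalization: independence of the presentation, the level of the companion
-/

open Filter Topology Set Function Asymptotics

noncomputable section

namespace Vale.Agent.P287Q.H1

open Mf

namespace KeyS

variable {n : ℕ}

theorem lip_abs {L : W n → ℝ} {q : W n} (h : Lip L q) : Lip (fun z => |L z|) q := by
  have := h.norm_left
  simpa only [Lip, Real.norm_eq_abs, abs_abs] using this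

theorem abs_theta {α : Type*} (l : Filter α) (L : α → ℝ) : L =Θ[l] fun z => |L z| :=
  ⟨(isBigO_refl L l).norm_right, (isBigO_refl L l).norm_left⟩

theorem szD_nonneg : ∀ (d : ℕ) (f : W n → ℂ) (z : W n), 0 ≤ szD d f z
  | 0, _, _ => le_rfl
  | d + 1, f, z => add_nonneg (rt_nonneg _ (norm_nonneg _))
      (Finset.sum_nonneg fun l _ => szD_nonneg d (pd l f) z)

theorem L_nonneg {k : ℕ} {q : W n} (P : Pres n k q) (D : ℕ) (a : ℕ → ℕ) (m : ℕ) (z : W n) :
    0 ≤ P.L D a m z :=
  add_nonneg (add_nonneg (norm_nonneg _) (Finset.sum_nonneg fun _ _ => szD_nonneg _ _ _))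
    (Finset.sum_nonneg fun _ _ => szD_nonneg _ _ _)

theorem T_nonneg {k : ℕ} {q : W n} (P : Pres n k q) (D : ℕ) (a : ℕ → ℕ) (m : ℕ) (z : W n) :
    0 ≤ P.T D a m z :=
  add_nonneg (Key2.f_nonneg P D a z) (rt_nonneg _ (nm_nonneg _ _))

theorem inj_none : Inj (fun _ : Fin n => (none : Option ℕ)) := fun _ _ _ h => by cases h

/-- a function with nonzero differential which does not depend on the first `k` coordinates is the
coordinate number `k` of a chart -/
theorem exists_co {k : ℕ} {u : W n → ℂ} {q : W n} (hu : AnalyticAt ℂ u q) (hi : Ind k u)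
    (h0 : fderiv ℂ u q ≠ 0) : ∃ (hk : k < n) (Ψ : W n → W n), IsCo Ψ q ∧
      (∀ z (l : Fin n), l.val < k → Ψ z l = z l) ∧ ∀ z, Ψ z ⟨k, hk⟩ = u z := by
  obtain ⟨j, hj⟩ : ∃ j : Fin n, fderiv ℂ u q (Pi.single j 1) ≠ 0 := by
    by_contra hc
    simp only [not_exists, not_not] at hc
    refine h0 (ContinuousLinearMap.ext fun v => ?_)
    rw [pi_eq_sum_univ' v, map_sum]
    simp only [map_smul, hc, smul_zero, Finset.sum_const_zero, zero_apply]
  have hkj : k ≤ j.val := by
    by_contra hc
    refine hj ?_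
    have h1 : HasDerivAt (fun t : ℂ => u (q + t • Pi.single j 1)) (fderiv ℂ u q (Pi.single j 1))
        0 := by
      have h2 : HasDerivAt (fun t : ℂ => q + t • (Pi.single j 1 : W n)) (Pi.single j 1) 0 := by
        simpa using ((hasDerivAt_id (0 : ℂ)).smul_const (Pi.single j 1 : W n)).const_add q
      have h3 : HasFDerivAt u (fderiv ℂ u q) (q + (0 : ℂ) • (Pi.single j 1 : W n)) := by
        simpa using hu.differentiableAt.hasFDerivAt
      exact h3.comp_hasDerivAt (0 : ℂ) h2
    have h4 : (fun t : ℂ => u (q + t • Pi.single j 1)) = fun _ => u q := by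
      funext t
      rw [← hi, ← hi q]
      congr 1
      funext l
      by_cases hl : l.val < k
      · simp [pr, hl]
      · have : l ≠ j := fun e => hc (e ▸ not_lt.1 hl)
        simp [pr, hl, this]
    rw [h4] at h1
    exact h1.unique (hasDerivAt_const _ _)
  have hk : k < n := lt_of_le_of_lt hkj j.2
  have an : AnalyticAt ℂ (fun z l => update z j (u z) (Equiv.swap ⟨k, hk⟩ j l)) q := by
    refine analyticAt_pi_iff.2 fun l => ?_
    by_cases h : Equiv.swap ⟨k, hk⟩ j l = j
    · simpa only [h, update_self] using hu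
    · simpa only [update_of_ne h] using an_crd _ q
  refine ⟨hk, fun z l => update z j (u z) (Equiv.swap ⟨k, hk⟩ j l), isCo_of_inj an ?_, ?_, ?_⟩
  · refine (injective_iff_map_eq_zero _).2 fun v hv => ?_
    have e : ∀ l, fderiv ℂ (fun z => update z j (u z) l) q v = 0 := fun l => by
      have := fderiv_crd an.differentiableAt v (Equiv.swap ⟨k, hk⟩ j l)
      rw [hv] at this
      simpa only [Equiv.swap_apply_self, Pi.zero_apply] using this
    have e1 : ∀ l, l ≠ j → v l = 0 := fun l hl => by
      have := e l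
      simp only [update_of_ne hl] at this
      have h5 : fderiv ℂ (fun z : W n => z l) q = ContinuousLinearMap.proj l :=
        (ContinuousLinearMap.proj (R := ℂ) (φ := fun _ : Fin n => ℂ) l).fderiv
      rw [h5] at this
      exact this
    have e2 : v = v j • Pi.single j 1 := by
      funext l
      by_cases hl : l = j
      · simp [hl]
      · simp [hl, e1 l hl]
    have e3 := e j
    simp only [update_self] at e3
    change fderiv ℂ u q v = 0 at e3
    rw [e2, map_smul, smul_eq_mul, mul_eq_zero] at e3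
    rw [e2, e3.resolve_right hj, zero_smul]
  · intro z l hl
    have h1 : l ≠ ⟨k, hk⟩ := fun e => by simp [e] at hl
    have h2 : l ≠ j := fun e => by rw [e] at hl; omega
    simp only [Equiv.swap_apply_of_ne_of_ne h1 h2, update_of_ne h2]
  · intro z
    simp only [Equiv.swap_apply_left, update_self]

end KeyS

open KeyS

theorem stKey : StKey := by
  intro n k D a q q' P P' Φ hD e hΦ h hq hq'
  subst e
  refine ⟨fun m hm => Key2.key_van hD P P' hΦ hq hq' h.symm hm, fun m _ L hL hT => ?_⟩
  exact (Key2.key_dom hD P P' hΦ hq hq' h.symm (fun z => abs_nonneg (L z)) (lip_abs hL)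
    hT.norm_right).of_norm_right

theorem stQ : StQ := by
  intro n k D L q hk _ hL hS hq hx
  obtain ⟨κ, _, g, hg, hS⟩ := hS
  obtain ⟨P, h1, h2⟩ := Key2.exists_pres (Ψ := id) (nu := fun _ => none)
    (fun z => abs_nonneg (L z)) ⟨κ, inferInstance, g, hg, (abs_theta _ L).symm.trans hS⟩
    (lip_abs hL) (isCo_id q) hk hq hx.of_norm_left.norm_right (fun _ _ => rfl) inj_none
  exact ⟨P, h1, (abs_theta _ L).trans h2⟩

theorem stLev (hSat : StSat) (hMax : StMax) : StLev := by
  intro n k q P D m a hD hm hq h1 h2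
  obtain ⟨u, u1, u2, u3, u4, u5, -⟩ := hMax n k P.κ P.g q m P.an P.ind hm h1 h2
  obtain ⟨s1, -, -, -, s2⟩ := hSat n k q P D m a hD hm
  obtain ⟨hk, Ψ, p1, p2, p3⟩ := exists_co u1 u2 u4
  have cs : ∀ l : Fin n, l.val < k + 1 → l.val < k ∨ l = ⟨k, hk⟩ := fun l hl =>
    (Nat.lt_succ_iff_lt_or_eq.1 hl).imp_right fun e => Fin.ext e
  obtain ⟨P₁, h3, h4⟩ := Key2.exists_pres (k := k + 1) (nu := fun _ => none) (L_nonneg P D a m)
    s2 s1 p1 hk (pr_eq_self.2 fun l hl => by
      rcases cs l hl with h | rfl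
      · rw [p2 _ _ h]
        exact pr_eq_self.1 hq l h
      · rw [p3, u3]) (IsBigO.of_bound 1 (Eventually.of_forall fun z => by
      rw [one_mul, Real.norm_of_nonneg (L_nonneg P D a m z)]
      have a1 : 0 ≤ ∑ i, szD D (fun w => mon (ex a P.nu) w * P.g i w) z :=
        Finset.sum_nonneg fun _ _ => szD_nonneg _ _ _
      have a2 : 0 ≤ ∑ i, szD m (P.g i) z := Finset.sum_nonneg fun _ _ => szD_nonneg _ _ _
      refine norm_sub_pr_le_of (L_nonneg P D a m z) fun l hl => ?_
      rcases cs l hl with h | rfl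
      · rw [p2 _ _ h]
        have := le_norm_sub_pr z h
        unfold Pres.L
        linarith
      · rw [p3]
        have := u5 z
        have := norm_nonneg (z - pr k z)
        unfold Pres.L
        linarith)) (fun _ _ => rfl) inj_none
  exact ⟨Ψ, P₁, p1, h3, h4⟩

end Vale.Agent.P287Q.H1
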