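import Mathlib

/-!
# P287, resolution: termination in the monomial case
-/

open Finset Function

namespace Vale.Agent.P287Q.H1

variable {L : Type*} [DecidableEq L]

/-- a minimal face of weight at least `D` -/
theorem exists_minFace (a : L → ℕ) (D : ℕ) (J : Finset L) (h : D ≤ ∑ j ∈ J, a j) :
    ∃ I ⊆ J, D ≤ ∑ j ∈ I, a j ∧ ∀ i ∈ I, ∑ j ∈ I.erase i, a j < D := by
  induction J using Finset.strongInduction with
  | H J ih =>
    by_cases h1 : ∀ i ∈ J, ∑ j ∈ J.erase i, a j < D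
    · exact ⟨J, Subset.rfl, h, h1⟩
    · push Not at h1
      obtain ⟨i, hi, h1⟩ := h1
      obtain ⟨I, i1, i2⟩ := ih _ (erase_ssubset hi) h1
      exact ⟨I, i1.trans (erase_subset _ _), i2⟩

/-- the new faces are lighter -/
theorem face_lt (a a' : L → ℕ) {D : ℕ} {I J J' : Finset L} {i ν : L} (hI : I ⊆ J) (hi : i ∈ I)
    (hm : ∑ j ∈ I.erase i, a j < D) (hν : a' ν + D ≤ ∑ j ∈ I, a j)
    (ha : ∀ j ∈ J, j ≠ ν → a' j ≤ a j) (hJ : J' ⊆ insert ν (J.erase i)) :
    ∑ j ∈ J', a' j < ∑ j ∈ J, a j := by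
  have h1 : ∑ j ∈ J', a' j ≤ ∑ j ∈ insert ν ((J.erase i).erase ν), a' j :=
    sum_le_sum_of_subset fun j hj => by
      rcases eq_or_ne j ν with rfl | e
      · exact mem_insert_self _ _
      · exact mem_insert_of_mem (mem_erase.2 ⟨e, (mem_insert.1 (hJ hj)).resolve_left e⟩)
  rw [sum_insert (notMem_erase _ _)] at h1
  have h2 : ∑ j ∈ (J.erase i).erase ν, a' j ≤ ∑ j ∈ J.erase i, a j :=
    (sum_le_sum fun j hj => ha j (mem_of_mem_erase (mem_of_mem_erase hj))
      (ne_of_mem_erase hj)).trans (sum_le_sum_of_subset (erase_subset _ _))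
  have h3 := add_sum_erase I a hi
  have h4 := add_sum_erase J a (hI hi)
  omega

/-- **termination**: `F s` is the set of the faces which occur in the cosupport -/
theorem mon_term {σ : Type*} (P : σ → Prop) (F : σ → Set (Finset L)) (a : σ → L → ℕ) (D : ℕ)
    (fin : ∀ s, P s → (F s).Finite) (hD : ∀ s, P s → ∀ J ∈ F s, D ≤ ∑ j ∈ J, a s j)
    (step : ∀ s, P s → ∀ J ∈ F s, ∀ I ⊆ J, D ≤ ∑ j ∈ I, a s j →
      (∀ i ∈ I, ∑ j ∈ I.erase i, a s j < D) → ∃ s', P s' ∧ ∀ J' ∈ F s',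
        (J' ∈ F s ∧ ¬ I ⊆ J' ∧ ∑ j ∈ J', a s' j = ∑ j ∈ J', a s j) ∨
          ∃ J₁ ∈ F s, ∑ j ∈ J', a s' j < ∑ j ∈ J₁, a s j)
    (s : σ) (hs : P s) : ∃ s', P s' ∧ F s' = ∅ := by
  have key : ∀ W s, P s → (∀ J ∈ F s, ∑ j ∈ J, a s j < W) → ∃ s', P s' ∧ F s' = ∅ := by
    intro W
    induction W with
    | zero => exact fun s hs h => ⟨s, hs, Set.eq_empty_of_forall_notMem fun J hJ => by
        simpa using h J hJ⟩
    | succ W ih =>
      intro s hs h
      generalize hc : {J ∈ F s | ∑ j ∈ J, a s j = W}.ncard = c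
      induction c using Nat.strong_induction_on generalizing s with
      | h c ih' =>
        by_cases h1 : ∀ J ∈ F s, ∑ j ∈ J, a s j < W
        · exact ih s hs h1
        push Not at h1
        obtain ⟨J, hJ, h1⟩ := h1
        have h2 := h J hJ
        obtain ⟨I, i1, i2, i3⟩ := exists_minFace (a s) D J (hD s hs J hJ)
        obtain ⟨s', hs', h3⟩ := step s hs J hJ I i1 i2 i3
        refine ih' _ ?_ s' hs' (fun J' hJ' => ?_) rfl
        · rw [← hc]
          refine Set.ncard_lt_ncard ⟨fun J' hJ' => ?_, fun h4 => ?_⟩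
            ((fin s hs).subset fun _ h => h.1)
          · rcases h3 J' hJ'.1 with h5 | ⟨J₁, h5, h6⟩
            · exact ⟨h5.1, h5.2.2 ▸ hJ'.2⟩
            · have := h J₁ h5
              have := hJ'.2
              omega
          · obtain ⟨h5, h6⟩ := h4 (a := J) ⟨hJ, by omega⟩
            rcases h3 J h5 with h7 | ⟨J₁, h7, h8⟩
            · exact h7.2.1 i1
            · have := h J₁ h7
              omega
        · rcases h3 J' hJ' with h5 | ⟨J₁, h5, h6⟩
          · exact h5.2.2 ▸ h J' h5.1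
          · exact h6.trans (h J₁ h5)
  obtain ⟨W, hW⟩ := ((fin s hs).image fun J => ∑ j ∈ J, a s j).bddAbove
  exact key (W + 1) s hs fun J hJ => Nat.lt_succ_of_le (hW ⟨J, hJ, rfl⟩)

end Vale.Agent.P287Q.H1
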