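import Vale.Agent.P287Q.H1.St
import Vale.Agent.P287Q.H1.Bas

/-!
# The divisors after a blow-up
-/

open Filter Topology Set Function Asymptotics

noncomputable section

namespace Vale.Agent.P287Q.H1

open Mf

variable {n : ℕ}

theorem trE_freq {q : W n} {i l : Fin n} (hl : l ≠ i) (hq : q l = 0) :
    ∃ᶠ w in 𝓝 q, w l = 0 ∧ w i ≠ 0 := by
  have hN : (𝓝[({0}ᶜ : Set ℂ)] (q i)).NeBot :=
    mem_closure_iff_nhdsWithin_neBot.1 (dense_compl_singleton 0 (q i))
  have hT : Tendsto (fun t : ℂ => update q i t) (𝓝[({0}ᶜ : Set ℂ)] (q i)) (𝓝 q) := by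
    have h := (continuous_const.update i continuous_id :
      Continuous fun t : ℂ => update q i t).tendsto (q i)
    rw [update_eq_self] at h
    exact h.mono_left nhdsWithin_le_nhds
  refine hT.frequently (Eventually.frequently ?_)
  filter_upwards [self_mem_nhdsWithin] with t ht
  exact ⟨by rw [update_of_ne hl]; exact hq, by rw [update_self]; exact ht⟩

theorem trE_hyp {nu : Fin n → Option ℕ} {A : Finset (Fin n)} {i : Fin n} {r j : ℕ} (hj : j ≠ r)
    {w : W n} (hw : w i ≠ 0) : σ A i w ∈ hyp nu j ↔ w ∈ hyp (update nu i (some r)) j := by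
  constructor
  · rintro ⟨l, h1, h2⟩
    have hl : l ≠ i := by
      rintro rfl
      exact hw ((sg_self A l w).symm.trans h2)
    refine ⟨l, by rw [update_of_ne hl]; exact h1, ?_⟩
    by_cases hA : l ∈ A
    · exact (mul_eq_zero.1 ((sg_of_mem w hA hl).symm.trans h2)).resolve_left hw
    · exact (sg_of_not i w hA).symm.trans h2
  · rintro ⟨l, h1, h2⟩
    have hl : l ≠ i := by
      rintro rfl
      rw [update_self] at h1
      exact hj (Option.some.inj h1).symm
    rw [update_of_ne hl] at h1
    refine ⟨l, h1, ?_⟩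
    by_cases hA : l ∈ A
    · exact (sg_of_mem w hA hl).trans (by rw [h2, mul_zero])
    · exact (sg_of_not i w hA).trans h2

theorem exists_trE {X X' : Mf n} {π : X'.M → X.M} {C : Set X.M} (E : Dv X) (h : IsBl π C)
    (hC : IsClosed C) (hI : X.Inv C) : ∃ E', TrE π C E E' := by
  refine ⟨⟨E.r + 1, fun j => if j = E.r then π ⁻¹' C else closure (π ⁻¹' (E.E j \ C)),
    fun j hj => ?_, fun j => ?_, fun γ' hγ' p hp j hj => ?_⟩, rfl, if_pos rfl,
    fun j hj => if_neg hj⟩
  · rw [if_neg (by omega), E.emp j (by omega), empty_sdiff, preimage_empty, closure_empty]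
  · split_ifs
    · exact hC.preimage h.cont
    · exact isClosed_closure
  · obtain ⟨γ, hγ, H⟩ := h.cov γ' hγ'
    split_ifs at hj ⊢
    · rw [mem_preimage, (H p hp).2]
      exact hI γ hγ _ (H p hp).1 hj
    · rw [mem_closure_iff_frequently] at hj ⊢
      refine (γ'.continuousAt hp).tendsto.frequently
        ((hj.and_eventually (γ'.open_source.mem_nhds hp)).mono fun b hb => ?_)
      obtain ⟨h1, h2⟩ := H b hb.2
      rw [mem_preimage, h2]
      refine ⟨E.inv γ hγ _ h1 j hb.1.1, fun h3 => hb.1.2 ?_⟩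
      have h4 := hI γ.symm (X.symm γ hγ) _ (γ.map_source h1) h3
      rwa [γ.left_inv h1] at h4

theorem stTrE : StTrE := by
  intro n X X' π C E h hC
  refine ⟨exists_trE E h hC, fun E' hE b φ nu hA => ⟨fun hb => ⟨h.off b hb φ hA.1, ?_⟩, ?_⟩⟩
  · filter_upwards [h.cont.continuousAt.eventually hA.2,
      h.cont.continuousAt.eventually (hC.isOpen_compl.mem_nhds hb)] with z h1 h2 j
    refine Iff.trans ?_ (h1 j)
    by_cases hj : j = E.r
    · rw [hj, hE.new, E.emp _ le_rfl]
      exact iff_of_false h2 (notMem_empty _)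
    · rw [hE.old j hj]
      exact ⟨fun h3 => closure_minimal (preimage_mono sdiff_subset)
        ((E.closed j).preimage h.cont) h3, fun h3 => subset_closure ⟨h3, h2⟩⟩
  · intro A i φ' hb hI h0 hZ hi hc he
    have hr : ∀ l, nu l ≠ some E.r := fun l hl => by
      have h1 := (hA.2.self_of_nhds E.r).2 ⟨l, hl, h0 l _ hl⟩
      rw [E.emp _ le_rfl] at h1
      exact h1
    have hY : ∀ᶠ z in 𝓝 b, z ∈ π ⁻¹' C ↔ φ' z i = 0 := by
      filter_upwards [h.cont.continuousAt.eventually hZ, he] with z h1 h2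
      rw [mem_preimage, h1, show φ (π z) = σ A i (φ' z) from h2, σ_mem_Zs hi]
    have hS : ∀ᶠ z in 𝓝 b, ∀ j, j ≠ E.r → (z ∈ π ⁻¹' (E.E j \ C) ↔
        φ' z ∈ hyp (update nu i (some E.r)) j ∧ φ' z i ≠ 0) := by
      filter_upwards [h.cont.continuousAt.eventually hA.2, he, hY] with z h1 h2 h3 j hj
      rw [mem_preimage, Set.mem_sdiff, h1 j, show φ (π z) = σ A i (φ' z) from h2,
        show π z ∉ C ↔ φ' z i ≠ 0 from not_congr h3]
      exact and_congr_left fun hw => trE_hyp hj hw
    refine ⟨⟨hc, ?_⟩, hr, hY.self_of_nhds.1 hb, Or.inr ⟨φ', i, hc, rfl, hY⟩⟩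
    filter_upwards [hY, hS.eventually_nhds, X'.ev b φ' hc] with z h1 h2 h3 j
    by_cases hj : j = E.r
    · rw [hj, hE.new, h1]
      refine ⟨fun h4 => ⟨i, update_self .., h4⟩, ?_⟩
      rintro ⟨l, h4, h5⟩
      by_cases hl : l = i
      · exact hl ▸ h5
      · rw [update_of_ne hl] at h4
        exact absurd h4 (hr l)
    · rw [hE.old j hj, mem_closure_iff_frequently]
      constructor
      · intro h4
        refine (isClosed_hyp _ j).closure_subset (mem_closure_iff_frequently.2
          ((co_tendsto h3).frequently ((h4.and_eventually h2).mono fun w hw => ?_)))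
        exact ((hw.2 j hj).1 hw.1).1
      · rintro ⟨l, h4, h5⟩
        have hl : l ≠ i := by
          rintro rfl
          rw [update_self] at h4
          exact hj (Option.some.inj h4).symm
        have h6 := trE_freq hl h5
        rw [← co_map h3, frequently_map] at h6
        exact (h6.and_eventually h2).mono fun w hw =>
          (hw.2 j hj).2 ⟨⟨l, h4, hw.1.1⟩, hw.1.2⟩

end Vale.Agent.P287Q.H1
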