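import Vale.Agent.P287Q.H1.AdaptS
import Vale.Agent.P287Q.H1.Mon0
import Vale.Agent.P287Q.H1.Easy
import Vale.Agent.P287Q.H1.TrE

/-!
# P287, resolution: the monomial case
-/

open Filter Topology Set Function Asymptotics

noncomputable section

namespace Vale.Agent.P287Q.H1

open Mf

variable {n : ℕ}

/-- the first `k` coordinates and those with label in `I` -/
def face (k : ℕ) (nu : Fin n → Option ℕ) (I : Finset ℕ) : Finset (Fin n) :=
  Finset.univ.filter fun l => l.val < k ∨ ∃ j ∈ I, nu l = some j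

theorem mem_face {k : ℕ} {nu : Fin n → Option ℕ} {I : Finset ℕ} {l : Fin n} :
    l ∈ face k nu I ↔ l.val < k ∨ ∃ j ∈ I, nu l = some j := by simp [face]

theorem face_lab {k : ℕ} {q : W n} (P : Pres n k q) (I : Finset ℕ) (l : Fin n) (j : ℕ)
    (h : P.nu l = some j) : l ∈ face k P.nu I ↔ j ∈ I := by
  rw [mem_face]
  refine ⟨fun h' => ?_, fun h' => .inr ⟨j, h', h⟩⟩
  rcases h' with h' | ⟨j', h1, h2⟩
  · simp [P.free l h'] at h
  · exact Option.some_injective _ (h2.symm.trans h) ▸ h1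

theorem card_face {k : ℕ} {q : W n} (P : Pres n k q) {I : Finset ℕ}
    (h : ∀ j ∈ I, ∃ l, P.nu l = some j) : (face k P.nu I).card = k + I.card := by
  have h1 := sum_ex 1 P.inj (face_lab P I) h
  have h2 : (Finset.univ.filter fun l : Fin n => l.val < k).card = k := by
    rw [Fin.card_filter_val_lt, min_eq_right P.le]
  have h3 : ∑ l ∈ face k P.nu I, (if l.val < k then 1 else 0) = k := by
    rw [← Finset.card_filter]
    refine Eq.trans (congrArg Finset.card (Finset.ext fun l => ?_)) h2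
    simp only [Finset.mem_filter, mem_face, Finset.mem_univ, true_and]
    exact ⟨fun h => h.2, fun h => ⟨.inl h, h⟩⟩
  simp only [Pi.one_apply, ← Finset.card_eq_sum_ones] at h1
  rw [← h1, Finset.card_eq_sum_ones]
  refine Eq.trans (Finset.sum_congr rfl fun l hl => ?_) (Finset.sum_add_distrib.trans
    (congrArg (· + _) h3))
  by_cases hk : l.val < k
  · simp [hk, ex, P.free l hk]
  · obtain ⟨j, -, hj⟩ := (mem_face.1 hl).resolve_left hk
    simp [hk, ex, hj]

variable {X : Mf n} {E : Dv X} {k D : ℕ} {O : Obj X} {a : ℕ → ℕ}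

/-- the faces which occur in the support -/
def faces (E : Dv X) (O : Obj X) : Set (Finset ℕ) := {J | ∃ p ∈ O.S, ∀ j, j ∈ J ↔ p ∈ E.E j}

theorem lt_r {p : X.M} {j : ℕ} (h : p ∈ E.E j) : j < E.r :=
  not_le.1 fun h' => by simp [E.emp j h'] at h

theorem faces_fin (E : Dv X) (O : Obj X) : (faces E O).Finite :=
  (Finset.range E.r).powerset.finite_toSet.subset fun _ ⟨_, _, h⟩ =>
    Finset.mem_powerset.2 fun j hj => Finset.mem_range.2 (lt_r ((h j).1 hj))

theorem exists_face (E : Dv X) (p : X.M) : ∃ J : Finset ℕ, ∀ j, j ∈ J ↔ p ∈ E.E j := by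
  classical
  exact ⟨(Finset.range E.r).filter fun j => p ∈ E.E j, fun j => by
    simpa using fun h => lt_r h⟩

theorem faces_ge (hO : StOrd) (hD : 0 < D) (hL : Lev E k D O) (hB : Bd E k D a O 0) :
    ∀ J ∈ faces E O, D ≤ ∑ j ∈ J, a j := by
  rintro J ⟨p, hp, hJ⟩
  obtain ⟨φ, P, h1, h2⟩ := hB p hp
  have b1 := (hO n _ _ P.g _ D P.an).1
    ((h1.ord1 hD.ne').self_of_nhds.1 ((hL.supp p hp).self_of_nhds.1 hp)).2
  have b2 := h1.1.2.self_of_nhds
  rw [sum_ex a P.inj (J := J) (fun l j hl => by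
    rw [hJ, b2, mem_hyp P.inj hl, Finset.mem_filter_univ]) fun j hj =>
      ((b2 j).1 ((hJ j).1 hj)).imp fun _ h => h.1] at b1
  by_contra h
  exact h2 (b1.mono (by omega))

theorem snc_face (hO : StOrd) (hD : 0 < D) (hL : Lev E k D O) {I : Finset ℕ}
    (hI : D ≤ ∑ j ∈ I, a j) {p : X.M} (hp : p ∈ O.S ∩ E.cap I) {φ : X.M → W n} {P : Pres n k (φ p)}
    (h : IsPres E k D a (O.N p) p φ P) : Snc E (k + I.card) I (O.S ∩ E.cap I) p := by
  have h1 : ∀ j ∈ I, ∃ l, P.nu l = some j := fun j hj =>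
    ((h.1.2.self_of_nhds j).1 (hp.2 j hj)).imp fun _ h => h.1
  refine ⟨φ, face k P.nu I, fun l => if l ∈ face k P.nu I then none else P.nu l, h.1.1,
    card_face P h1, ?_, fun l hl => if_pos hl, fun l l' j a1 a2 => ?_, ?_⟩
  · filter_upwards [x_zero hL hp.1 h, h.1.2, hL.supp p hp.1, h.ord1 hD.ne',
      (co_ev h.1.1).2 (eventually_all.2 fun i => (P.an i).eventually_analyticAt)] with z z1 z2 z3
      z4 z5
    refine ⟨fun hz l hl => ?_, fun hz => ⟨z3.2 (z4.2 ⟨pr_eq_self.2 fun l hl =>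
      hz l (mem_face.2 (.inl hl)), (hO n _ _ P.g _ D z5).2 ?_⟩), fun j hj => ?_⟩⟩
    · rcases mem_face.1 hl with hl | ⟨j, a1, a2⟩
      · exact pr_eq_self.1 (z1 hz.1) l hl
      · exact (mem_hyp P.inj a2).1 ((z2 j).1 (hz.2 j a1))
    · rw [Nat.sub_eq_zero_of_le (hI.trans ((sum_ex a P.inj (face_lab P I) h1).ge.trans
        (Finset.sum_le_sum_of_subset fun l hl => (Finset.mem_filter_univ l).2 (hz l hl))))]
      exact van_zero z5
    · obtain ⟨l, hl⟩ := h1 j hj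
      exact (z2 j).2 ⟨l, hl, hz l ((face_lab P I l j hl).2 hj)⟩
  · dsimp only at a1 a2
    split_ifs at a1 a2
    exact P.inj _ _ _ a1 a2
  · filter_upwards [h.1.2] with z hz j hj
    refine (hz j).trans (exists_congr fun l => and_congr_left' ⟨fun e => ?_, fun e => ?_⟩)
    · exact (if_neg fun h' => hj ((face_lab P I l j e).1 h')).trans e
    · dsimp only at e
      split_ifs at e
      exact e

theorem adm_face (hO : StOrd) (hD : 0 < D) (hL : Lev E k D O) (hB : Bd E k D a O 0) {I : Finset ℕ}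
    (hI : D ≤ ∑ j ∈ I, a j) (hne : (O.S ∩ E.cap I).Nonempty) : Adm E O (O.S ∩ E.cap I) I where
  ne := hne
  closed := hL.closed.inter (by
    simp only [Dv.cap, ofPred_forall]
    exact isClosed_iInter fun j => isClosed_iInter fun _ => E.closed j)
  sub := inter_subset_left
  inv γ hγ p hp h := ⟨hL.inv γ hγ p hp h.1, fun j hj => E.inv γ hγ p hp j (h.2 j hj)⟩
  lab := inter_subset_right
  snc := ⟨k + I.card, Nat.add_pos_right _ (Finset.card_pos.2 (Finset.nonempty_iff_ne_empty.2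
      fun e => by simp [e, hD.ne'] at hI)), fun p hp => by
    obtain ⟨φ, P, h, -⟩ := hB p hp.1
    exact snc_face hO hD hL hI hp h⟩

/-- above the centre one of its labels is missing -/
theorem face_up (hO : StOrd) (hE : StTrE) (hD : 0 < D) (hL : Lev E k D O) (hB : Bd E k D a O 0)
    {I : Finset ℕ} (hI : D ≤ ∑ j ∈ I, a j) {X' : Mf n} {π : X'.M → X.M} {E' : Dv X'} {O' : Obj X'}
    (hπ : IsBl π (O.S ∩ E.cap I)) (hc : IsClosed (O.S ∩ E.cap I)) (h1 : TrE π (O.S ∩ E.cap I) E E')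
    (h2 : Tr π (O.S ∩ E.cap I) O O') {b : X'.M} (hb : b ∈ O'.S) (hp : π b ∈ O.S ∩ E.cap I) :
    ∃ j ∈ I, b ∉ E'.E j := by
  obtain ⟨φ, P, h, -⟩ := hB _ hp.1
  obtain ⟨φ₁, P₁, A, a1, -, a3, a4, a5⟩ := adapt' h hp
    ((x_zero hL hp.1 h).mono fun z hz h => hz h.1) inter_subset_right (snc_face hO hD hL hI hp h)
  obtain ⟨i, hi, φ', b1, b2⟩ := hπ.ovr b hp φ₁ A a1.1.1 a3
  obtain ⟨c1, c2, -, c4⟩ := ((hE n X X' π _ E hπ hc).2 E' h1 b φ₁ P₁.nu a1.1).2 A i φ' hp P₁.inj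
    a4.zero a3 hi b1 b2
  have e : face k P₁.nu I = A := Finset.eq_of_subset_of_card_le (fun l hl => by
    rcases mem_face.1 hl with hl | ⟨j, d1, d2⟩
    · exact a4.low l hl
    · exact (a4.mem l j d2).2 d1) (by rw [a5, card_face P₁ a4.sur])
  rcases mem_face.1 (e ▸ hi : i ∈ face k P₁.nu I) with hk | ⟨j, d1, d2⟩
  · obtain ⟨e, h, e1, e2, e3, e4⟩ := h2.eq b hp.1
    have d1 : (fun z => φ₁ z i) =O[𝓝 (π b)] O.N (π b) := by
      refine IsBigO.trans (IsBigO.of_bound 1 (Eventually.of_forall fun z => ?_)) a1.2.2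
      rw [one_mul, Pres.f, Real.norm_of_nonneg (pf_nonneg _ _ _ _ _)]
      exact (le_norm_sub_pr _ hk).trans (le_add_of_nonneg_right
        (rt_nonneg _ (mul_nonneg (norm_nonneg _) (nm_nonneg _ _))))
    have d2 : (fun z => φ' z i) =O[𝓝 b] (O.N (π b) ∘ π) :=
      (d1.comp_tendsto hπ.cont.continuousAt).congr'
        (b2.mono fun z hz => (congrFun hz i).trans (sg_self A i _)) EventuallyEq.rfl
    have d3 := e1.cancel (f := fun _ => 1) (Eventually.of_forall fun _ => continuousAt_const) e2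
      ((((e1.isTheta c4).1.trans d2).trans e4.2).norm_left.congr_left fun z => (mul_one _).symm)
    obtain ⟨C, hC⟩ := d3.bound
    have d4 := hC.self_of_nhds
    rw [(((h2.supp b).1 hb).2.of_isBigO e3.2).eq_zero, norm_zero, mul_zero, norm_one] at d4
    exact absurd d4 (not_le.2 one_pos)
  · refine ⟨j, d1, fun hj => ?_⟩
    obtain ⟨l, d3, -⟩ := (c1.2.self_of_nhds j).1 hj
    rcases eq_or_ne l i with rfl | hl
    · rw [update_self] at d3
      exact c2 l (d2.trans d3.symm)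
    · rw [update_of_ne hl] at d3
      exact hl (P₁.inj _ _ _ d3 d2)

theorem stMono_of (hO : StOrd) (hE : StTrE) (hT : StTr) (hB : StBdTr) : StMono := by
  intro n k D Q hD hQ X E O a h1 h2 h3
  obtain ⟨⟨X', E', O', a'⟩, ⟨b1, -, -⟩, b2⟩ := mon_term
    (σ := Σ X : Mf n, Dv X × Obj X × (ℕ → ℕ))
    (fun s => Q s.1 s.2.1 s.2.2.1 ∧ Lev s.2.1 k D s.2.2.1 ∧ Bd s.2.1 k D s.2.2.2 s.2.2.1 0)
    (fun s => faces s.2.1 s.2.2.1) (fun s => s.2.2.2) D (fun s _ => faces_fin _ _)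
    (fun s hs => faces_ge hO hD hs.2.1 hs.2.2) (by
      rintro ⟨X, E, O, a⟩ ⟨h1, h2, h3⟩ J ⟨p, hp, hJ⟩ I hI i1 i2
      have c1 := adm_face hO hD h2 h3 i1 ⟨p, hp, fun j hj => (hJ j).1 (hI hj)⟩
      obtain ⟨X', π, c2, c3⟩ := hQ X E O _ I h1 h2 c1
      obtain ⟨E', c4⟩ := (hE n X X' π _ E c2 c1.closed).1 c1.inv
      obtain ⟨O', c5, c6⟩ := hT n k D X X' π _ E E' O I hD h2 c1 c2 c4
      refine ⟨⟨X', E', O', nxt a E.r I 0 D⟩, ⟨c3 E' O' c4 c5 c6, c6,
        hB n k D 0 X X' π _ E E' O O' I a hD h2 c1 c2 c4 c5 h3 fun p hp => ?_⟩, ?_⟩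
      · obtain ⟨φ, P, h, -⟩ := h3 p hp.1
        exact ⟨φ, P, h, van_zero P.an⟩
      rintro J' ⟨b, hb, hJ'⟩
      have d1 := ((c5.supp b).1 hb).1
      by_cases hp : π b ∈ O.S ∩ E.cap I
      · obtain ⟨J₁, hJ₁⟩ := exists_face E (π b)
        obtain ⟨j, e1, e2⟩ := face_up hO hE hD h2 h3 i1 c2 c1.closed c4 c5 hb hp
        refine .inr ⟨J₁, ⟨_, d1, hJ₁⟩, face_lt a _ (ν := E.r) (fun j hj => (hJ₁ j).2 (hp.2 j hj)) e1
          (i2 j e1) ?_ (fun j _ hj => (update_of_ne hj _ _).le) fun j' hj' => ?_⟩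
        · have i3 : D ≤ ∑ j ∈ I, a j := i1
          simp only [nxt, update_self]
          omega
        · rcases eq_or_ne j' E.r with rfl | e
          · exact Finset.mem_insert_self _ _
          · have e3 := (hJ' j').1 hj'
            refine Finset.mem_insert_of_mem (Finset.mem_erase.2 ⟨fun e' => e2 (e' ▸ e3),
              (hJ₁ j').2 ?_⟩)
            exact closure_minimal (preimage_mono sdiff_subset) ((E.closed j').preimage c2.cont)
              (c4.old j' e ▸ e3)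
      · obtain ⟨φ, P, h, -⟩ := h3 _ d1
        have e1 := (((hE n X X' π _ E c2 c1.closed).2 E' c4 b φ P.nu h.1).1 hp).2.self_of_nhds
        have e2 : ∀ j, j ∈ J' ↔ π b ∈ E.E j := fun j =>
          ((hJ' j).trans (e1 j)).trans (h.1.2.self_of_nhds j).symm
        exact .inl ⟨⟨_, d1, e2⟩, fun h' => hp ⟨d1, fun j hj => (e2 j).1 (h' hj)⟩,
          Finset.sum_congr rfl fun j hj => update_of_ne (lt_r ((e2 j).1 hj)).ne _ _⟩)
    ⟨X, E, O, a⟩ ⟨h1, h2, h3⟩
  refine ⟨X', E', O', b1, eq_empty_of_forall_notMem fun p hp => ?_⟩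
  obtain ⟨J, hJ⟩ := exists_face E' p
  exact (eq_empty_iff_forall_notMem.1 b2 J) ⟨p, hp, hJ⟩

theorem stMono (hT : StTr) (hB : StBdTr) : StMono := stMono_of stOrd stTrE hT hB

end Vale.Agent.P287Q.H1
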