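import Vale.Agent.P287Q.H1.St
import Vale.Agent.P287Q.H1.Bas
import Vale.Agent.P287Q.H1.Gir
import Mathlib.Analysis.Calculus.MeanValue

/-!
# The differential closure of a size function
-/

open Filter Topology Set Function Asymptotics Metric

noncomputable section

namespace Vale.Agent.P287Q.H1

variable {n : ℕ} {f : W n → ℂ} {q : W n}

theorem szD_succ (d : ℕ) (f : W n → ℂ) (z : W n) :
    szD (d + 1) f z = rt (d + 1) ‖f z‖ + ∑ l, szD d (pd l f) z := rfl

theorem szD_nonneg : ∀ (d : ℕ) (f : W n → ℂ) (z : W n), 0 ≤ szD d f z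
  | 0, _, _ => le_rfl
  | d + 1, f, z => add_nonneg (rt_nonneg _ (norm_nonneg _))
      (Finset.sum_nonneg fun l _ => szD_nonneg d (pd l f) z)

theorem rt_le_szD {d : ℕ} (hd : d ≠ 0) (f : W n → ℂ) (z : W n) : rt d ‖f z‖ ≤ szD d f z := by
  obtain ⟨d, rfl⟩ := Nat.exists_eq_succ_of_ne_zero hd
  exact le_add_of_nonneg_right (Finset.sum_nonneg fun l _ => szD_nonneg d (pd l f) z)

theorem szD_pd_le (d : ℕ) (f : W n → ℂ) (l : Fin n) (z : W n) :
    szD d (pd l f) z ≤ szD (d + 1) f z :=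
  (Finset.single_le_sum (f := fun l => szD d (pd l f) z) (fun l _ => szD_nonneg d (pd l f) z)
    (Finset.mem_univ l)).trans (le_add_of_nonneg_left (rt_nonneg _ (norm_nonneg _)))

theorem pd_an (hf : AnalyticAt ℂ f q) (l : Fin n) : AnalyticAt ℂ (pd l f) q :=
  ((ContinuousLinearMap.apply ℂ ℂ (Pi.single l (1 : ℂ) : W n)).analyticAt _).comp hf.fderiv

theorem pd_ind {k : ℕ} (h : Ind k f) (l : Fin n) : Ind k (pd l f) := fun z => by
  have e : (fun w => f (pr k z + w)) = fun w => f (z + w) := by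
    funext w
    rw [← h (pr k z + w), ← h (z + w)]
    congr 1
    funext j
    by_cases hj : j.val < k <;> simp [pr, hj]
  have h1 := fderiv_comp_add_left (𝕜 := ℂ) (f := f) (x := (0 : W n)) (pr k z)
  have h2 := fderiv_comp_add_left (𝕜 := ℂ) (f := f) (x := (0 : W n)) z
  rw [add_zero] at h1 h2
  simp only [pd]
  rw [← h1, ← h2, e]

theorem sat_opNorm (L : W n →L[ℂ] ℂ) : ‖L‖ ≤ ∑ l, ‖L (Pi.single l 1)‖ := by
  refine L.opNorm_le_bound (Finset.sum_nonneg fun _ _ => norm_nonneg _) fun v => ?_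
  have e : L v = ∑ l, v l * L (Pi.single l 1) := by
    conv_lhs => rw [← Finset.univ_sum_single v, map_sum]
    refine Finset.sum_congr rfl fun l _ => ?_
    rw [← smul_eq_mul, ← map_smul, ← Pi.single_smul, smul_eq_mul, mul_one]
  rw [e, Finset.sum_mul]
  refine (norm_sum_le _ _).trans (Finset.sum_le_sum fun l _ => ?_)
  rw [norm_mul, mul_comm]
  exact mul_le_mul_of_nonneg_left (norm_le_pi_norm v l) (norm_nonneg _)

theorem szD_cont : ∀ (d : ℕ) {f : W n → ℂ} {q : W n}, AnalyticAt ℂ f q → ContinuousAt (szD d f) q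
  | 0, _, _, _ => continuousAt_const
  | d + 1, _, _, hf => ((continuous_rt (d + 1)).continuousAt.comp hf.continuousAt.norm).add
      (tendsto_finsetSum _ fun l _ => szD_cont d (pd_an hf l))

theorem szD_ev_cont (d : ℕ) (hf : AnalyticAt ℂ f q) : ∀ᶠ z in 𝓝 q, ContinuousAt (szD d f) z :=
  hf.eventually_analyticAt.mono fun _ h => szD_cont d h

/-- Taylor's estimate -/
theorem szD_tay : ∀ (d : ℕ) {f : W n → ℂ}, AnalyticAt ℂ f q → ∃ C ε : ℝ, 0 ≤ C ∧ 0 < ε ∧
    ∀ z ∈ ball q ε, ∀ w ∈ ball q ε, ‖f w‖ ≤ C * (szD d f z + ‖w - z‖) ^ d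
  | 0, f, hf => by
    obtain ⟨R, M, hR, hM, h⟩ := exists_ball hf
    exact ⟨M, R, hM, hR, fun z _ w hw => by
      rw [pow_zero, mul_one]; exact (h w (mem_ball_iff_norm.1 hw).le).2⟩
  | d + 1, f, hf => by
    choose C ε hC hε h using fun l => szD_tay d (pd_an hf l)
    have h1 : ∀ᶠ z in 𝓝 q, AnalyticAt ℂ f z ∧ ∀ l, z ∈ ball q (ε l) :=
      hf.eventually_analyticAt.and (eventually_all.2 fun l => ball_mem_nhds q (hε l))
    obtain ⟨δ, hδ, h2⟩ := nhds_basis_ball.eventually_iff.1 h1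
    have hS : 0 ≤ ∑ l, C l := Finset.sum_nonneg fun l _ => hC l
    refine ⟨1 + ∑ l, C l, δ, by positivity, hδ, fun z hz w hw => ?_⟩
    have s0 := szD_nonneg (d + 1) f z
    have h3 : ‖f w - f z‖ ≤ (∑ l, C l) * (szD (d + 1) f z + ‖w - z‖) ^ d * ‖w - z‖ := by
      refine Convex.norm_image_sub_le_of_norm_fderiv_le (𝕜 := ℂ)
        (s := ball q δ ∩ closedBall z ‖w - z‖) (fun u hu => (h2 hu.1).1.differentiableAt)
        (fun u hu => (sat_opNorm _).trans ?_) ((convex_ball _ _).inter (convex_closedBall _ _))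
        ⟨hz, mem_closedBall_self (norm_nonneg _)⟩ ⟨hw, mem_closedBall_iff_norm.2 le_rfl⟩
      rw [Finset.sum_mul]
      refine Finset.sum_le_sum fun l _ => (h l z ((h2 hz).2 l) u ((h2 hu.1).2 l)).trans ?_
      exact mul_le_mul_of_nonneg_left (pow_le_pow_left₀
        (add_nonneg (szD_nonneg _ _ _) (norm_nonneg _))
        (add_le_add (szD_pd_le d f l z) (mem_closedBall_iff_norm.1 hu.2)) d) (hC l)
    have h4 : ‖f z‖ ≤ (szD (d + 1) f z + ‖w - z‖) ^ (d + 1) :=
      (rt_le_iff d.succ_ne_zero (norm_nonneg _) (by positivity)).1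
        ((rt_le_szD d.succ_ne_zero f z).trans (le_add_of_nonneg_right (norm_nonneg _)))
    have h5 : (∑ l, C l) * (szD (d + 1) f z + ‖w - z‖) ^ d * ‖w - z‖ ≤
        (∑ l, C l) * (szD (d + 1) f z + ‖w - z‖) ^ (d + 1) := by
      rw [mul_assoc, pow_succ]
      exact mul_le_mul_of_nonneg_left (mul_le_mul_of_nonneg_left (le_add_of_nonneg_left s0)
        (by positivity)) hS
    have h6 := norm_le_norm_add_norm_sub' (f w) (f z)
    rw [add_mul, one_mul]
    linarith

section lip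

variable {L L' : W n → ℝ}

theorem Lip.add (h : Lip L q) (h' : Lip L' q) (h0 : ∀ z, 0 ≤ L z) (h0' : ∀ z, 0 ≤ L' z) :
    Lip (fun z => L z + L' z) q := by
  refine IsBigO.add (h.trans (isBigO_of_le' ?_ ?_)) (h'.trans (isBigO_of_le' ?_ ?_)) <;>
    refine Eventually.of_forall fun p => ?_
  · positivity
  · rw [abs_of_nonneg (h0 _), abs_of_nonneg (add_nonneg (h0 _) (h0' _))]; linarith [h0' p.1]
  · positivity
  · rw [abs_of_nonneg (h0' _), abs_of_nonneg (add_nonneg (h0 _) (h0' _))]; linarith [h0 p.1]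

theorem Lip.sum {κ : Type*} (s : Finset κ) {F : κ → W n → ℝ} (h : ∀ i ∈ s, Lip (F i) q)
    (h0 : ∀ i z, 0 ≤ F i z) : Lip (fun z => ∑ i ∈ s, F i z) q := by
  refine IsBigO.fun_sum fun i hi => (h i hi).trans (isBigO_of_le' ?_ ?_) <;>
    refine Eventually.of_forall fun p => ?_
  · positivity
  · rw [abs_of_nonneg (h0 _ _), abs_of_nonneg (Finset.sum_nonneg fun j _ => h0 j _)]
    exact add_le_add_left (Finset.single_le_sum (f := fun i => F i p.1) (fun j _ => h0 j _) hi) _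

theorem lip_pr (k : ℕ) (q : W n) : Lip (fun z => ‖z - pr k z‖) q := by
  refine isBigO_of_le' (Eventually.of_forall fun p => norm_nonneg _)
    (Eventually.of_forall fun p => ?_)
  have e : p.2 - pr k p.2 = p.1 - pr k p.1 + (p.2 - p.1 - pr k (p.2 - p.1)) := by
    rw [pr_sub]; abel
  beta_reduce
  rw [e, abs_norm]
  exact (norm_add_le _ _).trans (add_le_add_right (norm_sub_pr_le k _) _)

end lip

theorem szD_lip : ∀ (d : ℕ) {f : W n → ℂ}, AnalyticAt ℂ f q → Lip (szD d f) q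
  | 0, _, _ => isBigO_zero _ _
  | d + 1, f, hf => by
    refine IsBigO.add ?_ (IsBigO.fun_sum fun l _ => (szD_lip d (pd_an hf l)).trans
      (isBigO_of_le' (Eventually.of_forall fun p => by positivity)
        (Eventually.of_forall fun p => ?_)))
    · obtain ⟨C, ε, hC, hε, h⟩ := szD_tay (d + 1) hf
      refine (rt_isBigO_iff d.succ_ne_zero (Eventually.of_forall fun p => norm_nonneg _)).2
        (IsBigO.of_bound C ?_)
      filter_upwards [prod_mem_nhds (ball_mem_nhds q hε) (ball_mem_nhds q hε)] with p hp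
      rw [norm_norm, Real.norm_of_nonneg (by positivity), abs_of_nonneg (szD_nonneg _ _ _)]
      exact h p.1 hp.1 p.2 hp.2
    · rw [abs_of_nonneg (szD_nonneg _ _ _), abs_of_nonneg (szD_nonneg _ _ _)]
      exact add_le_add_left (szD_pd_le d f l _) _

/-- Cauchy's estimate -/
theorem dom_pd {d : ℕ} (hd : d ≠ 0) (hf : AnalyticAt ℂ f q) (l : Fin n) :
    DomD (fun z => rt d ‖pd l f z‖) (fun z => rt (d + 1) ‖f z‖) q := by
  obtain ⟨ε, hε, h⟩ := gir_nhds hf.eventually_analyticAt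
  refine ⟨ball q ε, ball_mem_nhds q hε, ε, hε, fun K =>
    ⟨rt d (2 * |K| ^ (d + 1)), fun z hz r hr hr' hK => ?_⟩⟩
  have h1 : ∀ t : ℂ, ‖t‖ ≤ r / 2 → z + t • (Pi.single l 1 : W n) ∈ ball z r := fun t ht => by
    rw [mem_ball_iff_norm, add_sub_cancel_left, norm_smul, Pi.norm_single, norm_one, mul_one]
    linarith
  have h2 := cauchy_dl (M := (|K| * r) ^ (d + 1)) (half_pos hr)
    (fun t ht => h z hz r hr' (h1 t ht)) (fun t ht => (rt_le_iff d.succ_ne_zero (norm_nonneg _)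
      (by positivity)).1 ((le_abs_self _).trans ((hK _ (h1 t ht)).trans
        (mul_le_mul_of_nonneg_right (le_abs_self K) hr.le)))) 1
  rw [dl_one] at h2
  rw [abs_of_nonneg (rt_nonneg _ (norm_nonneg _)), rt_le_iff hd (norm_nonneg _)
    (mul_nonneg (rt_nonneg _ (by positivity)) hr.le), mul_pow, rt_pow hd (by positivity)]
  refine h2.trans (le_of_eq ?_)
  rw [mul_pow, pow_succ r d]
  simp only [Nat.factorial_one, Nat.cast_one, pow_one]
  field_simp

theorem szD_dom : ∀ (d : ℕ) {f : W n → ℂ}, AnalyticAt ℂ f q →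
    DomD (szD d f) (fun z => rt d ‖f z‖) q
  | 0, _, _ => DomD.of_isBigO (isBigO_zero _ _)
  | d + 1, f, hf => by
    refine DomD.add (DomD.refl _ q) (DomD.sum _ fun l _ => ?_)
    rcases eq_or_ne d 0 with rfl | hd
    · exact DomD.of_isBigO (isBigO_zero _ _)
    · exact (szD_dom d (pd_an hf l)).trans (dom_pd hd hf l)

theorem szD_ord (d : ℕ) (hf : AnalyticAt ℂ f q) : Ord f q d ↔ szD d f q = 0 := by
  refine ⟨fun h => ?_, fun h => ?_⟩
  · rcases eq_or_ne d 0 with rfl | hd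
    · rfl
    have h1 := (szD_dom d hf).ord ((rt_isBigO_iff hd
      (Eventually.of_forall fun p => norm_nonneg _)).2 h.norm_left)
    obtain ⟨C, hC⟩ := h1.bound
    simpa using hC.self_of_nhds
  · obtain ⟨C, ε, -, hε, h1⟩ := szD_tay d hf
    refine IsBigO.of_bound C ?_
    filter_upwards [ball_mem_nhds q hε] with w hw
    have h2 := h1 q (mem_ball_self hε) w hw
    rwa [h, zero_add, ← Real.norm_of_nonneg (pow_nonneg (norm_nonneg (w - q)) d)] at h2

section sz

variable {D : ℕ} {L L' : W n → ℝ}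

theorem Sz.congr (h : Sz D L q) (e : L' =Θ[𝓝 q] L) : Sz D L' q := by
  obtain ⟨κ, i, g, hg, h⟩ := h
  exact ⟨κ, i, g, hg, e.trans h⟩

theorem sz_zero (hD : D ≠ 0) (q : W n) : Sz D (fun _ => 0) q :=
  ⟨Empty, inferInstance, fun i => i.elim, fun i => i.elim, by
    simp only [nm, Finset.univ_eq_empty, Finset.sum_empty, rt_zero hD]; exact isTheta_rfl⟩

theorem Sz.add (hD : D ≠ 0) (h : Sz D L q) (h' : Sz D L' q) (h0 : ∀ z, 0 ≤ L z)
    (h0' : ∀ z, 0 ≤ L' z) : Sz D (fun z => L z + L' z) q := by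
  obtain ⟨κ, i, g, hg, h⟩ := h
  obtain ⟨κ', i', g', hg', h'⟩ := h'
  have a := fun z => nm_nonneg g z
  have a' := fun z => nm_nonneg g' z
  have e : ∀ z, nm (Sum.elim g g') z = nm g z + nm g' z := fun z => Fintype.sum_sum_type _
  refine ⟨κ ⊕ κ', inferInstance, Sum.elim g g', fun j => Sum.rec hg hg' j,
    (add_isTheta (.of_forall h0) (.of_forall h0') (.of_forall fun z => rt_nonneg D (a z))
      (.of_forall fun z => rt_nonneg D (a' z)) h h').trans ⟨IsBigO.add ?_ ?_, ?_⟩⟩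
  · exact isBigO_of_le' (.of_forall fun z => rt_nonneg D (a z)) (.of_forall fun z =>
      rt_mono D (a z) (by rw [e]; linarith [a' z]))
  · exact isBigO_of_le' (.of_forall fun z => rt_nonneg D (a' z)) (.of_forall fun z =>
      rt_mono D (a' z) (by rw [e]; linarith [a z]))
  · exact isBigO_of_le' (.of_forall fun z => rt_nonneg D (nm_nonneg _ z)) (.of_forall fun z => by
      rw [e]; exact rt_add_le hD (a z) (a' z))

theorem Sz.sum (hD : D ≠ 0) {κ : Type*} (s : Finset κ) {F : κ → W n → ℝ}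
    (h : ∀ i ∈ s, Sz D (F i) q) (h0 : ∀ i z, 0 ≤ F i z) : Sz D (fun z => ∑ i ∈ s, F i z) q := by
  classical
  induction s using Finset.induction_on with
  | empty => simpa only [Finset.sum_empty] using sz_zero hD q
  | insert j s hj ih =>
    simp only [Finset.sum_insert hj]
    exact (h j (Finset.mem_insert_self _ _)).add hD
      (ih fun i hi => h i (Finset.mem_insert_of_mem hi)) (h0 j)
      fun z => Finset.sum_nonneg fun i _ => h0 i z

theorem sz_rt (hD : D ≠ 0) {d : ℕ} (hd : d ∣ D) (hf : AnalyticAt ℂ f q) :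
    Sz D (fun z => rt d ‖f z‖) q := by
  obtain ⟨m, rfl⟩ := hd
  refine ⟨Unit, inferInstance, fun _ z => f z ^ m, fun _ => hf.pow m, ?_⟩
  simp only [nm, Finset.univ_unique, Finset.sum_singleton, norm_pow,
    rt_pow_mul (right_ne_zero_of_mul hD) d (norm_nonneg _)]
  exact isTheta_rfl

theorem sz_norm (hD : D ≠ 0) (hf : AnalyticAt ℂ f q) : Sz D (fun z => ‖f z‖) q := by
  simpa only [rt_one'] using sz_rt hD (one_dvd D) hf

theorem sz_pr (hD : D ≠ 0) (k : ℕ) (q : W n) : Sz D (fun z => ‖z - pr k z‖) q := by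
  refine (Sz.sum hD Finset.univ (F := fun l z => ‖(z - pr k z) l‖) (fun l _ => sz_norm hD
    ((an_crd l _).comp (analyticAt_id.sub (pr_an k q)))) fun _ _ => norm_nonneg _).congr
    ⟨isBigO_of_le' (.of_forall fun _ => norm_nonneg _) (.of_forall fun z => ?_),
      IsBigO.fun_sum fun l _ => isBigO_of_le' (.of_forall fun _ => norm_nonneg _)
        (.of_forall fun z => norm_le_pi_norm _ l)⟩
  exact (pi_norm_le_iff_of_nonneg (Finset.sum_nonneg fun _ _ => norm_nonneg _)).2 fun l =>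
    Finset.single_le_sum (f := fun l => ‖(z - pr k z) l‖) (fun _ _ => norm_nonneg _)
      (Finset.mem_univ l)

theorem szD_sz (hD : D ≠ 0) : ∀ (d : ℕ) {f : W n → ℂ}, AnalyticAt ℂ f q → d.factorial ∣ D →
    Sz D (szD d f) q
  | 0, _, _, _ => sz_zero hD q
  | d + 1, _, hf, h => (sz_rt hD ((Nat.dvd_factorial d.succ_pos le_rfl).trans h) hf).add hD
      (Sz.sum hD _ (fun l _ => szD_sz hD d (pd_an hf l)
        ((Nat.factorial_dvd_factorial d.le_succ).trans h)) fun _ _ => szD_nonneg _ _ _)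
      (fun _ => rt_nonneg _ (norm_nonneg _)) fun _ => Finset.sum_nonneg fun _ _ => szD_nonneg _ _ _

end sz

theorem stSz : StSz := fun _ _ _ d hf =>
  ⟨szD_lip d hf, szD_ev_cont d hf, szD_dom d hf, isBigO_norm_left.trans (szD_ord d hf),
    fun _ hD h => szD_sz hD.ne' d hf h⟩

theorem stVanC : StVanC := fun n κ _ g q m A hg hq h => by
  classical
  let p : W n → W n := fun z l => if l ∈ A then 0 else z l
  have hp : Tendsto p (𝓝 q) (𝓝 q) := by
    have e : p q = q := funext fun l => by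
      by_cases hl : l ∈ A
      · simp only [p, if_pos hl, hq l hl]
      · simp only [p, if_neg hl]
    have c : Continuous p := continuous_pi fun l => by
      by_cases hl : l ∈ A
      · simpa only [p, if_pos hl] using continuous_const
      · simpa only [p, if_neg hl] using continuous_apply l
    simpa only [e] using c.tendsto q
  refine (nm_isBigO_iff (k := id)).2 fun i => ?_
  obtain ⟨C, ε, hC, hε, h1⟩ := szD_tay m (hg i)
  refine IsBigO.of_bound C ?_
  filter_upwards [ball_mem_nhds q hε, hp.eventually (ball_mem_nhds q hε), hp.eventually h,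
    hp.eventually (hg i).eventually_analyticAt] with z hz hz' h2 h3
  have h4 := h1 _ hz' z hz
  have s0 : 0 ≤ ∑ l ∈ A, ‖z l‖ := Finset.sum_nonneg fun _ _ => norm_nonneg _
  rw [(szD_ord m h3).1 (van_nm_iff.1 (h2 fun l hl => if_pos hl) i), zero_add] at h4
  rw [Real.norm_of_nonneg (pow_nonneg s0 m)]
  refine h4.trans (mul_le_mul_of_nonneg_left (pow_le_pow_left₀ (norm_nonneg _)
    ((pi_norm_le_iff_of_nonneg s0).2 fun l => ?_) m) hC)
  by_cases hl : l ∈ A
  · simpa only [Pi.sub_apply, p, if_pos hl, sub_zero] using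
      Finset.single_le_sum (f := fun l => ‖z l‖) (fun _ _ => norm_nonneg _) hl
  · simpa only [Pi.sub_apply, p, if_neg hl, sub_self, norm_zero] using s0

theorem rt_nm_le {κ : Type} [Fintype κ] {D : ℕ} (hD : D ≠ 0) (g : κ → W n → ℂ) (z : W n) :
    rt D (nm g z) ≤ ∑ i, szD D (g i) z :=
  (rt_sum_le hD _ fun _ _ => norm_nonneg _).trans
    (Finset.sum_le_sum fun i _ => rt_le_szD hD (g i) z)

theorem sat_nm_mul {κ : Type} [Fintype κ] (u : W n → ℂ) (g : κ → W n → ℂ) (z : W n) :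
    nm (fun i w => u w * g i w) z = ‖u z‖ * nm g z := by
  simp only [nm, norm_mul, Finset.mul_sum]

theorem dom_nm {κ : Type} [Fintype κ] (D : ℕ) {g : κ → W n → ℂ} (hg : ∀ i, AnalyticAt ℂ (g i) q) :
    DomD (fun z => ∑ i, szD D (g i) z) (fun z => rt D (nm g z)) q :=
  DomD.sum _ fun i _ => (szD_dom D (hg i)).right (isBigO_of_le'
    (.of_forall fun _ => rt_nonneg _ (norm_nonneg _))
    (.of_forall fun z => rt_mono D (norm_nonneg _) (le_nm g i z)))

theorem Pres.L_nonneg {k : ℕ} (P : Pres n k q) (D : ℕ) (a : ℕ → ℕ) (m : ℕ) (z : W n) :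
    0 ≤ P.L D a m z :=
  add_nonneg (add_nonneg (norm_nonneg _) (Finset.sum_nonneg fun _ _ => szD_nonneg _ _ _))
    (Finset.sum_nonneg fun _ _ => szD_nonneg _ _ _)

theorem Pres.T_nonneg {k : ℕ} (P : Pres n k q) (D : ℕ) (a : ℕ → ℕ) (m : ℕ) (z : W n) :
    0 ≤ P.T D a m z :=
  add_nonneg (pf_nonneg _ _ _ _ _) (rt_nonneg _ (nm_nonneg _ _))

theorem Pres.T_le_L {k : ℕ} (P : Pres n k q) {D m : ℕ} (hD : D ≠ 0) (hm : m ≠ 0) (a : ℕ → ℕ)
    (z : W n) : P.T D a m z ≤ P.L D a m z :=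
  add_le_add (add_le_add_right ((congrArg (rt D) (sat_nm_mul _ P.g z)).symm.trans_le
    (rt_nm_le hD _ z)) _) (rt_nm_le hm P.g z)

theorem stSat : StSat := fun n k q P D m a hD hm => by
  have hg : ∀ i, AnalyticAt ℂ (fun w => mon (ex a P.nu) w * P.g i w) q :=
    fun i => (mon_an _ q).mul (P.an i)
  have s0 : ∀ {d : ℕ} {G : P.κ → W n → ℂ} (z : W n), 0 ≤ ∑ i, szD d (G i) z :=
    fun _ => Finset.sum_nonneg fun _ _ => szD_nonneg _ _ _
  have r1 : ∀ z, 0 ≤ rt D (‖mon (ex a P.nu) z‖ * nm P.g z) :=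
    fun z => rt_nonneg _ (mul_nonneg (norm_nonneg _) (nm_nonneg _ _))
  have r2 : ∀ z, 0 ≤ rt m (nm P.g z) := fun z => rt_nonneg _ (nm_nonneg _ _)
  have hF := (D + m).factorial_ne_zero
  refine ⟨((lip_pr k q).add (Lip.sum _ (fun i _ => szD_lip D (hg i)) fun _ _ => szD_nonneg _ _ _)
    (fun _ => norm_nonneg _) s0).add (Lip.sum _ (fun i _ => szD_lip m (P.an i))
      fun _ _ => szD_nonneg _ _ _) (fun z => add_nonneg (norm_nonneg _) (s0 z)) s0, ?_,
    isBigO_of_le' (.of_forall (P.T_nonneg D a m)) (.of_forall (P.T_le_L hD.ne' hm.ne' a)),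
    ((DomD.of_isBigO ?_).add ((dom_nm D hg).right ?_)).add ((dom_nm m P.an).right ?_),
    ((sz_pr hF k q).add hF (Sz.sum hF _ (fun i _ => szD_sz hF D (hg i)
      (Nat.factorial_dvd_factorial (Nat.le_add_right _ _))) fun _ _ => szD_nonneg _ _ _)
      (fun _ => norm_nonneg _) s0).add hF (Sz.sum hF _ (fun i _ => szD_sz hF m (P.an i)
      (Nat.factorial_dvd_factorial (Nat.le_add_left _ _))) fun _ _ => szD_nonneg _ _ _)
      (fun z => add_nonneg (norm_nonneg _) (s0 z)) s0⟩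
  · filter_upwards [eventually_all.2 fun i => szD_ev_cont D (hg i),
      eventually_all.2 fun i => szD_ev_cont m (P.an i)] with z h1 h2
    exact ((continuousAt_id.sub (pr_an k z).continuousAt).norm.add
      (tendsto_finsetSum _ fun i _ => h1 i)).add (tendsto_finsetSum _ fun i _ => h2 i)
  · exact isBigO_of_le' (.of_forall fun _ => norm_nonneg _) (.of_forall fun z =>
      (le_add_of_nonneg_right (r1 z)).trans (le_add_of_nonneg_right (r2 z)))
  · refine isBigO_of_le' (.of_forall fun _ => rt_nonneg _ (nm_nonneg _ _)) (.of_forall fun z => ?_)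
    rw [sat_nm_mul]
    exact (le_add_of_nonneg_left (norm_nonneg _)).trans (le_add_of_nonneg_right (r2 z))
  · exact isBigO_of_le' (.of_forall r2) (.of_forall fun z =>
      le_add_of_nonneg_left (pf_nonneg _ _ _ _ _))

theorem exists_max {k : ℕ} : ∀ (d : ℕ) {f : W n → ℂ}, AnalyticAt ℂ f q → Ind k f →
    szD (d + 1) f q = 0 → szD (d + 2) f q ≠ 0 → ∃ u : W n → ℂ, AnalyticAt ℂ u q ∧ Ind k u ∧
      u q = 0 ∧ fderiv ℂ u q ≠ 0 ∧ ∀ z, ‖u z‖ ≤ szD (d + 1) f z
  | 0, f, hf, hi, h0, h1 => by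
    have h2 := ((szD_ord 1 hf).2 h0).eq_zero one_ne_zero
    exact ⟨f, hf, hi, h2, fun h3 => h1 ((szD_ord 2 hf).1 ((ord_two_iff hf).2 ⟨h2, h3⟩)),
      fun z => (rt_one' _).symm.trans_le (rt_le_szD one_ne_zero f z)⟩
  | d + 1, f, hf, hi, h0, h1 => by
    have h2 := ((szD_ord (d + 2) hf).2 h0).eq_zero (Nat.succ_ne_zero _)
    obtain ⟨l, hl⟩ : ∃ l, szD (d + 2) (pd l f) q ≠ 0 := by
      by_contra h
      push Not at h
      refine h1 ?_
      rw [szD_succ, h2, norm_zero, rt_zero (Nat.succ_ne_zero _), zero_add]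
      exact Finset.sum_eq_zero fun l _ => h l
    obtain ⟨u, a1, a2, a3, a4, a5⟩ := exists_max d (pd_an hf l) (pd_ind hi l)
      (le_antisymm ((szD_pd_le _ f l q).trans_eq h0) (szD_nonneg _ _ _)) hl
    exact ⟨u, a1, a2, a3, a4, fun z => (a5 z).trans (szD_pd_le _ f l z)⟩

theorem stMax : StMax := fun n k κ _ g q m hg hi hm h0 h1 => by
  obtain ⟨d, rfl⟩ := Nat.exists_eq_succ_of_ne_zero hm.ne'
  obtain ⟨i, h2⟩ := not_forall.1 (mt van_nm_iff.2 h1)
  obtain ⟨u, a1, a2, a3, a4, a5⟩ := exists_max d (hg i) (hi i)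
    ((szD_ord _ (hg i)).1 (van_nm_iff.1 h0 i)) (mt (szD_ord _ (hg i)).2 h2)
  have a6 : ∀ z, ‖u z‖ ≤ ∑ i, szD (d + 1) (g i) z := fun z => (a5 z).trans
    (Finset.single_le_sum (f := fun i => szD (d + 1) (g i) z) (fun _ _ => szD_nonneg _ _ _)
      (Finset.mem_univ i))
  exact ⟨u, a1, a2, a3, a4, a6, (dom_nm _ hg).left
    (isBigO_of_le' (.of_forall fun _ => norm_nonneg _) (.of_forall a6))⟩

end Vale.Agent.P287Q.H1
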