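import Vale.Agent.P287Q.H1.St

/-!
# Principalization: the main step (from level `k + 1` and order `m` to order `m + 1`)
-/

open Filter Topology Set Function Asymptotics

noncomputable section

namespace Vale.Agent.P287Q.H1

open Mf

namespace Step

variable {n : ℕ} {X X' : Mf n} {π : X'.M → X.M} {C : Set X.M}

theorem dv_ext {E E' : Dv X} (h1 : E.r = E'.r) (h2 : E.E = E'.E) : E = E' := by
  cases E; cases E'; cases h1; cases h2; rfl

theorem trE_uniq {E : Dv X} {E' E'' : Dv X'} (h : TrE π C E E') (h' : TrE π C E E'') :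
    E' = E'' := by
  refine dv_ext (h.r.trans h'.r.symm) (funext fun j => ?_)
  by_cases e : j = E.r
  · rw [e, h.new, h'.new]
  · rw [h.old j e, h'.old j e]

theorem trE_mask {E : Dv X} {E' : Dv X'} (h : TrE π C E E') {r₀ : ℕ} (hr : r₀ ≤ E.r) :
    TrE π C (E.mask r₀) (E'.mask r₀) where
  r := h.r
  new := by
    show (if E.r < r₀ then ∅ else E'.E E.r) = _
    rw [if_neg (not_lt.2 hr), h.new]
  old j hj := by
    show (if j < r₀ then ∅ else E'.E j) = closure (π ⁻¹' ((if j < r₀ then ∅ else E.E j) \ C))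
    split_ifs
    · simp
    · exact h.old j hj

theorem trE_sub {E : Dv X} {E' : Dv X'} (h : TrE π C E E') (hπ : Continuous π) {j : ℕ}
    (hj : j ≠ E.r) : E'.E j ⊆ π ⁻¹' E.E j := by
  rw [h.old j hj]
  exact closure_minimal (preimage_mono sdiff_subset) ((E.closed j).preimage hπ)

/-- a centre for the new labels is a centre for all labels -/
theorem adm_up {E : Dv X} {O Ob : Obj X} {r₀ : ℕ} {J J' : Finset ℕ}
    (h : Adm (E.mask r₀) Ob C J') (hs : Ob.S ⊆ O.S) (hJ : Ob.S ⊆ E.cap J)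
    (hm : ∀ p ∈ Ob.S, ∀ j < r₀, j ∉ J → p ∉ E.E j) : Adm E O C (J ∪ J') where
  ne := h.ne
  closed := h.closed
  sub := h.sub.trans hs
  inv := h.inv
  lab p hp j hj := by
    rcases Finset.mem_union.1 hj with hj | hj
    · exact hJ (h.sub hp) j hj
    · have h1 : p ∈ (if j < r₀ then ∅ else E.E j) := h.lab hp j hj
      split_ifs at h1
      · exact h1.elim
      · exact h1
  snc := by
    obtain ⟨c, hc, H⟩ := h.snc
    refine ⟨c, hc, fun p hp => ?_⟩
    obtain ⟨φ, A, nu, h1, h2, h3, h4, h5, h6⟩ := H p hp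
    refine ⟨φ, A, nu, h1, h2, h3, h4, h5, ?_⟩
    have h7 : ∀ᶠ z in 𝓝 p, ∀ j ∈ Finset.range r₀ \ J, z ∉ E.E j :=
      (Finset.eventually_all _).2 fun j hj => (E.closed j).isOpen_compl.mem_nhds
        (hm p (h.sub hp) j (Finset.mem_range.1 (Finset.mem_sdiff.1 hj).1) (Finset.mem_sdiff.1 hj).2)
    filter_upwards [h6, h7] with z a b j hj
    rw [Finset.mem_union, not_or] at hj
    have h8 : z ∈ (if j < r₀ then ∅ else E.E j) ↔ φ z ∈ hyp nu j := a j hj.2
    split_ifs at h8 with e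
    · exact iff_of_false (b j (Finset.mem_sdiff.2 ⟨Finset.mem_range.2 e, hj.1⟩)) fun k => h8.2 k
    · exact h8

theorem adm_mono {E : Dv X} {O O' : Obj X} {J : Finset ℕ} (h : Adm E O C J) (hs : O.S ⊆ O'.S) :
    Adm E O' C J := ⟨h.ne, h.closed, h.sub.trans hs, h.inv, h.lab, h.snc⟩

/-- the state in the loop over the old labels -/
structure Mid (Q : Pred n) (k D m r₀ : ℕ) (F : Finset (Finset ℕ)) (X : Mf n) (E : Dv X) (O : Obj X)
    (a : ℕ → ℕ) (Oc : Obj X) : Prop where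
  q : Q X E O
  lev : Lev E k D O
  comp : Comp E k D m a O Oc
  levc : Lev (E.mask r₀) (k + 1) (D + m).factorial Oc
  le : r₀ ≤ E.r
  fc : ∀ J ⊆ Finset.range r₀, (Oc.S ∩ E.cap J).Nonempty → J ∈ F

/-- the predicate for the resolution of the boundary object -/
def Inner (Q : Pred n) (k D m r₀ : ℕ) (F : Finset (Finset ℕ)) (J : Finset ℕ) : Pred n :=
  fun X E₁ Ob => ∃ E O a Oc, E₁ = E.mask r₀ ∧ Mid Q k D m r₀ F X E O a Oc ∧ Bdy E J Oc Ob

theorem surv_inner (hE : StTrE) (hT : StTr) (hCT : StCompTr) (hBT : StBdyTr) {Q : Pred n}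
    {k D m r₀ : ℕ} (hD : 0 < D) (hm : 0 < m) (hQ : Surv k D Q) {F : Finset (Finset ℕ)}
    {J : Finset ℕ} (hJ : J ⊆ Finset.range r₀) (hmax : ∀ J' ∈ F, J'.card ≤ J.card) :
    Surv (k + 1) (D + m).factorial (Inner Q k D m r₀ F J) := by
  rintro X _ Ob C J' ⟨E, O, a, Oc, rfl, M, B⟩ - hA
  have s1 : Ob.S ⊆ Oc.S := by rw [B.1]; exact inter_subset_left
  have s2 : Ob.S ⊆ E.cap J := by rw [B.1]; exact inter_subset_right
  have A1 : Adm E O C (J ∪ J') := by
    refine adm_up hA (s1.trans M.comp.1) s2 fun p hp j hj hjJ hpj => ?_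
    have h1 := hmax _ (M.fc (insert j J) (Finset.insert_subset (Finset.mem_range.2 hj) hJ)
      ⟨p, s1 hp, fun j' hj' => by
        rcases Finset.mem_insert.1 hj' with rfl | hj'
        exacts [hpj, s2 hp j' hj']⟩)
    rw [Finset.card_insert_of_notMem hjJ] at h1
    omega
  obtain ⟨X', π, hπ, H⟩ := hQ X E O C _ M.q M.lev A1
  refine ⟨X', π, hπ, fun E₁ Ob' t1 t2 _ => ?_⟩
  obtain ⟨E', tE⟩ := (hE n X X' π C E hπ hA.closed).1 hA.inv
  obtain rfl := trE_uniq t1 (trE_mask tE M.le)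
  obtain ⟨O', tO, lO⟩ := hT n k D X X' π C E E' O _ hD M.lev A1 hπ tE
  obtain ⟨Oc', tC, lC⟩ := hT n (k + 1) _ X X' π C _ _ Oc J' (Nat.factorial_pos _) M.levc
    (adm_mono hA s1) hπ t1
  refine ⟨E', O', _, Oc', rfl, ⟨H E' O' tE tO lO, lO,
    hCT n k D m X X' π C E E' O Oc O' Oc' _ a hD hm M.lev M.comp A1 (hA.sub.trans s1) hπ tE tO tC,
    lC, by rw [tE.r]; exact M.le.trans (Nat.le_succ _), ?_⟩,
    hBT n k D X X' π C E E' O Oc Ob Oc' Ob' J _ hD M.lev M.comp.1 B A1 Finset.subset_union_left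
      hπ tE tC t2⟩
  rintro J₂ h2 ⟨b, hb, hb'⟩
  exact M.fc J₂ h2 ⟨π b, ((tC.supp b).1 hb).1, fun j hj => trE_sub tE hπ.cont
    ((Finset.mem_range.1 (h2 hj)).trans_le M.le).ne (hb' j hj)⟩

theorem loop (hE : StTrE) (hT : StTr) (hCT : StCompTr) (hB : StBdy) (hBT : StBdyTr) {Q : Pred n}
    {k D m r₀ : ℕ} (hD : 0 < D) (hQ : Surv k D Q) (R1 : Res n (k + 1)) (R2 : ResBd n k m)
    (F : Finset (Finset ℕ)) : (∀ J ∈ F, J ⊆ Finset.range r₀) →
      ∀ X E O a Oc, Mid Q k D (m + 1) r₀ F X E O a Oc → Done Q := by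
  induction F using Finset.strongInduction with
  | H F ih =>
    intro hF X E O a Oc M
    rcases F.eq_empty_or_nonempty with rfl | hne
    · refine R2 D Q hD hQ X E O a M.q M.lev fun p hp => ?_
      obtain ⟨φ, P, h1, -, h3, -⟩ := M.comp.2 p hp
      exact ⟨φ, P, h1, fun h => Finset.notMem_empty _
        (M.fc ∅ (Finset.empty_subset _) ⟨p, h3.2 h, fun j hj => (Finset.notMem_empty _ hj).elim⟩)⟩
    · obtain ⟨J, hJ, hmax⟩ := F.exists_max_image Finset.card hne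
      obtain ⟨Ob, B, lB⟩ := hB n k D (k + 1) _ r₀ X E O Oc J (Nat.factorial_pos _) M.lev M.comp.1
        M.levc
      obtain ⟨X', _, Ob', ⟨E', O', a', Oc', rfl, M', B'⟩, he⟩ :=
        R1 _ _ (Nat.factorial_pos _)
          (surv_inner hE hT hCT hBT hD m.succ_pos hQ (hF J hJ) hmax) X _ Ob
          ⟨E, O, a, Oc, rfl, M, B⟩ lB
      refine ih (F.erase J) (Finset.erase_ssubset hJ)
        (fun J' h => hF J' (Finset.mem_of_mem_erase h)) X' E' O' a' Oc'
        ⟨M'.q, M'.lev, M'.comp, M'.levc, M'.le, fun J' h1 h2 =>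
          Finset.mem_erase.2 ⟨?_, M'.fc J' h1 h2⟩⟩
      rintro rfl
      rw [← B'.1, he] at h2
      exact h2.ne_empty rfl

end Step

/-- the main step -/
theorem stStep (hE : StTrE) (hT : StTr) (hC : StComp) (hCT : StCompTr) (hB : StBdy)
    (hBT : StBdyTr) : StStep := by
  intro n k m R1 R2 D Q hD hQ X E O a q lev bd
  obtain ⟨Oc, c1, c2⟩ := hC n k D (m + 1) X E O a hD m.succ_pos lev bd
  exact Step.loop hE hT hCT hB hBT hD hQ R1 R2 (Finset.range E.r).powerset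
    (fun _ h => Finset.mem_powerset.1 h) X E O a Oc
    ⟨q, lev, c1, c2, le_rfl, fun _ h _ => Finset.mem_powerset.2 h⟩

end Vale.Agent.P287Q.H1
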