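import Vale.Agent.P287Q.H1.Easy

/-!
# Principalization by blow-ups in smooth centres: the controlled transform
-/

open Filter Topology Set Function Asymptotics

noncomputable section

namespace Vale.Agent.P287Q.H1

open Mf

variable {n : ℕ} {X X' : Mf n} {π : X'.M → X.M} {C : Set X.M}

/-- the quotient by a local equation is unique up to comparability -/
theorem Mf.Eqn.quot {Y : Set X.M} {b : X.M} {e e' : X.M → ℂ} {h h' : X.M → ℝ} (he : X.Eqn Y b e)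
    (he' : X.Eqn Y b e') (hc : ∀ᶠ z in 𝓝 b, ContinuousAt h z)
    (hc' : ∀ᶠ z in 𝓝 b, ContinuousAt h' z)
    (k : (fun z => ‖e z‖ * h z) =Θ[𝓝 b] fun z => ‖e' z‖ * h' z) : h =Θ[𝓝 b] h' := by
  have h1 : (fun z => ‖e' z‖ * h' z) =Θ[𝓝 b] fun z => ‖e z‖ * h' z :=
    (he'.isTheta he).norm_left.norm_right.mul isTheta_rfl
  exact ⟨he.cancel hc hc' (k.trans h1).1, he.cancel hc' hc (k.trans h1).2⟩

/-- uniqueness of the transform -/
theorem stTrU : StTrU := by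
  intro n X X' π C O O' b e h hT hb he hc k
  obtain ⟨e', h', a1, a2, a3, a4⟩ := hT.eq b hb
  exact a3.trans (a1.quot he a2 hc (a4.trans k.symm))

/-- the preimage of an invariant set is invariant -/
theorem Mf.IsBl.inv_pre (hπ : IsBl π C) {Y : Set X.M} (hY : X.Inv Y) : X'.Inv (π ⁻¹' Y) := by
  intro γ' hγ' b hb h
  obtain ⟨γ, hγ, h1⟩ := hπ.cov γ' hγ'
  rw [mem_preimage, (h1 b hb).2]
  exact hY γ hγ _ (h1 b hb).1 h

/-- outside the centre the blow-up is a local homeomorphism -/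
theorem Mf.IsBl.map_nhds (hπ : IsBl π C) {b : X'.M} (hb : π b ∉ C) : map π (𝓝 b) = 𝓝 (π b) := by
  obtain ⟨φ, hφ⟩ := X.exi (π b)
  obtain ⟨χ, -, -, h1, -⟩ := co_inv hφ
  have h2 : map (χ ∘ φ) (𝓝 (π b)) = 𝓝 (π b) := (map_congr h1).trans map_id
  have h3 : map ((χ ∘ φ) ∘ π) (𝓝 b) = map π (𝓝 b) := map_congr ((hπ.cont.tendsto b).eventually h1)
  rw [← h2, ← h3, comp_assoc, ← map_map, co_map (hπ.off b hb φ hφ), ← map_map, co_map hφ]
  rfl

/-- outside the centre the order does not change -/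
theorem Mf.IsBl.ord1_off (hπ : IsBl π C) {b : X'.M} (hb : π b ∉ C) {f : X.M → ℝ} :
    X'.Ord1 (f ∘ π) b ↔ X.Ord1 f (π b) := by
  obtain ⟨φ, hφ⟩ := X.exi (π b)
  rw [ord1_iff hφ, ord1_iff (hπ.off b hb φ hφ), ← hπ.map_nhds hb, isBigO_map]
  rfl

theorem Mf.ord1_gam_iff {f : X.M → ℝ} {γ : OpenPartialHomeomorph X.M X.M} (hγ : γ ∈ X.Γ) {p : X.M}
    (hp : p ∈ γ.source) : X.Ord1 (f ∘ γ) p ↔ X.Ord1 f (γ p) := by
  refine ⟨fun h => ?_, ord1_gam hγ hp⟩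
  have h1 : X.Ord1 ((f ∘ γ) ∘ γ.symm) (γ p) :=
    ord1_gam (X.symm γ hγ) (γ.map_source hp) (by rwa [γ.left_inv hp])
  refine (ord1_congr (EventuallyEq.isTheta ?_)).1 h1
  filter_upwards [γ.open_target.mem_nhds (γ.map_source hp)] with z hz
  simp only [comp_apply, γ.right_inv hz]

/-- the points where a presented function has positive order form a closed set -/
theorem Mf.IsPres.not_ord1 {E : Dv X} {k D : ℕ} (hD : D ≠ 0) {a : ℕ → ℕ} {f : X.M → ℝ} {p : X.M}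
    {φ : X.M → W n} {P : Pres n k (φ p)} (h : IsPres E k D a f p φ P) (h0 : ¬ X.Ord1 f p) :
    ∀ᶠ b in 𝓝 p, ¬ X.Ord1 f b := by
  have h1 := h.ord1 hD
  have h2 : ∀ᶠ w in 𝓝 (φ p), ¬ (pr k w = w ∧
      Van (fun z => ‖mon (ex a P.nu) z‖ * nm P.g z) D w) := by
    rcases not_and_or.1 (mt h1.self_of_nhds.2 h0) with h3 | h3
    · exact (((pr_an k _).continuousAt.sub continuousAt_id).eventually_ne
        (sub_ne_zero.2 h3)).mono fun w hw k => hw (sub_eq_zero.2 k.1)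
    · simp only [← nm_mul] at h3 ⊢
      exact (not_van_eventually (fun i => (mon_an _ _).mul (P.an i)) h3).mono fun w hw k => hw k.2
  filter_upwards [h1, (co_tendsto h.1.1).eventually h2] with b a1 a2 using mt a1.1 a2

theorem nxt_zero (r : ℕ) (J : Finset ℕ) (D : ℕ) : nxt 0 r J D D = 0 := by
  simp [nxt]

namespace TrX

variable {E : Dv X} {E' : Dv X'} {k D : ℕ} {O : Obj X} {J : Finset ℕ}

/-- `h` is a quotient at `b` of the size function which is used near `π c` -/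
def Quot (π : X'.M → X.M) (C : Set X.M) (O : Obj X) (c b : X'.M) (h : X'.M → ℝ) : Prop :=
  ∃ e : X'.M → ℂ, X'.Eqn (π ⁻¹' C) b e ∧ (∀ᶠ z in 𝓝 b, ContinuousAt h z) ∧
    (fun z => ‖e z‖ * h z) =Θ[𝓝 b] (O.N (π c) ∘ π)

theorem Quot.ev {c b : X'.M} {h : X'.M → ℝ} (q : Quot π C O c b h) :
    ∀ᶠ z in 𝓝 b, Quot π C O c z h := by
  obtain ⟨e, h1, h2, h3⟩ := q
  filter_upwards [h1.ev, h2.eventually_nhds, theta_ev h3] with z a1 a2 a3 using ⟨e, a1, a2, a3⟩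

theorem Quot.theta {c c' b : X'.M} {h h' : X'.M → ℝ} (q : Quot π C O c b h)
    (q' : Quot π C O c' b h') (k : (O.N (π c) ∘ π) =Θ[𝓝 b] (O.N (π c') ∘ π)) : h =Θ[𝓝 b] h' := by
  obtain ⟨e, h1, h2, h3⟩ := q
  obtain ⟨e', k1, k2, k3⟩ := q'
  exact h1.quot k1 h2 k2 ((h3.trans k).trans k3.symm)

theorem Quot.ord1 {c b : X'.M} {h : X'.M → ℝ} (q : Quot π C O c b h) (h0 : X'.Ord1 h b) :
    X'.Ord1 (O.N (π c) ∘ π) b := by
  obtain ⟨e, h1, -, h3⟩ := q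
  refine h0.of_isBigO (h3.2.trans ?_)
  simpa only [one_mul] using
    (h1.cont.self_of_nhds.norm.tendsto.isBigO_one ℝ).mul (isBigO_refl h (𝓝 b))

theorem exists_quot (hU : StUp) (hD : 0 < D) (hL : Lev E k D O) (hA : Adm E O C J)
    (hπ : IsBl π C) (hE : TrE π C E E') (b : X'.M) : ∃ h : X'.M → ℝ, π b ∈ O.S →
      Quot π C O b b h ∧
        ((∀ᶠ z in 𝓝 b, ¬ X'.Ord1 h z) ∨ ∃ φ' P', IsPres E' k D 0 h b φ' P') := by
  by_cases hb : π b ∈ O.S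
  swap
  · exact ⟨0, fun h => absurd h hb⟩
  obtain ⟨φ, P, hP⟩ := hL.pres _ hb
  obtain ⟨e, h, h1, h2, h3, h4⟩ := hU n k D D X X' π C E E' O J 0 b φ P hD hL hA hπ hE hb hP
    (Nat.le_add_left _ _) fun _ => by
      filter_upwards [hL.supp _ hb, hP.ord1 hD.ne'] with z a1 a2 hz
      simpa only [ex_zero, mon_zero, norm_one, one_mul] using (a2.1 (a1.1 (hA.sub hz))).2
  refine ⟨h, fun _ => ⟨⟨e, h1, h2, h3⟩, h4.imp_right fun ⟨φ', P', k1, _⟩ => ⟨φ', P', ?_⟩⟩⟩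
  rwa [nxt_zero] at k1

variable {N : X'.M → X'.M → ℝ}

/-- comparison of the quotients at nearby points -/
theorem cmp (hL : Lev E k D O) (hπ : IsBl π C) (hN : ∀ b, π b ∈ O.S → Quot π C O b b (N b))
    {b : X'.M} (hb : π b ∈ O.S) : ∀ᶠ z in 𝓝 b, π z ∈ O.S → N z =Θ[𝓝 z] N b := by
  filter_upwards [(hN b hb).ev, (hπ.cont.tendsto b).eventually (hL.cmp _ hb)] with z a1 a2 hz
  exact (hN z hz).theta a1 ⟨(a2 hz).1.comp_tendsto (hπ.cont.tendsto z),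
    (a2 hz).2.comp_tendsto (hπ.cont.tendsto z)⟩

/-- invariance of the quotients -/
theorem gam (hL : Lev E k D O) (hC : X.Inv C) (hπ : IsBl π C)
    (hN : ∀ b, π b ∈ O.S → Quot π C O b b (N b)) {γ' : OpenPartialHomeomorph X'.M X'.M}
    (hγ' : γ' ∈ X'.Γ) {b : X'.M} (hs : b ∈ γ'.source) (hb : π b ∈ O.S) :
    (N (γ' b) ∘ γ') =Θ[𝓝 b] N b := by
  obtain ⟨γ, hγ, h0⟩ := hπ.cov γ' hγ'
  obtain ⟨e, h1, h2, h3⟩ := hN _ (hπ.inv_pre hL.inv γ' hγ' b hs hb)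
  obtain ⟨e', k1, k2, k3⟩ := hN b hb
  have ht := (γ'.continuousAt hs).tendsto
  have h4 := hL.invN γ hγ _ (h0 b hs).1 hb
  have h5 : ((O.N (π (γ' b)) ∘ π) ∘ γ') =Θ[𝓝 b] (O.N (π b) ∘ π) := by
    refine (EventuallyEq.isTheta ?_).trans (⟨h4.1.comp_tendsto (hπ.cont.tendsto b),
      h4.2.comp_tendsto (hπ.cont.tendsto b)⟩ : _ =Θ[𝓝 b] _)
    filter_upwards [γ'.open_source.mem_nhds hs] with z hz
    simp only [comp_apply, (h0 z hz).2, (h0 b hs).2]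
  refine (h1.gam (hπ.inv_pre hC) hγ' hs).quot k1 ?_ k2
    (IsTheta.trans ⟨h3.1.comp_tendsto ht, h3.2.comp_tendsto ht⟩ (h5.trans k3.symm))
  filter_upwards [ht.eventually h2, γ'.open_source.mem_nhds hs] with z a1 a2
  exact a1.comp (γ'.continuousAt a2)

end TrX

open TrX in
/-- existence of the transform -/
theorem stTr (hU : StUp) : StTr := by
  intro n k D X X' π C E E' O J hD hL hA hπ hE
  choose N hN using exists_quot hU hD hL hA hπ hE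
  have hQ := fun b hb => (hN b hb).1
  refine ⟨⟨{b | π b ∈ O.S ∧ X'.Ord1 (N b) b}, N⟩, ⟨fun _ => Iff.rfl, fun b hb => ?_⟩, ?_,
    fun b hb => hπ.reg (hL.reg hb.1), fun b hb => ?_,
    fun b hb => (cmp hL hπ hQ hb.1).mono fun z hz k => hz k.1, fun b hb => ?_,
    fun γ' hγ' b hs hb => ⟨hπ.inv_pre hL.inv γ' hγ' b hs hb.1, ?_⟩,
    fun γ' hγ' b hs hb => gam hL hA.inv hπ hQ hγ' hs hb.1⟩
  · obtain ⟨e, h1, h2, h3⟩ := hQ b hb
    exact ⟨e, N b, h1, h2, isTheta_rfl, h3⟩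
  · refine isOpen_compl_iff.1 (isOpen_iff_mem_nhds.2 fun b hb => ?_)
    by_cases h0 : π b ∈ O.S
    · have h1 : ∀ᶠ z in 𝓝 b, ¬ X'.Ord1 (N b) z := (hN b h0).2.elim id
        fun ⟨_, _, h⟩ => h.not_ord1 hD.ne' fun k => hb ⟨h0, k⟩
      filter_upwards [h1, cmp hL hπ hQ h0] with z a1 a2 hz
      exact a1 ((ord1_congr (a2 hz.1)).1 hz.2)
    · filter_upwards [(hπ.cont.tendsto b).eventually (hL.closed.isOpen_compl.mem_nhds h0)]
        with z a1 hz using a1 hz.1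
  · filter_upwards [cmp hL hπ hQ hb.1, (hQ b hb.1).ev,
      (hπ.cont.tendsto b).eventually (hL.supp _ hb.1)] with z a1 a2 a3
    refine ⟨fun hz => (ord1_congr (a1 hz.1)).1 hz.2, fun hz => ?_⟩
    have h1 : π z ∈ O.S := by
      by_cases hc : π z ∈ C
      · exact hA.sub hc
      · exact a3.2 ((hπ.ord1_off hc).1 (a2.ord1 hz))
    exact ⟨h1, (ord1_congr (a1 h1)).2 hz⟩
  · exact (hN b hb.1).2.resolve_left fun h => h.self_of_nhds hb.2
  · exact (ord1_gam_iff hγ' hs).1 ((ord1_congr (gam hL hA.inv hπ hQ hγ' hs hb.1)).2 hb.2)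

end Vale.Agent.P287Q.H1
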