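import Vale.Agent.P287Q.H1.Trip
import Vale.Agent.P287Q.H1.TrE

/-!
# P287, resolution: the transform of a presentation on the blow-up
-/

open Filter Topology Set Function Asymptotics

noncomputable section

namespace Vale.Agent.P287Q.H1

open Mf

variable {n k D : ℕ}

/-- the exponents of the coordinates which are not zero do not matter -/
theorem up_mon {μ μ' : Fin n → ℕ} {q : W n} (h : ∀ l, μ l = μ' l ∨ q l ≠ 0) :
    mon μ =O[𝓝 q] mon μ' :=
  IsBigO.finsetProd (s := Finset.univ) (f := fun l (z : W n) => z l ^ μ l)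
    (g := fun l (z : W n) => z l ^ μ' l) fun l _ => by
      rcases h l with e | e
      · rw [e]
        exact isBigO_refl _ _
      · exact isBigO_of_ne ((an_crd l q).pow _).continuousAt ((an_crd l q).pow _).continuousAt
          (pow_ne_zero _ e)

theorem up_pf {μ μ' : Fin n → ℕ} {q : W n} (h : ∀ l, μ l = μ' l ∨ q l ≠ 0) {κ : Type} [Fintype κ]
    (g : κ → W n → ℂ) : pf k D μ g =Θ[𝓝 q] pf k D μ' g := by
  have h0 : ∀ μ : Fin n → ℕ, ∀ᶠ z in 𝓝 q, 0 ≤ ‖mon μ z‖ * nm g z := fun μ =>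
    Eventually.of_forall fun z => mul_nonneg (norm_nonneg _) (nm_nonneg _ _)
  have h1 : mon μ =Θ[𝓝 q] mon μ' := ⟨up_mon h, up_mon fun l => (h l).imp_left Eq.symm⟩
  exact add_isTheta (Eventually.of_forall fun _ => norm_nonneg _)
    ((h0 μ).mono fun _ => rt_nonneg D) (Eventually.of_forall fun _ => norm_nonneg _)
    ((h0 μ').mono fun _ => rt_nonneg D) isTheta_rfl
    (rt_isTheta D (h0 μ) (h0 μ') (h1.norm_left.norm_right.mul isTheta_rfl))

/-- the order does not depend on the chart -/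
theorem up_van {X : Mf n} {p : X.M} {φ φ' : X.M → W n} (h : X.Co p φ) (h' : X.Co p φ')
    {F F' : W n → ℝ} (e : (F' ∘ φ') =O[𝓝 p] (F ∘ φ)) {m : ℕ} (k : Van F m (φ p)) :
    Van F' m (φ' p) :=
  (co_isBigO h').1 ((e.trans ((co_isBigO h).2 k)).trans ((co_theta h' h).pow m).1)

/-- the charts which belong to the first coordinates -/
theorem up_low {m : ℕ} {a : ℕ → ℕ} {A : Finset (Fin n)} {i : Fin n} {b q : W n} {J : Finset ℕ}
    (P : Pres n k q) (hD : 0 < D) (hi : i ∈ A) (hk : i.val < k) (hb : b i = 0) (hq : σ A i b = q)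
    (hF : Fit k P.nu J A q) (hle : D ≤ ∑ j ∈ J, a j + m)
    (hV : ∀ᶠ z in 𝓝 q, z ∈ Zs A → Van (nm P.g) m z) :
    (fun z => ‖z i‖) =Θ[𝓝 b] fun z => P.f D a (σ A i z) := by
  subst hq
  have h0 : ∀ z, 0 ≤ ‖mon (ex a P.nu) z‖ * nm P.g z := fun z =>
    mul_nonneg (norm_nonneg _) (nm_nonneg _ _)
  refine ⟨isBigO_of_le' (Eventually.of_forall fun _ => norm_nonneg _)
    (Eventually.of_forall fun z => ?_), IsBigO.add ?_ ?_⟩
  · refine le_trans ?_ (le_add_of_nonneg_right (rt_nonneg D (h0 _)))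
    exact (congrArg norm (sg_self A i z)).symm.le.trans (le_norm_sub_pr _ hk)
  · refine IsBigO.of_bound (‖b‖ + 1) ?_
    filter_upwards [continuous_norm.continuousAt.eventually_lt continuousAt_const
      (lt_add_one ‖b‖)] with z hz
    rw [norm_norm, norm_norm]
    refine norm_sub_pr_le_of (by positivity) fun l hl => ?_
    by_cases e : l = i
    · rw [e, σ_eq, sg_self]
      exact le_mul_of_one_le_left (norm_nonneg _) (by linarith [norm_nonneg b])
    · rw [σ_eq, sg_of_mem z (hF.low l hl) e, norm_mul, mul_comm]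
      exact mul_le_mul_of_nonneg_right ((norm_le_pi_norm z l).trans hz.le) (norm_nonneg _)
  · rw [rt_isBigO_iff hD.ne' (Eventually.of_forall fun z => h0 _)]
    have h1 : (fun z => ‖mon (ex a P.nu) (σ A i z)‖) =O[𝓝 b] fun z => ‖z i‖ ^ ∑ j ∈ J, a j := by
      have c : ContinuousAt (fun z : W n => ∏ l ∈ Finset.univ.erase i, z l ^ ex a P.nu l) b :=
        (Finset.analyticAt_fun_prod _ fun l _ => (an_crd l b).pow _).continuousAt
      simp only [trip_mon hi, ← trip_sum i hF P.inj, norm_mul, norm_pow]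
      simpa using (isBigO_refl (fun z : W n => ‖z i‖ ^ ∑ j ∈ J, a j) _).mul
        (c.norm.tendsto.isBigO_one ℝ)
    have h2 : (fun z => nm P.g (σ A i z)) =O[𝓝 b] fun z => ‖z i‖ ^ m := by
      refine nm_isBigO_iff.2 fun t => ?_
      obtain ⟨g', c1, c2⟩ := exists_wt (A := A) hb (P.an t) (w := m)
        (hV.mono fun z hz h => van_nm_iff.1 (hz h) t)
      refine IsBigO.of_norm_left (IsBigO.congr' ((isBigO_refl (fun z : W n => ‖z i‖ ^ m) _).mul
        (c1.continuousAt.norm.tendsto.isBigO_one ℝ)) ?_ (Eventually.of_forall fun z => mul_one _))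
      exact c2.mono fun z hz => ((congrArg norm hz).trans (by rw [norm_mul, norm_pow])).symm
    refine (h1.mul h2).trans (isBigO_of_le' (Eventually.of_forall fun z => by positivity) ?_)
    filter_upwards [(an_crd i b).continuousAt.norm.eventually_lt continuousAt_const
      (show ‖b i‖ < 1 by simp [hb])] with z hz
    rw [← pow_add]
    exact pow_le_pow_of_le_one (norm_nonneg _) hz.le hle

/-- the first coordinates vanish on the support -/
theorem up_x {X : Mf n} {E : Dv X} {O : Obj X} {a : ℕ → ℕ} {p : X.M} {φ : X.M → W n}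
    {P : Pres n k (φ p)} (hD : 0 < D) (hO : Lev E k D O) (hp : p ∈ O.S)
    (hP : IsPres E k D a (O.N p) p φ P) : ∀ᶠ z in 𝓝 p, z ∈ O.S → pr k (φ z) = φ z := by
  filter_upwards [hO.supp p hp, hP.ord1 hD.ne'] with z z1 z2 hz using (z2.1 (z1.1 hz)).1

theorem stUp (hA : StAdapt) : StUp := by
  intro n k D m X X' π C E E' O J a b φ P hD hO hC hπ hE hp hP hle hV
  have hπb : Tendsto π (𝓝 b) (𝓝 (π b)) := hπ.cont.tendsto b
  have hT := (stTrE n X X' π C E hπ hC.closed).2 E' hE b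
  by_cases hb : π b ∈ C
  · obtain ⟨c, -, hc⟩ := hC.snc
    obtain ⟨φ₁, P₁, A, a1, a2, a3, a4⟩ := hA n k D c X E a _ _ φ P C J hD hP hb
      ((up_x hD hO hp hP).mono fun z hz h => hz (hC.sub h)) hC.lab (hc _ hb)
    obtain ⟨i, hi, φ', b1, b2⟩ := hπ.ovr b hb φ₁ A a1.1.1 a3
    obtain ⟨c1, c2, c3, c4⟩ := (hT φ₁ P₁.nu a1.1).2 A i φ' hb P₁.inj a4.zero a3 hi b1 b2
    have e0 : φ₁ (π b) = σ A i (φ' b) := b2.self_of_nhds
    have hV₁ : ∀ᶠ w in 𝓝 (φ₁ (π b)), w ∈ Zs A → Van (nm P₁.g) m w := (co_ev a1.1.1).1 (by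
      filter_upwards [hV hb, a3, X.ev _ _ hP.1.1, X.ev _ _ a1.1.1, a2.eventually_nhds]
        with z z1 z2 z3 z4 z5 hz using up_van z3 z4 (EventuallyEq.isBigO z5) (z1 (z2.2 hz)))
    have e1 : (fun z => P₁.f D a (σ A i (φ' z))) =Θ[𝓝 b] (O.N (π b) ∘ π) :=
      (EventuallyEq.isTheta (b2.mono fun z hz => (congrArg (P₁.f D a) hz).symm)).trans
        (IsTheta.symm ⟨a1.2.1.comp_tendsto hπb, a1.2.2.comp_tendsto hπb⟩)
    rcases le_or_gt k i.val with hk | hk
    · obtain ⟨P', d1, d2, d3, d4⟩ := stTrip n k D m E.r a _ P₁ J A i (φ' b) hD hi hk c3 e0.symm a4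
        c2 hle hV₁
      refine ⟨_, fun z => P'.f D (nxt a E.r J m D) (φ' z), c4, ?_,
        IsTheta.trans (EventuallyEq.isTheta ((co_tendsto b1).eventually d2)) e1,
        .inr ⟨φ', P', ⟨d1 ▸ c1, isTheta_rfl⟩, EventuallyEq.isTheta ?_, fun h => ?_⟩⟩
      · filter_upwards [X'.ev _ _ b1, (co_tendsto b1).eventually
          (eventually_all.2 fun t => ev_cont (P'.an t))] with z z1 z2
        exact ContinuousAt.comp (g := P'.f D _) (pf_cont k D _ z2) (co_tendsto z1)
      · filter_upwards [(co_ev b1).2 d3, b2, hπb.eventually a2] with z z1 z2 z3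
        exact z1.trans ((congrArg (nm P₁.g) z2).symm.trans z3)
      · exact up_van a1.1.1 hP.1.1 a2.symm.isBigO (d4 h)
    · refine ⟨_, fun _ => 1, c4, Eventually.of_forall fun _ => continuousAt_const, ?_,
        .inl (Eventually.of_forall fun z h => one_ne_zero h.eq_zero)⟩
      simp only [mul_one]
      exact IsTheta.trans ((co_isTheta b1).2 (up_low P₁ hD hi hk c3 e0.symm a4 hle hV₁)) e1
  · have e1 : (fun z => P.f D a (φ (π z))) =Θ[𝓝 b] (O.N (π b) ∘ π) :=
      IsTheta.symm ⟨hP.2.1.comp_tendsto hπb, hP.2.2.comp_tendsto hπb⟩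
    have b1 := hπ.off b hb φ hP.1.1
    refine ⟨1, fun z => P.f D a (φ (π z)),
      .inl ⟨rfl, hπb.eventually (hC.closed.isOpen_compl.mem_nhds hb)⟩, ?_, by simpa using e1,
      .inr ⟨φ ∘ π, P, ⟨(hT φ P.nu hP.1).1 hb, (co_isTheta b1).2 (up_pf (fun l => ?_) P.g)⟩,
        by simpa using isTheta_rfl, id⟩⟩
    · filter_upwards [X'.ev _ _ b1, (co_tendsto b1).eventually
        (eventually_all.2 fun t => ev_cont (P.an t))] with z z1 z2
      exact ContinuousAt.comp (g := P.f D a) (pf_cont k D _ z2) (co_tendsto z1)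
    · rcases e : P.nu l with _ | j
      · exact .inl (by simp [ex, e])
      by_cases hj : j = E.r
      · refine .inr fun h => ?_
        have h1 := (hP.1.2.self_of_nhds j).2 ⟨l, e, h⟩
        rwa [E.emp j hj.ge] at h1
      · exact .inl (by simp [ex, e, nxt, hj])

end Vale.Agent.P287Q.H1
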