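import Vale.Agent.P287Q.H1.Bdy
import Vale.Agent.P287Q.H1.Easy

/-!
# The locus where the family is zero
-/

open Filter Topology Set Function Asymptotics

noncomputable section

namespace Vale.Agent.P287Q.H1

open Mf Bd0

namespace Zr

variable {n k D : ℕ} {X : Mf n} {E : Dv X} {O : Obj X} {p : X.M}

/-- the points of the support where no presentation has finite order -/
def Z (E : Dv X) (k D : ℕ) (O : Obj X) : Set X.M :=
  {p | p ∈ O.S ∧ ¬ ∃ φ P m, IsPres E k D 0 (O.N p) p φ P ∧ ¬ Van (nm P.g) (m + 1) (φ p)}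

theorem isClosed_Z (h : Lev E k D O) : IsClosed (Z E k D O) := by
  refine isOpen_compl_iff.1 (isOpen_iff_mem_nhds.2 fun p hp => ?_)
  by_cases hS : p ∈ O.S
  · obtain ⟨φ, P, m, h1, h2⟩ := not_not.1 fun c => hp ⟨hS, c⟩
    filter_upwards [h.cmp p hS, h1.ev, (co_tendsto h1.1.1).eventually (not_van_eventually P.an h2)]
      with b a1 a2 a3 hb
    obtain ⟨c, a2⟩ := a2
    exact hb.2 ⟨φ, P.mv c, m, a2.congr (a1 hb.1), a3⟩
  · exact mem_of_superset (h.closed.isOpen_compl.mem_nhds hS) fun b hb c => hb c.1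

theorem inv_Z (h : Lev E k D O) : X.Inv (Z E k D O) := by
  refine fun γ hγ p hp c => ⟨h.inv γ hγ p hp c.1, ?_⟩
  rintro ⟨φ, P, m, h1, h2⟩
  exact c.2 ⟨φ ∘ γ, P, m, (h1.gam hγ hp).congr (h.invN γ hγ p hp c.1).symm, h2⟩

/-- the first `k` coordinates -/
def low (n k : ℕ) : Finset (Fin n) := Finset.univ.filter fun l => l.val < k

theorem mem_low {l : Fin n} : l ∈ low n k ↔ l.val < k := by simp [low]

theorem card_low (h : k ≤ n) : (low n k).card = k := by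
  rw [low, Fin.card_filter_val_lt, min_eq_right h]

theorem mem_Zs_low {z : W n} : z ∈ Zs (low n k) ↔ pr k z = z := by
  rw [pr_eq_self]
  exact forall_congr' fun l => imp_congr_left mem_low

theorem zero_near {φ : X.M → W n} {P : Pres n k (φ p)} (hp : p ∈ Z E k D O)
    (hP : IsPres E k D 0 (O.N p) p φ P) : ∀ᶠ w in 𝓝 (φ p), ∀ i, P.g i w = 0 :=
  zero_of_van P.an fun m => Van.mono (not_not.1 fun c => hp.2 ⟨φ, P, m, hP, c⟩) m.le_succ

theorem chart_Z (hK : StKeyM) (hD : 0 < D) (h : Lev E k D O) {φ : X.M → W n} {P : Pres n k (φ p)}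
    (hp : p ∈ Z E k D O) (hP : IsPres E k D 0 (O.N p) p φ P) :
    ∀ᶠ z in 𝓝 p, z ∈ Z E k D O ↔ φ z ∈ Zs (low n k) := by
  filter_upwards [h.supp p hp.1, h.cmp p hp.1, hP.ord1 hD.ne', hP.ev,
    (co_tendsto hP.1.1).eventually (zero_near hp hP).eventually_nhds] with z a1 a2 a3 a4 a5
  rw [mem_Zs_low]
  refine ⟨fun c => (a3.1 (a1.1 c.1)).1, fun c => ?_⟩
  have h1 : X.Ord1 (O.N p) z := a3.2 ⟨c, (isBigO_zero _ _).congr' (a5.mono fun w hw => by
    simp only [nm_eq_zero.2 hw, mul_zero]) EventuallyEq.rfl⟩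
  have h2 := a1.2 h1
  refine ⟨h2, ?_⟩
  rintro ⟨φ', P', m, b1, b2⟩
  obtain ⟨c', a4⟩ := a4
  exact b2 (((hK n k D X E 0 _ z φ φ' _ P' hD (a4.congr (a2 h2)) b1
    ((ord1_congr (a2 h2)).2 h1)).1 (m + 1)).1 (van_of_zero a5 _))

theorem adm_Z (hK : StKeyM) (hk : 0 < k) (hD : 0 < D) (h : Lev E k D O)
    (hne : (Z E k D O).Nonempty) : Adm E O (Z E k D O) ∅ := by
  refine ⟨hne, isClosed_Z h, fun _ c => c.1, inv_Z h, fun _ _ j hj => absurd hj (by simp), k, hk,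
    fun p hp => ?_⟩
  obtain ⟨φ, P, hP⟩ := h.pres p hp.1
  exact ⟨φ, low n k, P.nu, hP.1.1, card_low P.le, chart_Z hK hD h hp hP,
    fun l hl => P.free l (mem_low.1 hl), P.inj, hP.1.2.mono fun z hz j _ => hz j⟩

/-- nothing is left above the centre -/
theorem not_over (hK : StKeyM) (hD : 0 < D) (h : Lev E k D O) {X' : Mf n} {π : X'.M → X.M}
    (hπ : IsBl π (Z E k D O)) {O' : Obj X'} (hT : Tr π (Z E k D O) O O') {b : X'.M}
    (hb : b ∈ O'.S) : π b ∉ Z E k D O := by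
  intro hp
  have ht : Tendsto π (𝓝 b) (𝓝 (π b)) := hπ.cont.continuousAt
  obtain ⟨φ, P, hP⟩ := h.pres _ hp.1
  have h1 := chart_Z hK hD h hp hP
  obtain ⟨i, hi, φ', h2, h3⟩ := hπ.ovr b hp φ _ hP.1.1 h1
  have h4 : X'.Eqn (π ⁻¹' Z E k D O) b fun z => φ' z i := by
    refine .inr ⟨φ', i, h2, rfl, ?_⟩
    filter_upwards [ht.eventually h1, h3] with z a c
    rw [mem_preimage, a, show φ (π z) = σ (low n k) i (φ' z) from c, σ_mem_Zs hi]
  obtain ⟨e, f, a1, a2, a3, a4⟩ := hT.eq b hp.1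
  have h5 : (fun z => ‖e z‖ * (1 : ℝ)) =O[𝓝 b] fun z => ‖e z‖ * f z := by
    refine IsBigO.trans ?_ ((hP.2.2.comp_tendsto ht).trans a4.2)
    refine ((a1.isTheta h4).1.norm_norm.congr_left fun z => (mul_one _).symm).trans
      (isBigO_of_le' (Eventually.of_forall fun _ => norm_nonneg _) (h3.mono fun z hz => ?_))
    have h6 : φ (π z) i = φ' z i := (congrFun hz i).trans (sg_self _ i _)
    rw [← h6]
    exact (le_norm_sub_pr _ (mem_low.1 hi)).trans (le_add_of_nonneg_right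
      (rt_nonneg D (mul_nonneg (norm_nonneg _) (nm_nonneg _ _))))
  have h7 := a1.cancel (Eventually.of_forall fun _ => continuousAt_const) a2 h5
  exact one_ne_zero (((hT.supp b).1 hb).2.of_isBigO (h7.trans a3.2)).eq_zero

end Zr

open Zr

theorem stZero (hK : StKeyM) (hE : StTrE) (hT : StTr) : StZero := by
  intro n k hk hR D Q hD hS X E O hQ hO
  rcases (Z E k D O).eq_empty_or_nonempty with h | h
  · refine hR D Q hD hS X E O hQ hO fun p hp => not_not.1 fun c => ?_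
    exact (h.subset (show p ∈ Z E k D O from ⟨hp, c⟩) :)
  have hA := adm_Z hK hk hD hO h
  obtain ⟨X', π, hπ, hQ'⟩ := hS X E O _ _ hQ hO hA
  obtain ⟨h1, h2⟩ := hE n X X' π _ E hπ hA.closed
  obtain ⟨E', hE'⟩ := h1 hA.inv
  obtain ⟨O', h3, h4⟩ := hT n k D X X' π _ E E' O _ hD hO hA hπ hE'
  refine hR D Q hD hS X' E' O' (hQ' E' O' hE' h3 h4) h4 fun b hb => ?_
  have ht : Tendsto π (𝓝 b) (𝓝 (π b)) := hπ.cont.continuousAt
  have h5 := not_over hK hD hO hπ h3 hb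
  have h6 := ((h3.supp b).1 hb).1
  obtain ⟨φ, P, m, h7, h8⟩ := not_not.1 fun c => h5 ⟨h6, c⟩
  obtain ⟨e, f, a1, -, a3, a4⟩ := h3.eq b h6
  refine ⟨φ ∘ π, P, m, ⟨(h2 E' hE' b φ P.nu h7.1).1 h5, a3.trans (IsTheta.trans ?_ (a4.trans
    ⟨h7.2.1.comp_tendsto ht, h7.2.2.comp_tendsto ht⟩))⟩, h8⟩
  exact (EventuallyEq.isTheta (Eventually.of_forall fun z => (one_mul _).symm)).trans
    ((eqn_one a1 h5).symm.mul (isTheta_refl f _))

end Vale.Agent.P287Q.H1
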