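import Vale.Agent.P287Q.H1.Princ
import Vale.Agent.P287Q.H1.Mono
import Vale.Agent.P287Q.H1.Gen
import Vale.Agent.P287Q.H1.KeyM
import Vale.Agent.P287Q.H1.Sat
import Vale.Agent.P287Q.H1.Step
import Vale.Agent.P287Q.H1.Bdy
import Vale.Agent.P287Q.H1.Tr
import Vale.Agent.P287Q.H1.Up
import Vale.Agent.P287Q.H1.Zero
import Vale.Agent.P287Q.H1.CompTr

/-!
# Principalization by blow-ups in smooth invariant centres: the theorem
-/

namespace Vale.Agent.P287Q.H1

/-- resolution of the objects of any level -/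
theorem hmain : StMain :=
  stMain (stMono (stTr (stUp stAdapt))
    (stBdTr (stUp stAdapt) stTrU (stGen_ad stAdapt) (stKeyM stSat))) stNZ
    (stZero (stKeyM stSat) stTrE (stTr (stUp stAdapt)))
    (stStep stTrE (stTr (stUp stAdapt)) (stComp stSat stMax)
      (stCompTr (stGen_ad stAdapt) (stUp stAdapt) stTrU) stBdy (stBdyTr stAdapt stTrE))

/-- **Principalization.** -/
theorem princ : StPrinc := stPrinc hmain stTrU

end Vale.Agent.P287Q.H1
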