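import Vale.Agent.P287Q.H1.Defs

/-!
# Principalization of a finite family of local analytic functions: the statement for the users
-/

open Filter Topology Set Function Asymptotics

noncomputable section

namespace Vale.Agent.P287Q.H1

variable {n : ℕ}

/-- the sum of the norms of a finite family of functions -/
def sz {M κ : Type} [Fintype κ] (g : κ → M → ℂ) (z : M) : ℝ := ∑ i, ‖g i z‖

/-- the common zeros; `f p` is the family which is used near `p` -/
def zs {M κ : Type} (f : M → κ → M → ℂ) : Set M := {p | ∀ i, f p i p = 0}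

namespace Mf

/-- `f` is analytic at `p` -/
def An (X : Mf n) (f : X.M → ℂ) (p : X.M) : Prop :=
  ∃ φ F, X.Co p φ ∧ AnalyticAt ℂ F (φ p) ∧ f =ᶠ[𝓝 p] fun z => F (φ z)

/-- a coherent system of finite families: `f p` is analytic at `p`, the sizes are comparable and
invariant, and no family is zero -/
structure Coh (X : Mf n) {κ : Type} [Fintype κ] (f : X.M → κ → X.M → ℂ) : Prop where
  an : ∀ p i, X.An (f p i) p
  cmp : ∀ p, ∀ᶠ b in 𝓝 p, sz (f b) =Θ[𝓝 b] sz (f p)
  inv : ∀ γ ∈ X.Γ, ∀ p ∈ γ.source, (sz (f (γ p)) ∘ γ) =Θ[𝓝 p] sz (f p)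
  reg : zs f ⊆ X.R
  nz : ∀ p, ¬ ∀ᶠ z in 𝓝 p, ∀ i, f p i z = 0

/-- a closed invariant submanifold of codimension `c > 0` -/
structure Ctr (X : Mf n) (C : Set X.M) (c : ℕ) : Prop where
  ne : C.Nonempty
  closed : IsClosed C
  inv : X.Inv C
  pos : 0 < c
  sub : ∀ p ∈ C, ∃ (φ : X.M → W n) (A : Finset (Fin n)), X.Co p φ ∧ A.card = c ∧
    ∀ᶠ z in 𝓝 p, z ∈ C ↔ φ z ∈ Zs A

/-- `f'` is the pull-back of `f` divided by an equation of the exceptional divisor -/
def WT {X X' : Mf n} {κ : Type} (π : X'.M → X.M) (C : Set X.M) (f : X.M → κ → X.M → ℂ)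
    (f' : X'.M → κ → X'.M → ℂ) : Prop :=
  ∀ b, ∃ e, X'.Eqn (π ⁻¹' C) b e ∧ ∀ᶠ z in 𝓝 b, ∀ i, f (π b) i (π z) = e z * f' b i z

end Mf

open Mf

/-- principalization: a property which survives the blow-ups of invariant centres inside the zero
set holds in a state without common zeros -/
def StPrinc : Prop := ∀ (n : ℕ) (κ : Type) [Fintype κ]
  (Q : ∀ X : Mf n, (X.M → κ → X.M → ℂ) → Prop),
    (∀ (X : Mf n) (f : X.M → κ → X.M → ℂ) (C : Set X.M) (c : ℕ), Q X f → X.Coh f → X.Ctr C c →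
      C ⊆ zs f → ∃ (X' : Mf n) (π : X'.M → X.M), IsBl π C ∧
        ∀ f', WT π C f f' → X'.Coh f' → Q X' f') →
      ∀ (X : Mf n) (f : X.M → κ → X.M → ℂ), Q X f → X.Coh f →
        ∃ (X' : Mf n) (f' : X'.M → κ → X'.M → ℂ), Q X' f' ∧ X'.Coh f' ∧ zs f' = ∅

end Vale.Agent.P287Q.H1
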