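import Vale.Agent.P287Q.H1.PrDefs
import Vale.Agent.P287Q.H1.St
import Vale.Agent.P287Q.H1.Bas

/-!
# Principalization of a finite family from the resolution of objects of level zero
-/

open Filter Topology Set Function Asymptotics

noncomputable section

namespace Vale.Agent.P287Q.H1

open Mf

variable {n : ℕ} {κ : Type} [Fintype κ]

theorem sz_nonneg {M : Type} (g : κ → M → ℂ) (z : M) : 0 ≤ sz g z :=
  Finset.sum_nonneg fun _ _ => norm_nonneg _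

theorem sz_eq_zero {M : Type} {g : κ → M → ℂ} {z : M} : sz g z = 0 ↔ ∀ i, g i z = 0 := by
  rw [sz, Finset.sum_eq_zero_iff_of_nonneg fun _ _ => norm_nonneg _]
  simp

theorem prn_zero {M : Type} [TopologicalSpace M] {g g' : M → ℝ} {b : M} (h : g =O[𝓝 b] g')
    (h0 : g' b = 0) : g b = 0 := by
  obtain ⟨c, hc⟩ := h.bound
  have := hc.self_of_nhds
  rw [h0, norm_zero, mul_zero] at this
  exact norm_le_zero_iff.1 this

namespace Mf

variable {X X' : Mf n} {p : X.M}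

theorem An.chart {f : X.M → ℂ} (h : X.An f p) {φ : X.M → W n} (hφ : X.Co p φ) :
    ∃ F, AnalyticAt ℂ F (φ p) ∧ f =ᶠ[𝓝 p] fun z => F (φ z) := by
  obtain ⟨φ₀, F, h0, hF, e⟩ := h
  obtain ⟨θ, hθ, e'⟩ := X.tr p φ φ₀ hφ h0
  refine ⟨F ∘ θ, ?_, ?_⟩
  · have : θ (φ p) = φ₀ p := e'.eq_of_nhds.symm
    exact AnalyticAt.comp (this ▸ hF) hθ.1
  · filter_upwards [e, e'] with z h1 h2
    rw [h1, h2]
    rfl

theorem An.ev {f : X.M → ℂ} (h : X.An f p) : ∀ᶠ b in 𝓝 p, X.An f b := by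
  obtain ⟨φ, F, h0, hF, e⟩ := h
  filter_upwards [X.ev p φ h0, (co_ev h0).2 hF.eventually_analyticAt, e.eventually_nhds]
    with b h1 h2 h3
  exact ⟨φ, F, h1, h2, h3⟩

theorem An.cont {f : X.M → ℂ} (h : X.An f p) : ContinuousAt f p := by
  obtain ⟨φ, F, h0, hF, e⟩ := h
  exact (hF.continuousAt.comp (f := φ) (co_tendsto h0)).congr e.symm

theorem sz_cont {g : κ → X.M → ℂ} (h : ∀ i, X.An (g i) p) :
    ∀ᶠ z in 𝓝 p, ContinuousAt (sz g) z := by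
  filter_upwards [eventually_all.2 fun i => (h i).ev] with z hz
  exact tendsto_finsetSum _ fun i _ => (hz i).cont.norm

theorem sz_chart {g : κ → X.M → ℂ} (h : ∀ i, X.An (g i) p) {φ : X.M → W n} (hφ : X.Co p φ) :
    ∃ F : κ → W n → ℂ, (∀ i, AnalyticAt ℂ (F i) (φ p)) ∧ ∀ᶠ z in 𝓝 p, ∀ i, g i z = F i (φ z) := by
  choose F hF e using fun i => (h i).chart hφ
  exact ⟨F, hF, eventually_all.2 e⟩

theorem ord1_sz {g : κ → X.M → ℂ} (h : ∀ i, X.An (g i) p) :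
    X.Ord1 (sz g) p ↔ ∀ i, g i p = 0 := by
  refine ⟨fun h1 => sz_eq_zero.1 h1.eq_zero, fun h0 => ?_⟩
  obtain ⟨φ, hφ⟩ := X.exi p
  obtain ⟨F, hF, e⟩ := sz_chart h hφ
  have e' : sz g =ᶠ[𝓝 p] fun z => nm F (φ z) := by
    filter_upwards [e] with z hz
    simp only [sz, nm, hz]
  rw [ord1_van hφ e'.isTheta, van_nm_iff]
  exact fun i => ord_one (hF i).differentiableAt ((e.self_of_nhds i).symm.trans (h0 i))

theorem Coh.mem {f : X.M → κ → X.M → ℂ} (h : X.Coh f) (p : X.M) :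
    ∀ᶠ b in 𝓝 p, b ∈ zs f ↔ ∀ i, f p i b = 0 := by
  filter_upwards [h.cmp p] with b hb
  exact ⟨fun h1 => sz_eq_zero.1 (prn_zero hb.2 (sz_eq_zero.2 h1)),
    fun h1 => sz_eq_zero.1 (prn_zero hb.1 (sz_eq_zero.2 h1))⟩

theorem Coh.closed {f : X.M → κ → X.M → ℂ} (h : X.Coh f) : IsClosed (zs f) := by
  rw [← isOpen_compl_iff, isOpen_iff_eventually]
  intro p hp
  obtain ⟨i, hi⟩ := not_forall.1 hp
  filter_upwards [h.mem p, (h.an p i).cont.eventually_ne hi] with b h1 h2 h3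
  exact h2 (h1.1 h3 i)

/-- no divisors -/
def noDv (X : Mf n) : Dv X where
  r := 0
  E _ := ∅
  emp _ _ := rfl
  closed _ := isClosed_empty
  inv _ _ _ _ _ h := h

theorem Coh.pres {f : X.M → κ → X.M → ℂ} (h : X.Coh f) (p : X.M) :
    ∃ φ P, IsPres (noDv X) 0 1 0 (sz (f p)) p φ P ∧
      (sz (f p) =ᶠ[𝓝 p] fun z => nm P.g (φ z)) := by
  obtain ⟨φ, hφ⟩ := X.exi p
  obtain ⟨F, hF, e⟩ := sz_chart (h.an p) hφ
  have e' : sz (f p) =ᶠ[𝓝 p] fun z => nm F (φ z) := by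
    filter_upwards [e] with z hz
    simp only [sz, nm, hz]
  have h0 : ∀ z : W n, pr 0 z = z := fun z => pr_eq_self.2 fun l hl => absurd hl (Nat.not_lt_zero _)
  refine ⟨φ, ⟨fun _ => none, κ, F, Nat.zero_le _, fun _ _ => rfl, fun _ _ _ h => by simp at h, hF,
    fun i z => by rw [h0]⟩, ⟨⟨hφ, Eventually.of_forall fun z j => ?_⟩, ?_⟩, e'⟩
  · simp [noDv, hyp]
  · refine e'.isTheta.trans (EventuallyEq.isTheta (Eventually.of_forall fun z => ?_))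
    simp only [Pres.f, pf, h0, ex_zero, mon_zero, rt_one', sub_self, norm_zero, norm_one, one_mul,
      zero_add]

theorem Coh.lev {f : X.M → κ → X.M → ℂ} (h : X.Coh f) :
    Lev (noDv X) 0 1 ⟨zs f, fun p => sz (f p)⟩ where
  closed := h.closed
  reg := h.reg
  supp p _ := by
    filter_upwards [h.mem p, eventually_all.2 fun i => (h.an p i).ev] with b h1 h2
    exact h1.trans (ord1_sz h2).symm
  cmp p _ := (h.cmp p).mono fun _ h _ => h
  pres p _ := let ⟨φ, P, h1, _⟩ := h.pres p; ⟨φ, P, h1⟩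
  inv γ hγ p hp h0 :=
    sz_eq_zero.1 (prn_zero (g := sz (f (γ p)) ∘ γ) (h.inv γ hγ p hp).1 (sz_eq_zero.2 h0))
  invN γ hγ p hp _ := h.inv γ hγ p hp

theorem Coh.nZ {f : X.M → κ → X.M → ℂ} (h : X.Coh f) :
    NZ (noDv X) 0 1 ⟨zs f, fun p => sz (f p)⟩ := by
  intro p _
  obtain ⟨φ, P, h1, e⟩ := h.pres p
  by_contra hc
  refine h.nz p ?_
  have : ∀ m, Van (nm P.g) m (φ p) := fun m => by
    by_contra hm
    exact hc ⟨φ, P, m, h1, fun h2 => hm (h2.mono (Nat.le_succ m))⟩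
  filter_upwards [e, (co_ev h1.1.1).2 (zero_of_van P.an this)] with z h2 h3
  exact sz_eq_zero.1 (h2.trans (nm_eq_zero.2 h3))

theorem Adm.ctr {E : Dv X} {O : Obj X} {C : Set X.M} {J : Finset ℕ} (h : Adm E O C J) :
    ∃ c, X.Ctr C c := by
  obtain ⟨c, hc, hs⟩ := h.snc
  refine ⟨c, h.ne, h.closed, h.inv, hc, fun p hp => ?_⟩
  obtain ⟨φ, A, -, h1, h2, h3, -⟩ := hs p hp
  exact ⟨φ, A, h1, h2, h3⟩

variable {π : X'.M → X.M} {C : Set X.M} {c : ℕ} {f : X.M → κ → X.M → ℂ}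

theorem wt_exists (hB : IsBl π C) (hC : X.Ctr C c) (hf : X.Coh f) (hs : C ⊆ zs f) (b : X'.M) :
    ∃ (g : κ → X'.M → ℂ) (e : X'.M → ℂ), (∀ i, X'.An (g i) b) ∧ X'.Eqn (π ⁻¹' C) b e ∧
      ∀ᶠ z in 𝓝 b, ∀ i, f (π b) i (π z) = e z * g i z := by
  have ht : Tendsto π (𝓝 b) (𝓝 (π b)) := hB.cont.continuousAt
  by_cases hb : π b ∈ C
  · obtain ⟨φ, A, hφ, -, hA⟩ := hC.sub _ hb
    obtain ⟨i, hi, φ', hφ', e⟩ := hB.ovr b hb φ A hφ hA
    obtain ⟨F, hF, eF⟩ := sz_chart (hf.an (π b)) hφ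
    have e0 : φ (π b) = σ A i (φ' b) := e.eq_of_nhds
    have hb0 : φ' b i = 0 := (σ_mem_Zs hi).1 (e0 ▸ hA.self_of_nhds.1 hb)
    have hz : ∀ᶠ u in 𝓝 (φ (π b)), u ∈ Zs A → ∀ t, F t u = 0 := by
      rw [← co_ev hφ]
      filter_upwards [hA, eF, hf.mem (π b)] with z h1 h2 h3 h4 t
      rw [← h2]
      exact h3.1 (hs (h1.2 h4)) t
    have : ∀ t, ∃ f', AnalyticAt ℂ f' (φ' b) ∧
        ∀ᶠ z in 𝓝 (φ' b), F t (sg A i z) = z i ^ 1 * f' z := fun t => by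
      refine exists_wt hb0 (by rw [← σ_eq, ← e0]; exact hF t) ?_
      rw [← σ_eq, ← e0]
      filter_upwards [hz, (hF t).eventually_analyticAt] with u h1 h2 h3
      exact ord_one h2.differentiableAt (h1 h3 t)
    choose G hG eG using this
    refine ⟨fun t z => G t (φ' z), fun z => φ' z i, fun t => ⟨φ', G t, hφ', hG t, EventuallyEq.rfl⟩,
      Or.inr ⟨φ', i, hφ', rfl, ?_⟩, ?_⟩
    · filter_upwards [ht.eventually hA, e] with z h1 h2
      rw [mem_preimage, h1, show φ (π z) = σ A i (φ' z) from h2, σ_mem_Zs hi]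
    · filter_upwards [ht.eventually eF, e, (co_ev hφ').2 (eventually_all.2 eG)] with z h1 h2 h3 t
      rw [h1, show φ (π z) = σ A i (φ' z) from h2, σ_eq, h3, pow_one]
  · refine ⟨fun t z => f (π b) t (π z), 1, fun t => ?_, Or.inl ⟨rfl, ?_⟩,
      Eventually.of_forall fun z t => by simp⟩
    · obtain ⟨φ, F, hφ, hF, e⟩ := hf.an (π b) t
      exact ⟨φ ∘ π, F, hB.off b hb φ hφ, hF, ht.eventually e⟩
    · exact ht.eventually (hC.closed.isOpen_compl.mem_nhds hb)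

theorem wt_sz {b : X'.M} {g : κ → X'.M → ℂ} {e : X'.M → ℂ}
    (h : ∀ᶠ z in 𝓝 b, ∀ i, f (π b) i (π z) = e z * g i z) :
    (fun z => ‖e z‖ * sz g z) =ᶠ[𝓝 b] (sz (f (π b)) ∘ π) := by
  filter_upwards [h] with z hz
  simp only [sz, comp_apply, hz, norm_mul, Finset.mul_sum]

theorem prn_theta {Y : Set X.M} {e e' : X.M → ℂ} (h : X.Eqn Y p e) (h' : X.Eqn Y p e')
    {u v : X.M → ℝ} (hu : ∀ᶠ z in 𝓝 p, ContinuousAt u z) (hv : ∀ᶠ z in 𝓝 p, ContinuousAt v z)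
    (k : (fun z => ‖e z‖ * u z) =Θ[𝓝 p] fun z => ‖e' z‖ * v z) : u =Θ[𝓝 p] v := by
  have k' : (fun z => ‖e z‖ * u z) =Θ[𝓝 p] fun z => ‖e z‖ * v z :=
    k.trans ((h'.isTheta h).norm_left.norm_right.mul (isTheta_refl _ _))
  exact ⟨h.cancel hu hv k'.1, h.cancel hv hu k'.2⟩

theorem prn_tendsto {γ : OpenPartialHomeomorph X.M X.M} (hp : p ∈ γ.source) :
    Tendsto γ (𝓝 p) (𝓝 (γ p)) := γ.continuousAt hp

theorem Inv.ev_prn {Y : Set X.M} (hY : X.Inv Y) {γ : OpenPartialHomeomorph X.M X.M} (hγ : γ ∈ X.Γ)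
    (hp : p ∈ γ.source) : ∀ᶠ z in 𝓝 p, γ z ∈ Y ↔ z ∈ Y := by
  filter_upwards [γ.open_source.mem_nhds hp] with z hz
  refine ⟨fun h => ?_, hY γ hγ z hz⟩
  have := hY γ.symm (X.symm γ hγ) (γ z) (γ.map_source hz) h
  rwa [γ.left_inv hz] at this

theorem Eqn.gam_pr {Y : Set X.M} (hY : X.Inv Y) {γ : OpenPartialHomeomorph X.M X.M} (hγ : γ ∈ X.Γ)
    (hp : p ∈ γ.source) {e : X.M → ℂ} (h : X.Eqn Y (γ p) e) : X.Eqn Y p (e ∘ γ) := by
  rcases h with ⟨rfl, h⟩ | ⟨φ, i, hφ, rfl, h⟩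
  · refine Or.inl ⟨rfl, ?_⟩
    filter_upwards [(prn_tendsto hp).eventually h, hY.ev_prn hγ hp] with z h1 h2 h3
    exact h1 (h2.2 h3)
  · refine Or.inr ⟨φ ∘ γ, i, X.hol γ hγ p hp φ hφ, rfl, ?_⟩
    filter_upwards [(prn_tendsto hp).eventually h, hY.ev_prn hγ hp] with z h1 h2
    exact h2.symm.trans h1

theorem IsBl.inv_prn (hB : IsBl π C) {Y : Set X.M} (hY : X.Inv Y) : X'.Inv (π ⁻¹' Y) := by
  intro γ' hγ' b hb h
  obtain ⟨γ, hγ, k⟩ := hB.cov γ' hγ'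
  rw [mem_preimage, (k b hb).2]
  exact hY γ hγ _ (k b hb).1 h

theorem IsBl.map_prn (hB : IsBl π C) {b : X'.M} (hb : π b ∉ C) {Q : X.M → Prop}
    (h : ∀ᶠ z in 𝓝 b, Q (π z)) : ∀ᶠ w in 𝓝 (π b), Q w := by
  obtain ⟨φ, hφ⟩ := X.exi (π b)
  obtain ⟨ψ, -, -, h1, -⟩ := co_inv hφ
  have h2 : ∀ᶠ z in 𝓝 b, Q (ψ ((φ ∘ π) z)) := by
    filter_upwards [h, (hB.cont.continuousAt (x := b)).eventually h1] with z k1 k2
    rwa [comp_apply, k2]
  have h3 : ∀ᶠ u in 𝓝 (φ (π b)), Q (ψ u) := (co_ev (hB.off b hb φ hφ) (Q := fun u => Q (ψ u))).1 h2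
  filter_upwards [(co_ev hφ).2 h3, h1] with w k1 k2
  rwa [k2] at k1

theorem wt_coh (hB : IsBl π C) (hC : X.Ctr C c) (hf : X.Coh f) {f' : X'.M → κ → X'.M → ℂ}
    (ha : ∀ b i, X'.An (f' b i) b) (hw : WT π C f f') : X'.Coh f' where
  an := ha
  cmp b := by
    obtain ⟨e, he, k⟩ := hw b
    have ht : Tendsto π (𝓝 b) (𝓝 (π b)) := hB.cont.continuousAt
    filter_upwards [he.ev, (wt_sz k).eventually_nhds, (sz_cont (ha b)).eventually_nhds,
      ht.eventually (hf.cmp (π b))] with b' h1 h2 h3 h4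
    obtain ⟨e', he', k'⟩ := hw b'
    refine prn_theta he' h1 (sz_cont (ha b')) h3 ?_
    have ht' : Tendsto π (𝓝 b') (𝓝 (π b')) := hB.cont.continuousAt
    exact ((wt_sz k').isTheta.trans ⟨h4.1.comp_tendsto ht', h4.2.comp_tendsto ht'⟩).trans
      (EventuallyEq.isTheta h2).symm
  inv γ' hγ' b hb := by
    obtain ⟨γ, hγ, k⟩ := hB.cov γ' hγ'
    obtain ⟨e, he, k1⟩ := hw b
    obtain ⟨e', he', k2⟩ := hw (γ' b)
    have ht : Tendsto π (𝓝 b) (𝓝 (π b)) := hB.cont.continuousAt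
    have tg := prn_tendsto hb
    refine prn_theta (he'.gam_pr (hB.inv_prn hC.inv) hγ' hb) he ?_ (sz_cont (ha b)) ?_
    · filter_upwards [tg.eventually (sz_cont (ha (γ' b))), γ'.open_source.mem_nhds hb] with z h1 h2
      exact h1.comp (γ'.continuousAt h2)
    · have h1 : (fun z => ‖(e' ∘ γ') z‖ * (sz (f' (γ' b)) ∘ γ') z) =ᶠ[𝓝 b]
          ((sz (f (γ (π b))) ∘ γ) ∘ π) := by
        filter_upwards [tg.eventually (wt_sz k2), γ'.open_source.mem_nhds hb] with z h1 h2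
        simp only [comp_apply] at h1 ⊢
        rw [h1, (k z h2).2, (k b hb).2]
      have h2 := hf.inv γ hγ (π b) (k b hb).1
      exact (h1.isTheta.trans ⟨h2.1.comp_tendsto ht, h2.2.comp_tendsto ht⟩).trans
        (wt_sz k1).isTheta.symm
  reg b hb := by
    obtain ⟨e, -, k⟩ := hw b
    refine hB.reg (hf.reg fun i => ?_)
    rw [k.self_of_nhds i, hb i, mul_zero]
  nz b h0 := by
    obtain ⟨e, he, k⟩ := hw b
    have ht : Tendsto π (𝓝 b) (𝓝 (π b)) := hB.cont.continuousAt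
    have h1 : ∀ᶠ z in 𝓝 b, ∀ i, f (π b) i (π z) = 0 := by
      filter_upwards [h0, k] with z k1 k2 i
      rw [k2, k1, mul_zero]
    have := he.dense.self_of_nhds
    obtain ⟨b', ⟨k1, k2, k3⟩, k4⟩ := (((h1.eventually_nhds.and (he.zero.and
      (ht.eventually (hf.cmp (π b))))).filter_mono nhdsWithin_le_nhds).and
        (self_mem_nhdsWithin (s := {z | e z ≠ 0}))).exists
    have k5 := hB.map_prn (b := b') (fun h => k4 (k2.1 h)) (Q := fun w => ∀ i, f (π b) i w = 0) k1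
    refine hf.nz (π b') ?_
    filter_upwards [k5, bigO_ev k3.1] with w k6 k7
    exact sz_eq_zero.1 (prn_zero k7 (sz_eq_zero.2 k6))

end Mf

theorem stPrinc (hM : StMain) (hU : StTrU) : StPrinc := by
  intro n κ _ Q hQ X f h0 hf
  let Q' : Pred n := fun X _ O => ∃ f, Q X f ∧ X.Coh f ∧ O.S = zs f ∧
    ∀ p ∈ O.S, O.N p =Θ[𝓝 p] sz (f p)
  have hS : Surv 0 1 Q' := by
    rintro X E O C J ⟨f, h1, h2, h3, h4⟩ - hA
    obtain ⟨c, hC⟩ := hA.ctr
    have hs : C ⊆ zs f := h3 ▸ hA.sub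
    obtain ⟨X', π, hB, h5⟩ := hQ X f C c h1 h2 hC hs
    refine ⟨X', π, hB, fun E' O' _ hT _ => ?_⟩
    choose g e ha he k using wt_exists hB hC h2 hs
    have hw : WT π C f g := fun b => ⟨e b, he b, k b⟩
    have hc := wt_coh hB hC h2 ha hw
    have hN : ∀ b, π b ∈ O.S → O'.N b =Θ[𝓝 b] sz (g b) := fun b hb => by
      have ht : Tendsto π (𝓝 b) (𝓝 (π b)) := hB.cont.continuousAt
      refine hU n X X' π C O O' b (e b) _ hT hb (he b) (sz_cont (ha b)) ?_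
      exact (wt_sz (k b)).isTheta.trans
        ⟨(h4 _ hb).2.comp_tendsto ht, (h4 _ hb).1.comp_tendsto ht⟩
    refine ⟨g, h5 g hw hc, hc, Set.ext fun b => ?_, fun b hb => hN b ((hT.supp b).1 hb).1⟩
    rw [hT.supp b]
    refine ⟨fun h => (ord1_sz (ha b)).1 ((ord1_congr (hN b h.1)).1 h.2), fun h => ?_⟩
    have hb : π b ∈ O.S := by
      rw [h3]
      intro i
      rw [(k b).self_of_nhds i, h i, mul_zero]
    exact ⟨hb, (ord1_congr (hN b hb)).2 ((ord1_sz (ha b)).2 h)⟩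
  obtain ⟨X', -, O', ⟨f', h1, h2, h3, -⟩, h4⟩ := hM n 0 1 Q' one_pos hS X (noDv X)
    ⟨zs f, fun p => sz (f p)⟩ ⟨f, h0, hf, rfl, fun p _ => isTheta_refl _ _⟩ hf.lev hf.nZ
  exact ⟨X', f', h1, h2, h3 ▸ h4⟩

theorem prn_top {n k : ℕ} (h : n < k) : Res n k := by
  intro D Q _ _ X E O hQ hL
  refine ⟨X, E, O, hQ, eq_empty_of_forall_notMem fun p hp => ?_⟩
  obtain ⟨φ, P, -⟩ := hL.pres p hp
  exact absurd P.le (by omega)

theorem stMain (h1 : StMono) (h2 : StNZ) (h3 : StZero) (h4 : StStep) : StMain := by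
  have key : ∀ n k, Res n (k + 1) → ResNZ n k := by
    intro n k h D Q hD hS X E O hQ hL hN
    have : ∀ m, ResBd n k m := fun m => Nat.rec (h1 n k) (fun m ih => h4 n k m h ih) m
    obtain ⟨m, hm⟩ := h2 n k D X E O hD hL hN
    exact this m D Q hD hS X E O 0 hQ hL hm
  have all : ∀ n j k, n < k + 1 + j → Res n (k + 1) := by
    intro n j
    induction j with
    | zero => exact fun k h => prn_top h
    | succ j ih => exact fun k h => h3 n (k + 1) k.succ_pos (key n (k + 1) (ih (k + 1) (by omega)))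
  exact fun n k => key n k (all n n k (by omega))

end Vale.Agent.P287Q.H1
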