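import Vale.Agent.P287Q.H1.Main

/-!
# Principalization with connected centres
-/

open Filter Topology Set Function Asymptotics

noncomputable section

namespace Vale.Agent.P287Q.H1

open Mf

/-- principalization without symmetries: the property has to survive only the blow-ups of connected
centres -/
def StPrincC : Prop := ∀ (n : ℕ) (κ : Type) [Fintype κ]
  (Q : ∀ X : Mf n, (X.M → κ → X.M → ℂ) → Prop), (∀ X f, Q X f → X.Γ = ∅) →
    (∀ (X : Mf n) (f : X.M → κ → X.M → ℂ) (C : Set X.M) (c : ℕ), Q X f → X.Coh f → X.Ctr C c →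
      IsConnected C → C ⊆ zs f → ∃ (X' : Mf n) (π : X'.M → X.M), IsBl π C ∧
        BijOn π (π ⁻¹' Cᶜ) Cᶜ ∧ ∀ f', WT π C f f' → X'.Coh f' → Q X' f') →
      ∀ (X : Mf n) (f : X.M → κ → X.M → ℂ), Q X f → X.Coh f →
        ∃ (X' : Mf n) (f' : X'.M → κ → X'.M → ℂ), Q X' f' ∧ X'.Coh f' ∧ zs f' = ∅

namespace PrC

variable {n : ℕ} {X X' : Mf n} {C : Set X.M} {c : ℕ}

/-- locally a coordinate subspace of codimension `c` -/
def Sub (X : Mf n) (C : Set X.M) (c : ℕ) : Prop :=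
  ∀ p ∈ C, ∃ (φ : X.M → W n) (A : Finset (Fin n)), X.Co p φ ∧ A.card = c ∧
    ∀ᶠ z in 𝓝 p, z ∈ C ↔ φ z ∈ Zs A

theorem convex_Zs (A : Finset (Fin n)) : Convex ℝ (Zs A) := by
  intro x hx y hy a b _ _ _ l hl
  simp [hx l hl, hy l hl]

theorem loc (h : Sub X C c) {q : X.M} (hq : q ∈ C) :
    ∀ᶠ z in 𝓝 q, z ∈ C → z ∈ connectedComponentIn C q := by
  obtain ⟨φ, A, hφ, -, hA⟩ := h q hq
  obtain ⟨ψ, h1, h2, h3, h4, h5⟩ := co_inv hφ
  obtain ⟨r, hr, hb⟩ := Metric.eventually_nhds_iff_ball.1 ((h2.eventually hA).and (h4.and h5))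
  have hc : IsPreconnected (ψ '' (Metric.ball (φ q) r ∩ Zs A)) :=
    ((convex_ball _ _).inter (convex_Zs A)).isPreconnected.image _
      fun w hw => (hb w hw.1).2.2.continuousWithinAt
  have hs : ψ '' (Metric.ball (φ q) r ∩ Zs A) ⊆ connectedComponentIn C q := by
    refine hc.subset_connectedComponentIn
      ⟨φ q, ⟨Metric.mem_ball_self hr, hA.self_of_nhds.1 hq⟩, h1⟩ ?_
    rintro _ ⟨w, hw, rfl⟩
    refine (hb w hw.1).1.2 ?_
    rw [(hb w hw.1).2.1]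
    exact hw.2
  filter_upwards [h3, hA, (co_tendsto hφ).eventually (Metric.ball_mem_nhds _ hr)] with z k1 k2 k3 k4
  exact hs ⟨φ z, ⟨k3, k2.1 k4⟩, k1⟩

theorem loc_in (h : Sub X C c) {p q : X.M} (hq : q ∈ connectedComponentIn C p) :
    ∀ᶠ z in 𝓝 q, z ∈ connectedComponentIn C p ↔ z ∈ C := by
  filter_upwards [loc h (connectedComponentIn_subset _ _ hq)] with z hz
  rw [connectedComponentIn_eq hq]
  exact ⟨fun k => connectedComponentIn_subset _ _ k, hz⟩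

theorem closed_cc (h : Sub X C c) (hC : IsClosed C) (p : X.M) :
    IsClosed (connectedComponentIn C p) := by
  rw [← isOpen_compl_iff, isOpen_iff_eventually]
  intro q hq
  by_cases hq' : q ∈ C
  · filter_upwards [loc h hq'] with z hz k
    refine hq ?_
    rw [connectedComponentIn_eq k, ← connectedComponentIn_eq
      (hz (connectedComponentIn_subset _ _ k))]
    exact mem_connectedComponentIn hq'
  · filter_upwards [hC.isOpen_compl.mem_nhds hq'] with z hz k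
    exact hz (connectedComponentIn_subset _ _ k)

theorem closed_diff (h : Sub X C c) (hC : IsClosed C) (p : X.M) :
    IsClosed (C \ connectedComponentIn C p) := by
  rw [← isOpen_compl_iff, isOpen_iff_eventually]
  intro q hq
  by_cases hq' : q ∈ C
  · have : q ∈ connectedComponentIn C p := by
      by_contra k
      exact hq ⟨hq', k⟩
    filter_upwards [loc_in h this] with z hz k
    exact k.2 (hz.2 k.1)
  · filter_upwards [hC.isOpen_compl.mem_nhds hq'] with z hz k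
    exact hz k.1

theorem cover (h : Sub X C c) (hC : IsCompact C) : ∃ (N : ℕ) (T : Fin N → Set X.M),
    (∀ i, IsPreconnected (T i) ∧ T i ⊆ C) ∧ C ⊆ ⋃ i, T i := by
  obtain ⟨t, ht⟩ := hC.elim_nhds_subcover' (fun q _ => {z | z ∈ C → z ∈ connectedComponentIn C q})
    fun q hq => loc h hq
  refine ⟨_, fun i => connectedComponentIn C (t.equivFin.symm i).1.1,
    fun i => ⟨isPreconnected_connectedComponentIn, connectedComponentIn_subset _ _⟩, fun z hz => ?_⟩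
  obtain ⟨q, hq, k⟩ := mem_iUnion₂.1 (ht hz)
  exact mem_iUnion.2 ⟨t.equivFin ⟨q, hq⟩, by simpa using k hz⟩

variable {π : X'.M → X.M}

theorem pre_conn (hB : IsBl π C) (hC : IsClosed C) (hb : BijOn π (π ⁻¹' Cᶜ) Cᶜ) {T : Set X.M}
    (hT : IsPreconnected T) (hd : T ⊆ Cᶜ) : IsPreconnected (π ⁻¹' T) := by
  have ho : IsOpen (π ⁻¹' Cᶜ) := hC.isOpen_compl.preimage hB.cont
  let g : (π ⁻¹' Cᶜ : Set X'.M) → X.M := fun b => π b.1
  have hg : IsOpenEmbedding g := by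
    refine isOpenEmbedding_iff_continuous_injective_isOpenMap.2
      ⟨hB.cont.comp continuous_subtype_val, fun a b k => Subtype.ext (hb.injOn a.2 b.2 k), ?_⟩
    refine isOpenMap_iff_nhds_le.2 fun b => ?_
    intro s hs
    have h1 : ∀ᶠ z in 𝓝 b.1, π z ∈ s := by
      rw [← ho.isOpenEmbedding_subtypeVal.map_nhds_eq]
      exact hs
    exact hB.map_prn (b := b.1) b.2 (Q := fun w => w ∈ s) h1
  have h1 : g '' (g ⁻¹' T) = T := image_preimage_eq_of_subset fun t ht => by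
    obtain ⟨b, k1, k2⟩ := hb.surjOn (hd ht)
    exact ⟨⟨b, k1⟩, k2⟩
  have h2 : IsPreconnected (g ⁻¹' T) := hg.isInducing.isPreconnected_image.1 (h1.symm ▸ hT)
  have h3 : π ⁻¹' T = Subtype.val '' (g ⁻¹' T) := by
    ext b
    exact ⟨fun k => ⟨⟨b, hd k⟩, k, rfl⟩, by rintro ⟨b, k, rfl⟩; exact k⟩
  rw [h3]
  exact h2.image _ continuous_subtype_val.continuousOn

theorem eqn_congr {Y Y' : Set X.M} {p : X.M} {e : X.M → ℂ} (h : X.Eqn Y p e)
    (k : ∀ᶠ z in 𝓝 p, z ∈ Y' ↔ z ∈ Y) : X.Eqn Y' p e := by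
  rcases h with ⟨rfl, h⟩ | ⟨φ, i, hφ, rfl, h⟩
  · exact Or.inl ⟨rfl, by filter_upwards [h, k] with z h1 h2 h3 using h1 (h2.1 h3)⟩
  · exact Or.inr ⟨φ, i, hφ, rfl, by filter_upwards [h, k] with z h1 h2 using h2.trans h1⟩

theorem eqn_off (hB : IsBl π C) {b : X'.M} (hb : π b ∉ C) {Y : Set X.M} {e : X.M → ℂ}
    (h : X.Eqn Y (π b) e) : X'.Eqn (π ⁻¹' Y) b (e ∘ π) := by
  have ht : Tendsto π (𝓝 b) (𝓝 (π b)) := hB.cont.continuousAt
  rcases h with ⟨rfl, h⟩ | ⟨φ, i, hφ, rfl, h⟩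
  · exact Or.inl ⟨rfl, ht.eventually h⟩
  · exact Or.inr ⟨φ ∘ π, i, hB.off b hb φ hφ, rfl, ht.eventually h⟩

theorem eqn_unit {Y : Set X.M} {p : X.M} {e : X.M → ℂ} (h : X.Eqn Y p e) (hp : p ∉ Y) :
    (fun z => ‖e z‖) =Θ[𝓝 p] fun _ => (1 : ℝ) := by
  have h0 : e p ≠ 0 := fun k => hp (h.zero.self_of_nhds.2 k)
  have hc := h.cont.self_of_nhds
  have : e =Θ[𝓝 p] fun _ => (1 : ℂ) :=
    ⟨isBigO_of_ne continuousAt_const hc one_ne_zero, isBigO_of_ne hc continuousAt_const h0⟩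
  simpa using this.norm_left.norm_right

theorem isBl_comp {X₂ : Mf n} {π₂ : X₂.M → X'.M} {K : Set X.M} (hK : IsClosed K) (hs : K ⊆ C)
    (ho : ∀ q ∈ K, ∀ᶠ z in 𝓝 q, z ∈ K ↔ z ∈ C) (h1 : IsBl π K) (h2 : IsBl π₂ (π ⁻¹' (C \ K)))
    (hΓ : X₂.Γ = ∅) : IsBl (π ∘ π₂) C where
  cont := h1.cont.comp h2.cont
  off b hb φ hφ := h2.off b (fun k => hb k.1) _ (h1.off _ (fun k => hb (hs k)) φ hφ)
  ovr b hb φ A hφ hA := by
    have t1 : Tendsto π (𝓝 (π₂ b)) (𝓝 (π (π₂ b))) := h1.cont.continuousAt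
    have t2 : Tendsto π₂ (𝓝 b) (𝓝 (π₂ b)) := h2.cont.continuousAt
    by_cases hb' : π (π₂ b) ∈ K
    · obtain ⟨i, hi, φ', k1, k2⟩ := h1.ovr (π₂ b) hb' φ A hφ
        (by filter_upwards [ho _ hb', hA] with z a1 a2 using a1.trans a2)
      exact ⟨i, hi, φ' ∘ π₂, h2.off b (fun k => k.2 hb') _ k1, t2.eventually k2⟩
    · refine h2.ovr b ⟨hb, hb'⟩ (φ ∘ π) A (h1.off _ hb' φ hφ) ?_
      filter_upwards [t1.eventually hA, t1.eventually (hK.isOpen_compl.mem_nhds hb')] with z a1 a2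
      exact ⟨fun k => a1.1 k.1, fun k => ⟨a1.2 k, a2⟩⟩
  cov γ hγ := by simp [hΓ] at hγ
  reg b hb := h2.reg (h1.reg hb)

theorem iter {κ : Type} [Fintype κ] {Q : ∀ X : Mf n, (X.M → κ → X.M → ℂ) → Prop}
    (hΓ : ∀ X f, Q X f → X.Γ = ∅)
    (hQ : ∀ (X : Mf n) (f : X.M → κ → X.M → ℂ) (C : Set X.M) (c : ℕ), Q X f → X.Coh f →
      X.Ctr C c → IsConnected C → C ⊆ zs f → ∃ (X' : Mf n) (π : X'.M → X.M), IsBl π C ∧
        BijOn π (π ⁻¹' Cᶜ) Cᶜ ∧ ∀ f', WT π C f f' → X'.Coh f' → Q X' f') (hc : 0 < c) (N : ℕ) :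
    ∀ (X : Mf n) (f : X.M → κ → X.M → ℂ) (C : Set X.M) (T : Fin N → Set X.M), Q X f → X.Coh f →
      IsClosed C → Sub X C c → C ⊆ zs f → (∀ i, IsPreconnected (T i) ∧ T i ⊆ C) → C ⊆ ⋃ i, T i →
        ∃ (X' : Mf n) (π : X'.M → X.M) (g : X'.M → κ → X'.M → ℂ), IsBl π C ∧ Q X' g ∧ X'.Coh g ∧
          ∀ b, ∃ e, X'.Eqn (π ⁻¹' C) b e ∧
            (fun z => ‖e z‖ * sz (g b) z) =Θ[𝓝 b] (sz (f (π b)) ∘ π) := by
  induction N with
  | zero =>
    intro X f C T h1 h2 _ _ _ _ h7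
    obtain rfl : C = ∅ := by simpa using h7
    refine ⟨X, id, f, ⟨continuous_id, fun _ _ _ h => h, fun _ h => h.elim,
      fun γ hγ => ⟨γ, hγ, fun _ h => ⟨h, rfl⟩⟩, fun _ h => h⟩, h1, h2, fun b =>
        ⟨1, Or.inl ⟨rfl, Eventually.of_forall fun _ h => h⟩, ?_⟩⟩
    simpa using isTheta_refl _ _
  | succ N ih =>
    intro X f C T h1 h2 h3 h4 h5 h6 h7
    rcases (T 0).eq_empty_or_nonempty with h0 | ⟨p, hp⟩
    · refine ih X f C (fun i => T i.succ) h1 h2 h3 h4 h5 (fun i => h6 _) fun z hz => ?_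
      obtain ⟨i, hi⟩ := mem_iUnion.1 (h7 hz)
      rcases Fin.eq_zero_or_eq_succ i with rfl | ⟨j, rfl⟩
      · simp [h0] at hi
      · exact mem_iUnion.2 ⟨j, hi⟩
    have hpC : p ∈ C := (h6 0).2 hp
    set K := connectedComponentIn C p with hK
    have hs : K ⊆ C := connectedComponentIn_subset _ _
    have hKc : IsClosed K := closed_cc h4 h3 p
    have ho : ∀ q ∈ K, ∀ᶠ z in 𝓝 q, z ∈ K ↔ z ∈ C := fun q hq => loc_in h4 hq
    have hct : X.Ctr K c := by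
      refine ⟨⟨p, mem_connectedComponentIn hpC⟩, hKc, fun γ hγ => by simp [hΓ X f h1] at hγ, hc,
        fun q hq => ?_⟩
      obtain ⟨φ, A, k1, k2, k3⟩ := h4 q (hs hq)
      exact ⟨φ, A, k1, k2, by filter_upwards [ho q hq, k3] with z a1 a2 using a1.trans a2⟩
    obtain ⟨X₁, π₁, hB, hb, k⟩ := hQ X f K c h1 h2 hct
      ⟨hct.ne, isPreconnected_connectedComponentIn⟩ (hs.trans h5)
    choose g e ha he k1 using wt_exists hB hct h2 (hs.trans h5)
    have hw : WT π₁ K f g := fun b => ⟨e b, he b, k1 b⟩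
    have hg := wt_coh hB hct h2 ha hw
    have t1 : ∀ b, Tendsto π₁ (𝓝 b) (𝓝 (π₁ b)) := fun b => hB.cont.continuousAt
    obtain ⟨X₂, π₂, g₂, hB₂, q₂, c₂, k₂⟩ := ih X₁ g (π₁ ⁻¹' (C \ K))
      (fun i => π₁ ⁻¹' (T i.succ \ K)) (k g hw hg) hg ((closed_diff h4 h3 p).preimage hB.cont)
      (fun b hb' => by
        obtain ⟨φ, A, a1, a2, a3⟩ := h4 _ hb'.1
        refine ⟨φ ∘ π₁, A, hB.off b hb'.2 φ a1, a2, ?_⟩
        filter_upwards [(t1 b).eventually a3,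
          (t1 b).eventually (hKc.isOpen_compl.mem_nhds hb'.2)] with z a4 a5
        exact ⟨fun k => a4.1 k.1, fun k => ⟨a4.2 k, a5⟩⟩)
      (fun b hb' i => by
        have a1 := (k1 b).self_of_nhds i
        rw [h5 hb'.1 i] at a1
        exact (mul_eq_zero.1 a1.symm).resolve_left
          fun a2 => hb'.2 ((he b).zero.self_of_nhds.2 a2))
      (fun i => by
        refine ⟨?_, preimage_mono (sdiff_subset_sdiff_left (h6 _).2)⟩
        by_cases hd : Disjoint (T i.succ) K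
        · rw [hd.sdiff_eq_left]
          exact pre_conn hB hKc hb (h6 _).1 hd.subset_compl_right
        · obtain ⟨z, a1, a2⟩ := not_disjoint_iff.1 hd
          have : T i.succ ⊆ K := by
            rw [hK, connectedComponentIn_eq a2]
            exact (h6 _).1.subset_connectedComponentIn a1 (h6 _).2
          rw [Set.sdiff_eq_empty.2 this]
          exact isPreconnected_empty)
      (fun b hb' => by
        obtain ⟨i, hi⟩ := mem_iUnion.1 (h7 hb'.1)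
        rcases Fin.eq_zero_or_eq_succ i with rfl | ⟨j, rfl⟩
        · exact absurd ((h6 0).1.subset_connectedComponentIn hp (h6 0).2 hi) hb'.2
        · exact mem_iUnion.2 ⟨j, hi, hb'.2⟩)
    refine ⟨X₂, π₁ ∘ π₂, g₂, isBl_comp hKc hs ho hB hB₂ (hΓ _ _ q₂), q₂, c₂, fun b => ?_⟩
    obtain ⟨e₂, a1, a2⟩ := k₂ b
    have t2 : Tendsto π₂ (𝓝 b) (𝓝 (π₂ b)) := hB₂.cont.continuousAt
    have a3 : (fun z => ‖e (π₂ b) (π₂ z)‖ * (‖e₂ z‖ * sz (g₂ b) z)) =Θ[𝓝 b]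
        (sz (f (π₁ (π₂ b))) ∘ π₁ ∘ π₂) :=
      ((isTheta_refl _ _).mul a2).trans (EventuallyEq.isTheta (t2.eventually (wt_sz (k1 (π₂ b)))))
    by_cases hb' : π₁ (π₂ b) ∈ K
    · have a4 : π₂ b ∉ π₁ ⁻¹' (C \ K) := fun k => k.2 hb'
      refine ⟨e (π₂ b) ∘ π₂, eqn_congr (eqn_off hB₂ a4 (he (π₂ b))) ?_, IsTheta.trans ?_ a3⟩
      · exact (((t1 _).comp t2).eventually (ho _ hb')).mono fun z k => k.symm
      · refine (isTheta_refl _ _).mul ?_
        simpa using ((eqn_unit a1 a4).mul (isTheta_refl (sz (g₂ b)) (𝓝 b))).symm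
    · refine ⟨e₂, eqn_congr a1 ?_, IsTheta.trans ?_ a3⟩
      · filter_upwards [((t1 _).comp t2).eventually (hKc.isOpen_compl.mem_nhds hb')] with z k
        exact ⟨fun k' => ⟨k', k⟩, fun k' => k'.1⟩
      · have a5 := eqn_unit (he (π₂ b)) hb'
        have a6 : (fun z => ‖e (π₂ b) (π₂ z)‖) =Θ[𝓝 b] fun _ => (1 : ℝ) :=
          ⟨a5.1.comp_tendsto t2, a5.2.comp_tendsto t2⟩
        simpa using (a6.mul (isTheta_refl (fun z => ‖e₂ z‖ * sz (g₂ b) z) (𝓝 b))).symm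

end PrC

/-- **Principalization with connected centres.** -/
theorem princC : StPrincC := by
  intro n κ _ Q hΓ hQ X f h0 hf
  have zz : ∀ (X : Mf n) (f g : X.M → κ → X.M → ℂ), (∀ p, sz (f p) =Θ[𝓝 p] sz (g p)) →
      zs f ⊆ zs g := fun X f g h p hp => sz_eq_zero.1 (prn_zero (h p).2 (sz_eq_zero.2 hp))
  obtain ⟨X', f', ⟨g, h1, h2, h3⟩, -, h4⟩ := princ n κ
    (fun X f => ∃ g, Q X g ∧ X.Coh g ∧ ∀ p, sz (f p) =Θ[𝓝 p] sz (g p)) (by
      rintro X f C c ⟨g, h1, h2, h3⟩ - hC hs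
      have hs' := hs.trans (zz X f g h3)
      obtain ⟨K, hK, k⟩ := X.cpt
      have hcp : IsCompact C := hK.of_isClosed_subset hC.closed fun p hp =>
        (k p (h2.reg (hs' hp))).resolve_right (by simp [hΓ X g h1])
      obtain ⟨N, T, a1, a2⟩ := PrC.cover hC.sub hcp
      obtain ⟨X', π, g', b1, b2, b3, b4⟩ :=
        PrC.iter hΓ hQ hC.pos N X g C T h1 h2 hC.closed hC.sub hs' a1 a2
      refine ⟨X', π, b1, fun f' hw hc => ⟨g', b2, b3, fun b => ?_⟩⟩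
      obtain ⟨e, he, k1⟩ := hw b
      obtain ⟨e', he', k2⟩ := b4 b
      have ht : Tendsto π (𝓝 b) (𝓝 (π b)) := b1.cont.continuousAt
      exact prn_theta he he' (sz_cont (hc.an b)) (sz_cont (b3.an b))
        (((wt_sz k1).isTheta.trans ⟨(h3 _).1.comp_tendsto ht, (h3 _).2.comp_tendsto ht⟩).trans
          k2.symm))
    X f ⟨f, h0, hf, fun p => isTheta_refl _ _⟩ hf
  exact ⟨X', g, h1, h2, subset_empty_iff.1 (h4 ▸ zz X' g f' fun p => (h3 p).symm)⟩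

end Vale.Agent.P287Q.H1
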