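import Vale.Agent.P287Q.H1.Emb

/-!
# Translations in a chart; all local isomorphisms which keep a size function
-/

open Filter Topology Set Function Asymptotics

noncomputable section

namespace Vale.Agent.P287Q.H1

namespace Mf

variable {n : ℕ} {X : Mf n}

theorem isCo_add (v q : W n) : IsCo (fun w => w + v) q := by
  refine ⟨analyticAt_id.add analyticAt_const, ?_⟩
  rw [fderiv_add_const, fderiv_fun_id]
  exact bijective_id

theorem trl_hol {φ : X.M → W n} {V : Set X.M} (hV : ∀ b ∈ V, X.Co b φ)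
    {γ : OpenPartialHomeomorph X.M X.M} {v : W n}
    (h : ∀ b ∈ γ.source, b ∈ V ∧ γ b ∈ V ∧ φ (γ b) = φ b + v) : X.Hol γ := by
  intro b hb φ' hφ'
  obtain ⟨h1, h2, h3⟩ := h b hb
  obtain ⟨θ, k1, k2⟩ := X.tr _ _ _ (hV _ h2) hφ'
  refine X.sat b φ _ (θ ∘ fun w => w + v) (hV _ h1) (IsCo.comp (h3 ▸ k1) (isCo_add v _)) ?_
  filter_upwards [(prn_tendsto hb).eventually k2, γ.open_source.mem_nhds hb] with z a1 a2
  simp only [comp_apply] at a1 ⊢
  rw [a1, (h z a2).2.2]

theorem exists_trl {p : X.M} {φ : X.M → W n} (hφ : X.Co p φ) {S : X.M → ℝ} {g : W n → ℝ}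
    (h : S =Θ[𝓝 p] fun z => g (φ z)) :
    ∀ᶠ q in 𝓝 p, (∀ w, g (w + (φ q - φ p)) = g w) → ∃ γ : OpenPartialHomeomorph X.M X.M,
      X.Hol γ ∧ X.Hol γ.symm ∧ (∀ b ∈ γ.source, (S ∘ γ) =Θ[𝓝 b] S) ∧ p ∈ γ.source ∧ γ p = q := by
  obtain ⟨e, he, e1⟩ := X.hom p φ hφ
  obtain ⟨V, h1, h2, h3⟩ := eventually_nhds_iff.1 ((X.ev p φ hφ).and (e1.and (theta_ev h)))
  filter_upwards [h2.mem_nhds h3, e.open_source.mem_nhds he] with q hq hq' hg
  set v := φ q - φ p with hv
  let e' := e.restrOpen V h2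
  let γ := e'.trans ((Homeomorph.addRight v).toOpenPartialHomeomorph.trans e'.symm)
  have k : ∀ b ∈ γ.source, b ∈ V ∧ γ b ∈ V ∧ φ (γ b) = φ b + v := by
    intro b hb
    have hb1 : b ∈ e'.source := hb.1
    have hb2 : e' b + v ∈ e'.target := hb.2.2
    have a1 : γ b ∈ e'.source := e'.map_target hb2
    refine ⟨hb1.2, a1.2, ?_⟩
    rw [(h1 _ a1.2).2.1, (h1 _ hb1.2).2.1]
    exact e'.right_inv hb2
  have a0 : e' p + v = e' q := by
    change e p + v = e q
    rw [← (h1 p h3).2.1, ← (h1 q hq).2.1, hv, add_sub_cancel]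
  have hp : p ∈ γ.source := ⟨⟨he, h3⟩, mem_univ _, by
    change e' p + v ∈ e'.target
    rw [a0]
    exact e'.map_source ⟨hq', hq⟩⟩
  refine ⟨γ, trl_hol (fun b hb => (h1 b hb).1) k,
    trl_hol (v := -v) (fun b hb => (h1 b hb).1) fun b hb => ?_, fun b hb => ?_, hp, ?_⟩
  · obtain ⟨a1, a2, a3⟩ := k _ (γ.map_target hb)
    rw [γ.right_inv hb] at a2 a3
    exact ⟨a2, a1, by rw [a3, add_neg_cancel_right]⟩
  · obtain ⟨a1, a2, -⟩ := k b hb
    have a4 := (h1 _ a2).2.2
    refine IsTheta.trans ⟨a4.1.comp_tendsto (prn_tendsto hb), a4.2.comp_tendsto (prn_tendsto hb)⟩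
      (IsTheta.trans (EventuallyEq.isTheta ?_) (h1 _ a1).2.2.symm)
    filter_upwards [γ.open_source.mem_nhds hb] with z hz
    simp only [comp_apply]
    rw [(k z hz).2.2, hg]
  · change e'.symm (e' p + v) = q
    rw [a0]
    exact e'.left_inv ⟨hq', hq⟩

/-- the same manifold with all local isomorphisms which keep `S` -/
abbrev keep (X : Mf n) (S : X.M → ℝ) (hc : IsCompact (univ : Set X.M)) : Mf n :=
  { X with
    Γ := {γ | X.Hol γ ∧ X.Hol γ.symm ∧ ∀ b ∈ γ.source, (S ∘ γ) =Θ[𝓝 b] S}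
    symm := fun γ h => ⟨h.2.1, h.1, fun b hb => by
      have a1 := h.2.2 _ (γ.map_target hb)
      have a2 : Tendsto γ.symm (𝓝 b) (𝓝 (γ.symm b)) := γ.symm.continuousAt hb
      refine IsTheta.trans ⟨a1.2.comp_tendsto a2, a1.1.comp_tendsto a2⟩ (EventuallyEq.isTheta ?_)
      filter_upwards [γ.open_target.mem_nhds hb] with z hz
      simp only [comp_apply, γ.right_inv hz]⟩
    hol := fun γ h => h.1
    R := univ
    cpt := ⟨univ, hc, fun p _ => Or.inl (mem_univ p)⟩ }

end Mf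

/-- a family with injective normal derivative is comparable with the normal coordinates -/
theorem theta_normal {E F B : Type*} [NormedAddCommGroup E] [NormedSpace ℂ E]
    [NormedAddCommGroup F] [NormedSpace ℂ F] [NormedAddCommGroup B] [NormedSpace ℂ B]
    [FiniteDimensional ℂ F] [CompleteSpace B] {G : F × E → B} {x : E}
    (hG : AnalyticAt ℂ G (0, x)) (h0 : ∀ᶠ z in 𝓝 x, G (0, z) = 0)
    (hi : ∀ a, fderiv ℂ G (0, x) (a, 0) = 0 → a = 0) : G =Θ[𝓝 (0, x)] fun p => p.1 := by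
  set L := fderiv ℂ G (0, x) with hL
  have hs : HasStrictFDerivAt G L (0, x) := hG.hasStrictFDerivAt
  have t1 : Tendsto (fun p : F × E => (p, ((0 : F), p.2))) (𝓝 (0, x)) (𝓝 ((0, x), (0, x))) :=
    (continuous_id.prodMk (continuous_const.prodMk continuous_snd)).tendsto' _ _ rfl
  have h1 : (fun p : F × E => G p - L (p.1, 0)) =o[𝓝 (0, x)] fun p => p.1 := by
    have a1 := hs.isLittleO.comp_tendsto t1
    refine (a1.congr' ?_ EventuallyEq.rfl).trans_isBigO (IsBigO.of_bound 1 ?_)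
    · filter_upwards [continuous_snd.continuousAt.eventually h0] with p hp
      simp only [comp_apply, hp, sub_zero]
      congr 2
      ext <;> simp
    · refine Eventually.of_forall fun p => ?_
      have : p - ((0 : F), p.2) = (p.1, 0) := by ext <;> simp
      simp [this]
  let M : F →L[ℂ] B := L.comp (ContinuousLinearMap.inl ℂ F E)
  obtain ⟨K, -, hK⟩ := (M : F →ₗ[ℂ] B).exists_antilipschitzWith
    (LinearMap.ker_eq_bot'.2 fun a ha => hi a ha)
  have h2 : (fun p : F × E => L (p.1, 0)) =Θ[𝓝 (0, x)] fun p => p.1 := by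
    refine ⟨(M.isBigO_comp (fun p : F × E => p.1) _), IsBigO.of_bound K ?_⟩
    exact Eventually.of_forall fun p => ZeroHomClass.bound_of_antilipschitz (M : F →ₗ[ℂ] B) hK p.1
  have h3 := (h1.trans_isBigO h2.2).add_isTheta (isTheta_refl _ _)
  refine IsTheta.trans (IsTheta.trans (EventuallyEq.isTheta ?_) h3) h2
  exact Eventually.of_forall fun p => (sub_add_cancel _ _).symm

end Vale.Agent.P287Q.H1
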